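import Crest.Agent.N337.C.Dec

/-! # Row 337: the polar bound gives a flat canonical window (`B1Stmt`). -/

set_option autoImplicit false
set_option linter.unusedVariables false
set_option maxHeartbeats 400000

namespace Crest.Agent.N337.C

open Finset Filter Topology

namespace B

/-- truncated geometric sum -/
noncomputable def gs (τ : ℝ) (M : ℕ) : ℝ := ∑ i ∈ range M, Real.exp (-(τ * i))

theorem exp_succ (τ : ℝ) (M : ℕ) :
    Real.exp (-(τ * (M + 1 : ℕ))) = Real.exp (-(τ * M)) * Real.exp (-τ) := by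
  rw [← Real.exp_add]; congr 1; push_cast; ring

theorem gs_lo (τ : ℝ) (M : ℕ) : 1 - Real.exp (-(τ * M)) ≤ τ * gs τ M := by
  induction M with
  | zero => simp [gs]
  | succ M ih =>
    rw [gs, sum_range_succ, ← gs, exp_succ]
    have h1 := Real.add_one_le_exp (-τ)
    have h2 := Real.exp_pos (-(τ * M))
    nlinarith

theorem gs_hi {τ : ℝ} (M : ℕ) : τ * gs τ M ≤ (1 + τ) * (1 - Real.exp (-(τ * M))) := by
  induction M with
  | zero => simp [gs]
  | succ M ih =>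
    rw [gs, sum_range_succ, ← gs, exp_succ]
    have h1 : (1 + τ) * Real.exp (-τ) ≤ 1 := by
      have := Real.add_one_le_exp τ
      rw [Real.exp_neg, ← div_eq_mul_inv, div_le_one (Real.exp_pos _)]
      linarith
    have h2 := Real.exp_pos (-(τ * M))
    nlinarith

theorem le_gs {τ : ℝ} (hτ : 0 ≤ τ) (M : ℕ) : M * Real.exp (-(τ * M)) ≤ gs τ M := by
  have : ∑ _i ∈ range M, Real.exp (-(τ * M)) ≤ gs τ M := sum_le_sum fun i hi =>
    Real.exp_le_exp.2 (neg_le_neg (mul_le_mul_of_nonneg_left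
      (Nat.cast_le.2 (mem_range.1 hi).le) hτ))
  simpa using this

theorem tele (τ : ℝ) (M : ℕ) : (1 - τ) * gs τ M - M * Real.exp (-(τ * M))
    ≤ τ * ∑ i ∈ range M, (i : ℝ) * Real.exp (-(τ * i)) := by
  induction M with
  | zero => simp [gs]
  | succ M ih =>
    rw [gs, sum_range_succ, ← gs, sum_range_succ, exp_succ]
    have h1 := Real.add_one_le_exp (-τ)
    have h2 := Real.exp_pos (-(τ * M))
    have h3 : (0 : ℝ) ≤ (M + 1) * Real.exp (-(τ * M)) := by positivity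
    push_cast
    nlinarith [mul_le_mul_of_nonneg_left h1 h3]

/-- the layer sums -/
noncomputable def Fk (τ K : ℝ) (n k : ℕ) : ℝ :=
  ∑ N ∈ Icc k (n - k), Real.exp (-(τ * N)) * (K - N)

theorem Fk_le {τ : ℝ} (hτ : 0 < τ) (K : ℝ) {n k : ℕ} (hk : 2 * k ≤ n) :
    τ * Fk τ (K + 1 / τ) n k ≤ Real.exp (-(τ * k)) * (τ * gs τ (n - 2 * k + 1) * (K + 1 - k)
      + (n - 2 * k + 1 : ℕ) * Real.exp (-(τ * (n - 2 * k + 1 : ℕ)))) := by
  have e : Fk τ (K + 1 / τ) n k = Real.exp (-(τ * k)) * (gs τ (n - 2 * k + 1) * (K + 1 / τ - k)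
      - ∑ i ∈ range (n - 2 * k + 1), (i : ℝ) * Real.exp (-(τ * i))) := by
    rw [Fk, ← Finset.Ico_add_one_right_eq_Icc, sum_Ico_eq_sum_range,
      show n - k + 1 - k = n - 2 * k + 1 by omega, gs, sum_mul, ← sum_sub_distrib, mul_sum]
    refine sum_congr rfl fun i _ => ?_
    push_cast
    rw [mul_add, neg_add, Real.exp_add]
    ring
  rw [e, mul_left_comm]
  refine mul_le_mul_of_nonneg_left ?_ (Real.exp_pos _).le
  have h1 := tele τ (n - 2 * k + 1)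
  have h2 : τ * (gs τ (n - 2 * k + 1) * (K + 1 / τ - k))
      = τ * gs τ (n - 2 * k + 1) * (K - k) + gs τ (n - 2 * k + 1) := by
    field_simp
    ring
  rw [mul_sub, h2]
  linarith

theorem Fk_nonpos {τ : ℝ} (hτ : 0 < τ) {K : ℝ} {n k : ℕ} (hk : 2 * k ≤ n)
    (h : K + 1 + 1 / τ ≤ k) : τ * Fk τ (K + 1 / τ) n k ≤ 0 := by
  refine (Fk_le hτ K hk).trans (mul_nonpos_of_nonneg_of_nonpos (Real.exp_pos _).le ?_)
  have h1 := le_gs hτ.le (n - 2 * k + 1)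
  have h2 : 0 ≤ gs τ (n - 2 * k + 1) := le_trans (by positivity) h1
  have h3 : τ * gs τ (n - 2 * k + 1) * (K + 1 - k) ≤ τ * gs τ (n - 2 * k + 1) * (-(1 / τ)) :=
    mul_le_mul_of_nonneg_left (by linarith) (by positivity)
  have h4 : τ * gs τ (n - 2 * k + 1) * (-(1 / τ)) = -gs τ (n - 2 * k + 1) := by field_simp
  linarith

theorem Fk_mid {τ u : ℝ} (hτ : 0 < τ) (hτ1 : τ ≤ 1) (hu : 2 ≤ u) {K K1 : ℝ} {n k : ℕ}
    (hk : 2 * k ≤ n) (h : u / 2 ≤ τ * (n - 2 * k))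
    (hK : K + 1 + 2 * (n + 1) * Real.exp (-(u / 2)) ≤ K1) :
    ∃ g, 1 / 2 ≤ g ∧ g ≤ 2 ∧ τ * Fk τ (K + 1 / τ) n k ≤ Real.exp (-(τ * k)) * (g * (K1 - k)) := by
  have hc : ((n - 2 * k + 1 : ℕ) : ℝ) = n - 2 * k + 1 := by
    rw [Nat.cast_add, Nat.cast_sub hk]; push_cast; ring
  have h0 : u / 2 ≤ τ * (n - 2 * k + 1 : ℕ) := by rw [hc]; linarith
  have h1 : Real.exp (-(τ * (n - 2 * k + 1 : ℕ))) ≤ Real.exp (-(u / 2)) :=
    Real.exp_le_exp.2 (by linarith)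
  have h2 : Real.exp (-(u / 2)) ≤ 1 / 2 := by
    rw [Real.exp_neg, ← one_div]
    exact one_div_le_one_div_of_le two_pos (by linarith [Real.add_one_le_exp (u / 2)])
  have h3 := gs_lo τ (n - 2 * k + 1)
  have h4 := gs_hi (τ := τ) (n - 2 * k + 1)
  have h5 := Real.exp_pos (-(τ * (n - 2 * k + 1 : ℕ)))
  refine ⟨τ * gs τ (n - 2 * k + 1), by linarith, by nlinarith, (Fk_le hτ K hk).trans
    (mul_le_mul_of_nonneg_left ?_ (Real.exp_pos _).le)⟩
  have h6 : ((n - 2 * k + 1 : ℕ) : ℝ) * Real.exp (-(τ * (n - 2 * k + 1 : ℕ)))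
      ≤ (n + 1) * Real.exp (-(u / 2)) :=
    mul_le_mul (by rw [hc]; linarith [Nat.cast_nonneg (α := ℝ) k]) h1 h5.le (by positivity)
  have h7 : (0 : ℝ) ≤ (n + 1) * Real.exp (-(u / 2)) := by positivity
  have h8 : 1 / 2 ≤ τ * gs τ (n - 2 * k + 1) := by linarith
  nlinarith [mul_le_mul_of_nonneg_left hK (le_trans (by norm_num) h8),
    mul_le_mul_of_nonneg_right h8 h7]

theorem dd_le {Z : ℕ → ℝ} {n : ℕ} (h : Uni Z n) (k : ℕ) : dd Z k ≤ Z k := by
  cases k with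
  | zero => exact le_rfl
  | succ k => exact sub_le_self _ (h.nonneg k)

theorem mo_pos {Z : ℕ → ℝ} {n : ℕ} (h : Uni Z n) (τ : ℝ) : 0 < mo Z n 0 τ :=
  sum_pos' (fun N _ => mul_nonneg (mul_nonneg (h.nonneg N) (by positivity)) (Real.exp_pos _).le)
    ⟨0, by simp, by simpa using h.pos⟩

/-- the deterministic estimate -/
theorem main {Z : ℕ → ℝ} {n : ℕ} (hZ : Uni Z n) {τ u K K1 D D' D'' s a q : ℝ} {Nm N1 : ℕ}
    (hτ : 0 < τ) (hτ1 : τ ≤ 1) (hu : 2 ≤ u) (hq : u / 2 ≤ τ * (n - 2 * q))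
    (hKq : K + 1 + 1 / τ ≤ q) (h1 : Nm ≤ N1) (h2 : (N1 : ℝ) ≤ q) (h3 : 2 * N1 ≤ n)
    (hK : K + 1 + 2 * (n + 1) * Real.exp (-(u / 2)) ≤ K1) (hD : K1 + D ≤ Nm) (hD0 : 0 ≤ D)
    (hD' : K1 - a ≤ D') (hD'0 : 0 ≤ D') (hD'' : K1 ≤ D'') (hD''0 : 0 ≤ D'') (hs : 0 ≤ s)
    (hsm : ∀ k : ℕ, (k : ℝ) ≤ a → ((n + 1 : ℕ) : ℝ) * Z k ≤ s * Z Nm)
    (hyp : mo Z n 1 τ / mo Z n 0 τ ≤ K + 1 / τ) :
    (Z N1 - Z Nm) * (Real.exp (-(τ * N1)) * (D / 2)) ≤ (2 * D' + 2 * D'' * s) * Z Nm := by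
  classical
  have hn : (0 : ℝ) < (n + 1 : ℕ) := by positivity
  have hZm := hZ.nonneg Nm
  set Q := 2 * D'' * (s * Z Nm / (n + 1 : ℕ)) with hQ
  set R := Real.exp (-(τ * N1)) * (D / 2) with hR
  have hQ0 : 0 ≤ Q := by positivity
  have e0 : 0 ≤ ∑ k ∈ range (n / 2 + 1), dd Z k * (τ * Fk τ (K + 1 / τ) n k) := by
    rw [div_le_iff₀ (mo_pos hZ τ)] at hyp
    have e1 := hZ.decomp fun N => Real.exp (-(τ * N)) * (K + 1 / τ - N)
    have e2 : ∑ N ∈ range (n + 1), Z N * (Real.exp (-(τ * N)) * (K + 1 / τ - N))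
        = (K + 1 / τ) * mo Z n 0 τ - mo Z n 1 τ := by
      rw [mo, mo, mul_sum, ← sum_sub_distrib]
      exact sum_congr rfl fun N _ => by ring
    simp only [mul_left_comm _ τ, ← mul_sum]
    refine mul_nonneg hτ.le ?_
    simp only [Fk]
    rw [← e1, e2]
    linarith
  have e3 : ∀ k ∈ range (n / 2 + 1), dd Z k * (τ * Fk τ (K + 1 / τ) n k) ≤
      (if k ∈ range (Nm + 1) then dd Z k * (2 * D') else 0) + Q
        - if k ∈ Ioc Nm N1 then dd Z k * R else 0 := by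
    intro k hk
    have hk2 : 2 * k ≤ n := by have := mem_range.1 hk; omega
    have hd := hZ.dd_nonneg hk2
    have mid : (k : ℝ) ≤ q → ∃ g, 1 / 2 ≤ g ∧ g ≤ 2 ∧
        τ * Fk τ (K + 1 / τ) n k ≤ Real.exp (-(τ * k)) * (g * (K1 - k)) := fun hkq =>
      Fk_mid hτ hτ1 hu hk2 (hq.trans (mul_le_mul_of_nonneg_left (by linarith) hτ.le)) hK
    have ex1 : Real.exp (-(τ * k)) ≤ 1 := Real.exp_le_one_iff.2 (neg_nonpos.2 (by positivity))
    have up : ∀ X, 0 ≤ X → (k : ℝ) ≤ q → K1 - k ≤ X → τ * Fk τ (K + 1 / τ) n k ≤ 2 * X :=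
      fun X hX hkq hkX => by
        obtain ⟨g, g1, g2, g3⟩ := mid hkq
        have : g * (K1 - k) ≤ 2 * X :=
          (mul_le_mul_of_nonneg_left hkX (by linarith)).trans (mul_le_mul_of_nonneg_right g2 hX)
        exact g3.trans ((mul_le_mul_of_nonneg_left this (Real.exp_pos _).le).trans
          (mul_le_of_le_one_left (by positivity) ex1))
    by_cases c1 : k ≤ Nm
    · have hkq : (k : ℝ) ≤ q := le_trans (Nat.cast_le.2 (c1.trans h1)) h2
      rw [if_pos (mem_range.2 (Nat.lt_succ_of_le c1)), if_neg (by simp; omega), sub_zero]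
      by_cases c2 : (k : ℝ) ≤ a
      · have b1 : dd Z k ≤ s * Z Nm / (n + 1 : ℕ) := by
          rw [le_div_iff₀ hn, mul_comm]
          exact (mul_le_mul_of_nonneg_left (dd_le hZ k) hn.le).trans (hsm k c2)
        have b2 := up D'' hD''0 hkq (by linarith [Nat.cast_nonneg (α := ℝ) k])
        have b3 : dd Z k * (τ * Fk τ (K + 1 / τ) n k) ≤ Q :=
          (mul_le_mul_of_nonneg_left b2 hd).trans (by
            rw [hQ, mul_comm]; exact mul_le_mul_of_nonneg_left b1 (by positivity))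
        have b4 : 0 ≤ dd Z k * (2 * D') := by positivity
        linarith
      · have b2 := up D' hD'0 hkq (by linarith [not_le.1 c2])
        linarith [mul_le_mul_of_nonneg_left b2 hd]
    · have c1' : (Nm : ℝ) ≤ k := Nat.cast_le.2 (not_le.1 c1).le
      rw [if_neg (by simp; omega), zero_add]
      by_cases c2 : k ≤ N1
      · rw [if_pos (mem_Ioc.2 ⟨not_le.1 c1, c2⟩)]
        obtain ⟨g, g1, g2, g3⟩ := mid (le_trans (Nat.cast_le.2 c2) h2)
        have b1 : g * (K1 - k) ≤ -(D / 2) := by nlinarith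
        have b2 : Real.exp (-(τ * N1)) ≤ Real.exp (-(τ * k)) :=
          Real.exp_le_exp.2 (neg_le_neg (mul_le_mul_of_nonneg_left (Nat.cast_le.2 c2) hτ.le))
        have b3 : τ * Fk τ (K + 1 / τ) n k ≤ -R := by
          refine g3.trans ((mul_le_mul_of_nonneg_left b1 (Real.exp_pos _).le).trans ?_)
          rw [hR, mul_neg, neg_le_neg_iff]
          exact mul_le_mul_of_nonneg_right b2 (by positivity)
        linarith [mul_le_mul_of_nonneg_left b3 hd]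
      · rw [if_neg (by simp; omega), sub_zero]
        refine le_trans (mul_nonpos_of_nonneg_of_nonpos hd ?_) hQ0
        by_cases c3 : (k : ℝ) ≤ q
        · simpa using up 0 le_rfl c3 (by linarith)
        · exact Fk_nonpos hτ hk2 (by linarith [not_le.1 c3])
  have e4 := e0.trans (sum_le_sum e3)
  rw [sum_sub_distrib, sum_add_distrib, sum_ite_mem, sum_ite_mem,
    inter_eq_right.2 (range_subset_range.2 (by omega)),
    inter_eq_right.2 (fun k hk => by simp only [mem_Ioc, mem_range] at hk ⊢; omega),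
    sum_const, card_range, nsmul_eq_mul, ← sum_mul, ← sum_mul, sum_dd, sum_dd_Ioc Z h1] at e4
  have e5 : ((n / 2 + 1 : ℕ) : ℝ) * Q ≤ 2 * D'' * s * Z Nm := by
    refine (mul_le_mul_of_nonneg_right (Nat.cast_le.2 (by omega : n / 2 + 1 ≤ n + 1)) hQ0).trans
      (le_of_eq ?_)
    rw [hQ]
    field_simp
  linarith

theorem fin {d r δ x w ε u v c X Y : ℝ} {N1 : ℕ} (hd : 0 < d) (hδ : 0 < δ) (δ3 : δ ≤ r * d / 72)
    (hu : 0 < u) (hv0 : 0 < v) (hx : x = Real.exp (c / 2 * u)) (hw0 : 0 ≤ w) (hε : 0 < ε)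
    (hxw : x * w ≤ δ) (ε1 : u * ε ≤ 1) (ε2 : x * (3 * ε) ≤ δ) (n1 : (N1 : ℝ) ≤ (c / 2 + ε) * v)
    (hZ : 0 ≤ Y) (key : (X - Y) * (Real.exp (-(u / v * N1)) * (d / 2 * v / 2))
      ≤ (2 * ((w + 3 * ε) * v) + 2 * v * (δ / x)) * Y) : X ≤ (1 + r) * Y := by
  have hx0 : 0 < x := hx ▸ Real.exp_pos _
  have b1 : Real.exp (u / v * N1) ≤ x * 3 := by
    have : u / v * N1 ≤ c / 2 * u + 1 := by
      rw [div_mul_eq_mul_div, div_le_iff₀ hv0]
      linarith [mul_le_mul_of_nonneg_left n1 hu.le, mul_le_mul_of_nonneg_right ε1 hv0.le]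
    refine (Real.exp_le_exp.2 this).trans ?_
    rw [Real.exp_add, ← hx]
    exact mul_le_mul_of_nonneg_left Real.exp_one_lt_three.le hx0.le
  have b2 : x * (w + 3 * ε + δ / x) ≤ 3 * δ := by
    rw [mul_add, mul_add, mul_div_cancel₀ _ hx0.ne']
    linarith
  rw [Real.exp_neg, ← le_div_iff₀ (by positivity)] at key
  have b3 : (2 * ((w + 3 * ε) * v) + 2 * v * (δ / x)) * Y
      / ((Real.exp (u / v * N1))⁻¹ * (d / 2 * v / 2))
      = 8 / d * (Real.exp (u / v * N1) * (w + 3 * ε + δ / x)) * Y := by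
    field_simp
    ring
  have b4 : 8 / d * (Real.exp (u / v * N1) * (w + 3 * ε + δ / x)) ≤ r := by
    have b5 : Real.exp (u / v * N1) * (w + 3 * ε + δ / x) ≤ 9 * δ :=
      (mul_le_mul_of_nonneg_right b1 (by positivity)).trans (by linarith)
    rw [div_mul_eq_mul_div, div_le_iff₀ hd]
    linarith
  rw [b3] at key
  linarith [mul_le_mul_of_nonneg_right b4 hZ]

/-- the estimate at a fixed volume -/
theorem vol {Z : ℕ → ℝ} {n V : ℕ} (hU : Uni Z (n * V)) {ρ c C d r δ u x w ε : ℝ} (hn : 1 ≤ n)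
    (hlo : 0 ≤ ρ) (hhi : ρ ≤ 1 / 32) (hc : 0 < c) (hc' : c ≤ 1 / 16) (hd : 0 < d) (hδ : 0 < δ)
    (δ1 : δ ≤ d / 4) (δ2 : δ ≤ 1 / 32) (δ3 : δ ≤ r * d / 72) (hu16 : 16 ≤ u)
    (hx : x = Real.exp (c / 2 * u))
    (hwd : w = |C| * Real.exp (-(c * u)) + 4 * n * Real.exp (-(u / 2))) (hε : 0 < ε)
    (hxw : x * w ≤ δ) (ε1 : u * ε ≤ 1) (ε2 : x * (3 * ε) ≤ δ) (hv1 : 1 ≤ ε * V)
    (hy : mo Z (n * V) 1 (u / V) / mo Z (n * V) 0 (u / V) ≤
      (ρ + 1 / u + C * Real.exp (-(c * u)) + ε) * V)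
    (hld : ∀ A B : ℕ, (A : ℝ) ≤ (ρ - ε) * V → (ρ + ε) * V ≤ B → 2 * B ≤ n * V →
      ((n * V + 1 : ℕ) : ℝ) * Z A ≤ δ / x * Z B) (hlt : ⌈(ρ + d) * V⌉₊ < ⌈c / 2 * V⌉₊) :
    Z ⌈c / 2 * V⌉₊ ≤ (1 + r) * Z ⌈(ρ + d) * V⌉₊ := by
  have cn : ((n * V : ℕ) : ℝ) = n * V := Nat.cast_mul _ _
  have hn : (1 : ℝ) ≤ n := by exact_mod_cast hn
  have hu : 0 < u := by linarith
  have hx1 : 1 ≤ x := hx ▸ Real.one_le_exp (by positivity)
  have p1 : 0 ≤ |C| * Real.exp (-(c * u)) := by positivity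
  have p2 : 0 ≤ 4 * n * Real.exp (-(u / 2)) := by positivity
  have hw0 : 0 ≤ w := by linarith
  have hw1 : w ≤ δ := le_trans (le_mul_of_one_le_left hw0 hx1) hxw
  have hε1 : 3 * ε ≤ δ := le_trans (le_mul_of_one_le_left (by positivity) hx1) ε2
  have hv0 : (0 : ℝ) < V := (pos_iff_pos_of_mul_pos (one_pos.trans_le hv1)).1 hε
  have m : ∀ {a b : ℝ}, a ≤ b → a * V ≤ b * V := fun h => mul_le_mul_of_nonneg_right h hv0.le
  have huv : u ≤ V := by linarith [m ε1, mul_le_mul_of_nonneg_left hv1 hu.le]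
  have n1 : (⌈c / 2 * V⌉₊ : ℝ) ≤ (c / 2 + ε) * V := by
    linarith [Nat.ceil_lt_add_one (a := c / 2 * V) (by positivity)]
  have n2 : (⌈c / 2 * V⌉₊ : ℝ) ≤ V / 4 := by
    linarith [m (show c / 2 + ε ≤ 1 / 4 by linarith)]
  have n3 : (ρ + d) * V ≤ ⌈(ρ + d) * V⌉₊ := Nat.le_ceil _
  have n4 : 2 * ⌈c / 2 * V⌉₊ ≤ n * V := by
    have : ((2 * ⌈c / 2 * V⌉₊ : ℕ) : ℝ) ≤ (n * V : ℕ) := by
      rw [cn]; push_cast; linarith [m hn]
    exact_mod_cast this
  have τv : 1 / (u / V) = 1 / u * V := by rw [one_div_div]; ring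
  have vu : 1 / u ≤ 1 / 16 := one_div_le_one_div_of_le (by norm_num) hu16
  have eC : C * Real.exp (-(c * u)) ≤ |C| * Real.exp (-(c * u)) :=
    mul_le_mul_of_nonneg_right (le_abs_self C) (Real.exp_pos _).le
  refine fin hd hδ δ3 hu hv0 hx hw0 hε hxw ε1 ε2 n1 (hU.nonneg _)
    (main hU (τ := u / V) (u := u) (K := (ρ + |C| * Real.exp (-(c * u)) + ε) * V)
    (K1 := (ρ + w + 2 * ε) * V) (a := (ρ - ε) * V) (q := V / 4) (by positivity)
    ((div_le_one hv0).2 huv) (by linarith) ?_ ?_ hlt.le n2 n4 ?_ ?_ (by positivity)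
    (le_of_eq (by ring)) (by positivity) ?_ hv0.le (by positivity)
    (fun k hk => hld k _ hk ?_ (by omega)) (hy.trans ?_))
  · rw [cn, div_mul_eq_mul_div, le_div_iff₀ hv0]
    linarith [mul_le_mul_of_nonneg_left (m hn) hu.le]
  · rw [τv]
    linarith [m (show ρ + |C| * Real.exp (-(c * u)) + ε + ε + 1 / u ≤ 1 / 4 by linarith)]
  · have h1 : (1 : ℝ) ≤ n * V := by linarith [m hn, m (show ε ≤ 1 by linarith)]
    rw [cn, hwd]
    linarith [mul_le_mul_of_nonneg_right h1 (Real.exp_pos (-(u / 2))).le]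
  · linarith [m (show ρ + w + 2 * ε + d / 2 ≤ ρ + d by linarith)]
  · linarith [m (show ρ + w + 2 * ε ≤ 1 by linarith)]
  · linarith [m (show ρ + ε ≤ ρ + d by linarith)]
  · rw [τv]
    linarith [m eC]

end B

theorem b1 (hL : LDStmt) : B1Stmt := by
  intro n β m V Z p hS c C u0 hc hc' hyp d r hd hr
  obtain ⟨δ, hδ, δ1, δ2, δ3⟩ : ∃ δ > (0 : ℝ), δ ≤ d / 4 ∧ δ ≤ 1 / 32 ∧ δ ≤ r * d / 72 :=
    ⟨min (d / 4) (min (1 / 32) (r * d / 72)), by positivity, min_le_left _ _,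
      (min_le_right _ _).trans (min_le_left _ _), (min_le_right _ _).trans (min_le_right _ _)⟩
  have ht : Tendsto (fun u : ℝ => |C| * Real.exp (-(c / 2 * u)) + 4 * n * Real.exp (-(1 / 4 * u)))
      atTop (𝓝 (|C| * 0 + 4 * n * 0)) :=
    ((Real.tendsto_exp_neg_atTop_nhds_zero.comp
      (tendsto_id.const_mul_atTop (by positivity))).const_mul _).add
      ((Real.tendsto_exp_neg_atTop_nhds_zero.comp
        (tendsto_id.const_mul_atTop (by positivity))).const_mul _)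
  obtain ⟨u, ⟨hu0, hu16⟩, hw⟩ := (((eventually_ge_atTop u0).and (eventually_ge_atTop 16)).and
    (ht.eventually (ge_mem_nhds (by simpa using hδ)))).exists
  have hu : 0 < u := by linarith
  obtain ⟨x, hx⟩ : ∃ x, x = Real.exp (c / 2 * u) := ⟨_, rfl⟩
  have hx0 : 0 < x := hx ▸ Real.exp_pos _
  obtain ⟨ε, hε, ε1, ε2⟩ : ∃ ε > (0 : ℝ), u * ε ≤ 1 ∧ x * (3 * ε) ≤ δ := by
    refine ⟨min (1 / u) (δ / (3 * x)), by positivity, ?_, ?_⟩
    · rw [mul_comm, ← le_div_iff₀ hu]; exact min_le_left _ _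
    · rw [← mul_assoc, mul_comm, ← le_div_iff₀ (by positivity), mul_comm x]; exact min_le_right _ _
  have hxw : x * (|C| * Real.exp (-(c * u)) + 4 * n * Real.exp (-(u / 2))) ≤ δ := by
    refine le_trans ?_ hw
    rw [mul_add, mul_left_comm, mul_left_comm x, hx, ← Real.exp_add, ← Real.exp_add]
    refine add_le_add (le_of_eq (by congr 2; ring)) (mul_le_mul_of_nonneg_left
      (Real.exp_le_exp.2 (by nlinarith)) (by positivity))
  filter_upwards [hS.uni, hyp u hu0 ε hε, (hL n β m V Z p hS).2 ε (δ / x) hε (by positivity),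
    (tendsto_natCast_atTop_atTop.comp hS.vol).eventually_ge_atTop (1 / ε)] with L hU hy hld hV
  rw [or_iff_not_imp_right, not_le]
  exact B.vol hU hS.hn hS.lo hS.hi hc hc' hd hδ δ1 δ2 δ3 hu16 hx rfl hε hxw ε1 ε2
    ((div_le_iff₀' hε).1 hV) hy hld

end Crest.Agent.N337.C
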