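import Crest.Agent.N337.C.Defs
import Crest.Agent.N337.Slot.Sym

/-!
# Row 337, S0527 closing: basic algebra of the slot model (helper5)
-/

set_option autoImplicit false
set_option linter.unusedSectionVars false

namespace Crest.Agent.N337.C

open Crest.Agent.N337.Slot Crest.Agent.N337.Slot.SL Matrix

section psd
variable {m : Type} [Fintype m] [DecidableEq m]

open scoped MatrixOrder in
theorem psd_mul {A B : Matrix m m ℝ} (hA : A.PosSemidef) (hB : B.PosSemidef) (h : Commute A B) :
    (A * B).PosSemidef :=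
  Matrix.nonneg_iff_posSemidef.1
    (Commute.mul_nonneg (Matrix.nonneg_iff_posSemidef.2 hA) (Matrix.nonneg_iff_posSemidef.2 hB) h)

theorem psd_tmul (A : Matrix m m ℝ) : (Aᵀ * A).PosSemidef := by
  simpa using Matrix.posSemidef_conjTranspose_mul_self A

theorem psd_conj {A : Matrix m m ℝ} (hA : A.PosSemidef) (B : Matrix m m ℝ) :
    (Bᵀ * A * B).PosSemidef := by
  simpa using hA.conjTranspose_mul_mul_same B

theorem psd_symm {A : Matrix m m ℝ} (hA : A.PosSemidef) : Aᵀ = A := by
  simpa using hA.1.eq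

open scoped MatrixOrder in
theorem exists_sqrt {A : Matrix m m ℝ} (hA : A.PosSemidef) : ∃ C : Matrix m m ℝ, A = Cᵀ * C := by
  obtain ⟨C, hC⟩ := CStarAlgebra.nonneg_iff_eq_star_mul_self.1 (Matrix.nonneg_iff_posSemidef.2 hA)
  exact ⟨C, by simpa [star_eq_conjTranspose] using hC⟩

theorem tr_mul_nonneg {A B : Matrix m m ℝ} (hA : A.PosSemidef) (hB : B.PosSemidef) :
    0 ≤ (A * B).trace := by
  obtain ⟨C, rfl⟩ := exists_sqrt hA
  rw [Matrix.mul_assoc, trace_mul_comm, ← Matrix.transpose_transpose C, Matrix.transpose_transpose Cᵀ]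
  exact (psd_conj hB Cᵀ).trace_nonneg

/-- Cauchy-Schwarz in the form `2 tr(Xᵀ ρ Y) ≤ tr(Xᵀ ρ X) + tr(Yᵀ ρ Y)`. -/
theorem tr_cs {ρ : Matrix m m ℝ} (hρ : ρ.PosSemidef) (X Y : Matrix m m ℝ) :
    2 * (Xᵀ * ρ * Y).trace ≤ (Xᵀ * ρ * X).trace + (Yᵀ * ρ * Y).trace := by
  have h := (psd_conj hρ (X - Y)).trace_nonneg
  have e : (Yᵀ * ρ * X).trace = (Xᵀ * ρ * Y).trace := by
    rw [← trace_transpose, transpose_mul, transpose_mul, transpose_transpose, psd_symm hρ,
      Matrix.mul_assoc]
  simp only [transpose_sub, Matrix.sub_mul, Matrix.mul_sub, trace_sub] at h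
  linarith

theorem tr_mul_diag (A : Matrix m m ℝ) (f : m → ℝ) :
    (A * diagonal f).trace = ∑ σ, A σ σ * f σ := by
  simp [Matrix.trace]
end psd

variable {Λ : Type} [Fintype Λ] [DecidableEq Λ]

theorem tens_mul (A B : Λ → Bool → Bool → ℝ) :
    tens A * tens B = tens fun x i j => ∑ k, A x i k * B x k j := by
  ext σ τ
  simp only [tens, mul_apply, of_apply]
  rw [Finset.prod_univ_sum]
  simp only [Fintype.piFinset_univ, Finset.prod_mul_distrib]

theorem tens_transpose (A : Λ → Bool → Bool → ℝ) : (tens A)ᵀ = tens fun x i j => A x j i := rfl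

theorem tens_diag (d : Λ → Bool → ℝ) :
    tens (fun x i j => if i = j then d x i else 0) = diagonal fun σ => ∏ x, d x (σ x) := by
  ext σ τ
  by_cases h : σ = τ
  · subst h; simp [tens]
  · obtain ⟨x, hx⟩ := Function.ne_iff.1 h
    rw [diagonal_apply_ne _ h]
    exact Finset.prod_eq_zero (Finset.mem_univ x) (by simp [hx])

theorem tens_one : tens (fun (_ : Λ) i j => if i = j then (1 : ℝ) else 0) = 1 := by
  rw [tens_diag fun _ _ => 1]; simp

theorem swp_mul_diag (x y : Λ) (f : (Λ → Bool) → ℝ) :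
    swp x y * diagonal f = diagonal (fun σ => f (σ ∘ Equiv.swap x y)) * swp x y := by
  ext σ τ
  simp only [mul_diagonal, diagonal_mul, swp, of_apply]
  split_ifs with h
  · subst h
    have : (τ ∘ Equiv.swap x y) ∘ Equiv.swap x y = τ := by funext z; simp
    rw [this, mul_comm]
  · simp

theorem comm_tens_swp (g : Bool → Bool → ℝ) (x y : Λ) :
    Commute (tens fun _ => g) (swp x y) := by
  have h1 : ∀ M : BOp Λ, ∀ σ τ, (M * swp x y) σ τ = M σ (τ ∘ Equiv.swap x y) := fun M σ τ => by
    have : (M * swp x y) σ τ = (swp x y * Mᵀ) τ σ := by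
      rw [← swp_transpose x y, ← transpose_mul, swp_transpose]; rfl
    rw [this, swp_mul_apply]; rfl
  ext σ τ
  rw [h1, swp_mul_apply]
  simp only [tens, of_apply, Function.comp]
  exact Fintype.prod_equiv (Equiv.swap x y) _ _ fun z => by simp

theorem cnt_swap (x y : Λ) (τ : Λ → Bool) : cnt (τ ∘ Equiv.swap x y) = cnt τ := by
  unfold cnt
  exact Finset.card_bijective (Equiv.swap x y) (Equiv.bijective _) fun z => by simp

theorem comm_cnt_swp (f : ℕ → ℝ) (x y : Λ) :
    Commute (diagonal fun σ : Λ → Bool => f (cnt σ)) (swp x y) := by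
  have := swp_mul_diag x y fun σ => f (cnt σ)
  simp only [cnt_swap] at this
  exact this.symm

theorem comm_adm0 {X W : BOp Λ} (h : ∀ x y, Commute X (swp x y))
    (hW : W ∈ closure (Adm0 Λ : Set (BOp Λ))) : Commute X W := by
  have hc : IsClosed {M : BOp Λ | X * M = M * X} :=
    isClosed_eq (continuous_const.matrix_mul continuous_id) (continuous_id.matrix_mul continuous_const)
  refine closure_minimal (fun M hM => ?_) hc hW
  induction hM using Submonoid.closure_induction with
  | mem M hM =>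
    obtain ⟨x, y, p, _, _, rfl⟩ := hM
    exact (((Commute.one_right X).smul_right (1 - p)).add_right ((h x y).smul_right p) :)
  | one => exact (Commute.one_right X :)
  | mul A B _ _ hA hB => exact (Commute.mul_right hA hB :)

theorem Good.comm {X W : BOp Λ} (hW : Good W) (h : ∀ x y, Commute X (swp x y)) : Commute X W :=
  comm_adm0 h hW.mem

theorem adm0_le : Adm0 Λ ≤ Adm Λ := Submonoid.closure_mono Set.subset_union_left

/-- the all-up configuration is fixed. -/
theorem up_adm0 {W : BOp Λ} (hW : W ∈ closure (Adm0 Λ : Set (BOp Λ))) (τ : Λ → Bool) :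
    W (fun _ => false) τ = (1 : BOp Λ) (fun _ => false) τ := by
  have hc : IsClosed {M : BOp Λ | ∀ τ, M (fun _ => false) τ = (1 : BOp Λ) (fun _ => false) τ} := by
    simp only [Set.ofPred_forall]
    exact isClosed_iInter fun τ => isClosed_eq (continuous_id.matrix_elem _ _) continuous_const
  refine closure_minimal (fun M hM => ?_) hc hW τ
  induction hM using Submonoid.closure_induction with
  | mem M hM =>
    obtain ⟨x, y, p, _, _, rfl⟩ := hM
    intro τ
    have : swp x y (fun _ => false) τ = (1 : BOp Λ) (fun _ => false) τ := by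
      rw [← Matrix.mul_one (swp x y), swp_mul_apply]; rfl
    simp only [step, Matrix.add_apply, Matrix.smul_apply, this, smul_eq_mul]; ring
  | one => intro τ; rfl
  | mul A B _ _ hA hB =>
    intro τ
    rw [mul_apply]
    simp only [Set.mem_ofPred_eq] at hA hB
    simp only [hA]
    rw [← mul_apply, Matrix.one_mul, hB]

/-! ### sectors -/

theorem cnt_le (σ : Λ → Bool) : cnt σ ≤ Fintype.card Λ := Finset.card_le_univ _

theorem comm_sec_swp (N : ℕ) (x y : Λ) : Commute (sec N : BOp Λ) (swp x y) :=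
  comm_cnt_swp (fun k => if k = N then 1 else 0) x y

theorem sec_psd (N : ℕ) : (sec N : BOp Λ).PosSemidef :=
  PosSemidef.diagonal fun σ => by dsimp only; split_ifs <;> simp

theorem sec_mul_sec (N : ℕ) : (sec N * sec N : BOp Λ) = sec N := by
  rw [sec, diagonal_mul_diagonal]; congr 1; funext σ; split_ifs <;> simp

theorem sec_transpose (N : ℕ) : (sec N : BOp Λ)ᵀ = sec N := diagonal_transpose _

theorem sum_sec : ∑ N ∈ Finset.range (Fintype.card Λ + 1), (sec N : BOp Λ) = 1 := by
  ext σ τ
  rw [Matrix.sum_apply]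
  by_cases h : σ = τ
  · subst h
    simp [sec, cnt_le]
  · simp [sec, h]

theorem tr_sec_mul (N : ℕ) (A : BOp Λ) :
    (sec N * A).trace = ∑ σ, if cnt σ = N then A σ σ else 0 := by
  simp [Matrix.trace, sec]

/-! ### Hadamard, flip and sign -/

theorem Hd_mul_Hd : Hd Λ * Hd Λ = 1 := by
  rw [Hd, tens_mul, ← tens_one]
  congr 1
  funext x i j
  have h : Real.sqrt 2 * Real.sqrt 2 = 2 := Real.mul_self_sqrt (by norm_num)
  have h0 : Real.sqrt 2 ≠ 0 := by positivity
  cases i <;> cases j <;> simp <;> field_simp <;> nlinarith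

theorem Hd_transpose : (Hd Λ)ᵀ = Hd Λ := by
  rw [Hd, tens_transpose]; simp only [and_comm]

theorem comm_Hd_swp (x y : Λ) : Commute (Hd Λ) (swp x y) := comm_tens_swp _ x y

/-- spin flip. -/
def Fl (Λ : Type) [Fintype Λ] [DecidableEq Λ] : BOp Λ := tens fun _ i j => if i = j then 0 else 1
/-- sign `(-1)^N`. -/
def Sg (Λ : Type) [Fintype Λ] [DecidableEq Λ] : BOp Λ :=
  tens fun _ i j => if i = j then (if i = true then -1 else 1) else 0

theorem Sg_eq : Sg Λ = diagonal fun σ => ∏ x, if σ x = true then (-1 : ℝ) else 1 :=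
  tens_diag fun _ i => if i = true then -1 else 1

theorem Sg_mul_Sg : Sg Λ * Sg Λ = 1 := by
  rw [Sg, tens_mul, ← tens_one]
  congr 1; funext x i j
  cases i <;> cases j <;> simp

theorem Fl_mul_Fl : Fl Λ * Fl Λ = 1 := by
  rw [Fl, tens_mul, ← tens_one]
  congr 1; funext x i j
  cases i <;> cases j <;> simp

theorem Hd_Sg : Hd Λ * Sg Λ = Fl Λ * Hd Λ := by
  rw [Hd, Sg, Fl, tens_mul, tens_mul]
  congr 1; funext x i j
  cases i <;> cases j <;> simp [neg_div]

theorem Sg_Hd : Sg Λ * Hd Λ = Hd Λ * Fl Λ := by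
  rw [Hd, Sg, Fl, tens_mul, tens_mul]
  congr 1; funext x i j
  cases i <;> cases j <;> simp [neg_div]

theorem Fl_apply (σ τ : Λ → Bool) : Fl Λ σ τ = if τ = fun x => !σ x then 1 else 0 := by
  simp only [Fl, tens, of_apply]
  split_ifs with h
  · subst h; simp
  · obtain ⟨x, hx⟩ := Function.ne_iff.1 h
    refine Finset.prod_eq_zero (Finset.mem_univ x) ?_
    cases h1 : σ x <;> cases h2 : τ x <;> simp_all

theorem cnt_not (σ : Λ → Bool) : cnt (fun x => !σ x) + cnt σ = Fintype.card Λ := by
  unfold cnt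
  have : (Finset.univ.filter fun x => (!σ x) = true) = Finset.univ.filter fun x => ¬ σ x = true := by
    ext x; simp
  rw [this, add_comm, Finset.card_filter_add_card_filter_not, Finset.card_univ]

theorem Fl_sec {N : ℕ} (hN : N ≤ Fintype.card Λ) :
    Fl Λ * sec N = sec (Fintype.card Λ - N) * Fl Λ := by
  ext σ τ
  simp only [sec, mul_diagonal, diagonal_mul, Fl_apply]
  split_ifs with h h1 h2 h2 <;> try simp
  · subst h; have := cnt_not σ; omega
  · subst h; have := cnt_not σ; omega

theorem dg_sum (ρ : BOp Λ) (f : (Λ → Bool) → ℝ) :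
    ∑ σ, dg ρ σ * f σ = (Hd Λ * ρ * Hd Λ * diagonal f).trace := by
  rw [tr_mul_diag]; simp only [dg]

end Crest.Agent.N337.C
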