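import Crest.Agent.N337.C.Dot

/-!
# Row 337, S0527 closing: concentration of the blocks (helper17)
-/

set_option autoImplicit false
set_option linter.unusedSectionVars false

namespace Crest.Agent.N337.C

open Crest.Agent.N337.Slot Crest.Agent.N337.Slot.SL Matrix

namespace Cn

variable {Λ : Type} [Fintype Λ] [DecidableEq Λ] {Z : Type} [Fintype Z] {a : Z → Λ → ℝ} {δ : ℝ}

/-- difference of two blocks -/
def bb (a : Z → Λ → ℝ) (z z' : Z) : Λ → ℝ := fun s => a z s - a z' s

theorem mz_bb (z z' : Z) (σ : Λ → Bool) : mz (bb a z z') σ = mz (a z) σ - mz (a z') σ := by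
  simp only [mz, bb, sub_mul, Finset.sum_sub_distrib]

/-- transverse part -/
def tr2 (b : Λ → ℝ) : BOp Λ := crF b * anF b + anF b * crF b

theorem tr2_psd (b : Λ → ℝ) : (tr2 b).PosSemidef := by
  have h1 := psd_tmul (anF b)
  have h2 := psd_tmul (crF b)
  rw [anF_transpose] at h1
  rw [crF_transpose] at h2
  exact h1.add h2

noncomputable def Qa (a : Z → Λ → ℝ) : BOp Λ :=
  (1 / (Fintype.card Z : ℝ) ^ 2) • ∑ z, ∑ z', tr2 (bb a z z')

noncomputable def be (a : Z → Λ → ℝ) : ℝ :=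
  (∑ z, ∑ z', ∑ s, bb a z z' s ^ 2) / (Fintype.card Z : ℝ) ^ 2

theorem Qa_psd (a : Z → Λ → ℝ) : (Qa a).PosSemidef :=
  (posSemidef_sum _ fun _ _ => posSemidef_sum _ fun _ _ => tr2_psd _).smul (by positivity)

theorem be_nonneg (a : Z → Λ → ℝ) : 0 ≤ be a := by unfold be; positivity

theorem avg_le [Nonempty Z] {F : Z → Z → ℝ} {c : ℝ} (h : ∀ z z', F z z' ≤ c) :
    (∑ z, ∑ z', F z z') / (Fintype.card Z : ℝ) ^ 2 ≤ c := by
  have hm : (0 : ℝ) < Fintype.card Z := Nat.cast_pos.2 Fintype.card_pos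
  rw [div_le_iff₀ (by positivity)]
  refine (Finset.sum_le_sum fun z _ => Finset.sum_le_sum fun z' _ => h z z').trans (le_of_eq ?_)
  simp only [Finset.sum_const, Finset.card_univ, nsmul_eq_mul]
  ring

theorem be_le [Nonempty Z] (h : Blocks a δ) : be a ≤ 2 * δ := by
  refine avg_le fun z z' => ?_
  have : ∑ s, bb a z z' s ^ 2 ≤ ∑ s, (a z s ^ 2 + a z' s ^ 2) :=
    Finset.sum_le_sum fun s _ => by
      unfold bb
      nlinarith [mul_nonneg (h.nonneg z s) (h.nonneg z' s)]
  rw [Finset.sum_add_distrib] at this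
  linarith [h.sq z, h.sq z']

theorem sum_a [Nonempty Z] (h : Blocks a δ) (s : Λ) :
    ∑ z, a z s = (Fintype.card Z : ℝ) * (1 / (Fintype.card Λ : ℝ)) := by
  have hm : (0 : ℝ) < Fintype.card Z := Nat.cast_pos.2 Fintype.card_pos
  rw [← h.unif s]
  field_simp

theorem avg_Sq [Nonempty Z] (h : Blocks a δ) :
    (1 / (Fintype.card Z : ℝ) ^ 2) • ∑ z, ∑ z', Sq (bb a z z') =
      (2 : ℝ) • avSq a - (2 : ℝ) • cas Λ := by
  have hm : (0 : ℝ) < Fintype.card Z := Nat.cast_pos.2 Fintype.card_pos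
  have e1 : ∑ z, ∑ z', Sq (bb a z z') =
      ∑ s, ∑ s', (∑ z, ∑ z', bb a z z' s * bb a z z' s') • swp s s' := by
    simp only [Sq, Finset.sum_smul]
    rw [Finset.sum_congr rfl fun z _ => Finset.sum_comm, Finset.sum_comm]
    refine Finset.sum_congr rfl fun s _ => ?_
    rw [Finset.sum_congr rfl fun z _ => Finset.sum_comm, Finset.sum_comm]
  have e2 : ∑ z, Sq (a z) = ∑ s, ∑ s', (∑ z, a z s * a z s') • swp s s' := by
    simp only [Sq, Finset.sum_smul]
    rw [Finset.sum_comm]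
    exact Finset.sum_congr rfl fun s _ => Finset.sum_comm
  rw [e1, avSq, e2, cas, Sq]
  simp only [Finset.smul_sum, smul_smul, ← Finset.sum_sub_distrib, ← sub_smul]
  refine Finset.sum_congr rfl fun s _ => Finset.sum_congr rfl fun s' _ => ?_
  congr 1
  have e3 : ∑ z, ∑ z', bb a z z' s * bb a z z' s' =
      2 * (Fintype.card Z : ℝ) * ∑ z, a z s * a z s' - 2 * ((∑ z, a z s) * ∑ z, a z s') := by
    have : ∀ z z', bb a z z' s * bb a z z' s' =
        a z s * a z s' + a z' s * a z' s' - a z s * a z' s' - a z' s * a z s' := fun z z' => by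
      unfold bb; ring
    simp only [this, Finset.sum_sub_distrib, Finset.sum_add_distrib, Finset.sum_const,
      Finset.card_univ, nsmul_eq_mul, ← Finset.mul_sum, ← Finset.sum_mul]
    ring
  rw [e3, sum_a h, sum_a h]
  field_simp

/-- the averaged (DOT) identity -/
theorem avg_dot [Nonempty Z] (h : Blocks a δ) :
    (2 : ℝ) • avSq a - (2 : ℝ) • cas Λ =
      (2 : ℝ) • diagonal (Yv fun z => mz (a z)) + Qa a - be a • (1 : BOp Λ) := by
  have e : ∀ z z', Sq (bb a z z') = (2 : ℝ) • diagonal (fun σ => mz (bb a z z') σ ^ 2) +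
      tr2 (bb a z z') - (∑ s, bb a z z' s ^ 2) • (1 : BOp Λ) := fun z z' => by
    have : ∑ s, bb a z z' s = 0 := by
      simp only [bb, Finset.sum_sub_distrib, h.sum, sub_self]
    rw [Sq_eq, this, tr2]
    module
  have e2 : diagonal (Yv fun z => mz (a z)) = (1 / (Fintype.card Z : ℝ) ^ 2) •
      ∑ z, ∑ z', diagonal fun σ => mz (bb a z z') σ ^ 2 := by
    ext σ τ
    by_cases hs : σ = τ
    · subst hs
      simp only [Matrix.smul_apply, Matrix.sum_apply, diagonal_apply_eq, Yv, mz_bb, smul_eq_mul]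
      ring
    · simp [Matrix.sum_apply, hs]
  rw [← avg_Sq h, e2, Qa, be]
  simp only [e, Finset.sum_sub_distrib, Finset.sum_add_distrib, ← Finset.smul_sum,
    ← Finset.sum_smul]
  module

theorem one_sub_avSq_psd [Nonempty Z] (h : Blocks a δ) : (1 - avSq a).PosSemidef := by
  have hm : (0 : ℝ) < Fintype.card Z := Nat.cast_pos.2 Fintype.card_pos
  have e : 1 - avSq a = (1 / (Fintype.card Z : ℝ)) • ∑ z, (1 - Sq (a z)) := by
    rw [Finset.sum_sub_distrib, smul_sub, avSq, Finset.sum_const, Finset.card_univ,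
      ← Nat.cast_smul_eq_nsmul ℝ, smul_smul, one_div_mul_cancel hm.ne', one_smul]
  rw [e]
  exact (posSemidef_sum _ fun z _ => one_sub_Sq_psd (h.nonneg z) (h.sum z)).smul (by positivity)

theorem op_psd [Nonempty Z] (h : Blocks a δ) {θ d : ℝ} (hd : δ + 1 - θ ≤ d) :
    ((θ • (1 : BOp Λ) - cas Λ) - diagonal fun σ => (Yv fun z => mz (a z)) σ - d).PosSemidef := by
  have e0 : (diagonal fun σ => (Yv fun z => mz (a z)) σ - d) =
      diagonal (Yv fun z => mz (a z)) - d • (1 : BOp Λ) := by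
    ext σ τ
    by_cases hs : σ = τ
    · subst hs; simp
    · simp [hs]
  have e : (θ • (1 : BOp Λ) - cas Λ) - (diagonal (Yv fun z => mz (a z)) - d • (1 : BOp Λ)) =
      (1 - avSq a) + (1 / 2 : ℝ) • Qa a + (θ + d - 1 - be a / 2) • (1 : BOp Λ) := by
    linear_combination (norm := module) (1 / 2 : ℝ) • avg_dot h
  rw [e0, e]
  exact ((one_sub_avSq_psd h).add ((Qa_psd a).smul (by norm_num))).add
    (PosSemidef.one.smul (by linarith [be_le h]))

theorem abs_mz_bb (h : Blocks a δ) (z z' : Z) (σ : Λ → Bool) : |mz (a z) σ - mz (a z') σ| ≤ 1 := by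
  have h1 := abs_le.1 (abs_mz_le (h.nonneg z) (h.sum z) σ)
  have h2 := abs_le.1 (abs_mz_le (h.nonneg z') (h.sum z') σ)
  rw [abs_le]
  constructor <;> linarith [h1.1, h1.2, h2.1, h2.2]

theorem Y_le [Nonempty Z] (h : Blocks a δ) (σ : Λ → Bool) : (Yv fun z => mz (a z)) σ ≤ 1 :=
  avg_le fun z z' => (sq_le_one_iff_abs_le_one _).2 (abs_mz_bb h z z' σ)

theorem mz_swap {b : Λ → ℝ} (hb : ∀ s, 0 ≤ b s) (s s' : Λ) (σ : Λ → Bool) :
    |mz b (σ ∘ Equiv.swap s s') - mz b σ| ≤ b s + b s' := by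
  rw [mz, mz, ← Finset.sum_sub_distrib]
  refine (Finset.abs_sum_le_sum_abs _ _).trans ?_
  have e : b s + b s' = ∑ u, ((if u = s then b u else 0) + if u = s' then b u else 0) := by
    simp [Finset.sum_add_distrib]
  rw [e]
  refine Finset.sum_le_sum fun u _ => ?_
  rw [← mul_sub, abs_mul, abs_of_nonneg (hb u)]
  have h1 : |(if (σ ∘ Equiv.swap s s') u = true then -(1 / 2) else 1 / 2 : ℝ) -
      if σ u = true then -(1 / 2) else 1 / 2| ≤ 1 := by
    split_ifs <;> norm_num
  have h2 := mul_le_of_le_one_right (hb u) h1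
  by_cases hs : u = s
  · rw [if_pos hs]
    refine h2.trans (le_add_of_nonneg_right ?_)
    split_ifs
    exacts [hb u, le_rfl]
  · by_cases hs' : u = s'
    · rw [if_neg hs, if_pos hs', zero_add]; exact h2
    · simp [hs, hs', Equiv.swap_apply_of_ne_of_ne hs hs']

theorem Y_swap [Nonempty Z] (h : Blocks a δ) (s s' : Λ) (σ : Λ → Bool) :
    |(Yv fun z => mz (a z)) (σ ∘ Equiv.swap s s') - (Yv fun z => mz (a z)) σ| ≤
      8 / (Fintype.card Λ : ℝ) := by
  have hm : (0 : ℝ) < Fintype.card Z := Nat.cast_pos.2 Fintype.card_pos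
  simp only [Yv]
  rw [← sub_div, abs_div, abs_of_pos (by positivity : (0 : ℝ) < (Fintype.card Z : ℝ) ^ 2),
    div_le_iff₀ (by positivity), ← Finset.sum_sub_distrib]
  refine (Finset.abs_sum_le_sum_abs _ _).trans ?_
  have key : ∀ z, |∑ z', (mz (a z) (σ ∘ Equiv.swap s s') - mz (a z') (σ ∘ Equiv.swap s s')) ^ 2 -
      ∑ z', (mz (a z) σ - mz (a z') σ) ^ 2| ≤
      ∑ z', 2 * ((a z s + a z s') + (a z' s + a z' s')) := fun z => by
    rw [← Finset.sum_sub_distrib]
    refine (Finset.abs_sum_le_sum_abs _ _).trans (Finset.sum_le_sum fun z' _ => ?_)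
    have h1 := abs_mz_bb h z z' (σ ∘ Equiv.swap s s')
    have h2 := abs_mz_bb h z z' σ
    have h3 := mz_swap (h.nonneg z) s s' σ
    have h4 := mz_swap (h.nonneg z') s s' σ
    rw [sq_sub_sq, abs_mul]
    refine mul_le_mul ((abs_add_le _ _).trans (by linarith)) ?_ (abs_nonneg _) (by norm_num)
    rw [abs_le] at h3 h4 ⊢
    constructor <;> linarith [h3.1, h3.2, h4.1, h4.2]
  refine (Finset.sum_le_sum fun z _ => key z).trans (le_of_eq ?_)
  simp only [← Finset.mul_sum, Finset.sum_add_distrib, Finset.sum_const, Finset.card_univ,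
    nsmul_eq_mul, sum_a h]
  ring

theorem tr_swp_diag {ρ : BOp Λ} (hρ : ρ.PosSemidef) (s s' : Λ) {g : (Λ → Bool) → ℝ} {c : ℝ}
    (hc : 0 < c) (hg : ∀ σ, |g σ| ≤ c) : (ρ * (swp s s' * diagonal g)).trace ≤ c * ρ.trace := by
  have h := tr_cs hρ (diagonal fun σ => g σ / c) (swp s s')
  have e1 : ((swp s s')ᵀ * ρ * swp s s').trace = ρ.trace := by
    rw [trace_mul_cycle, swp_transpose, swp_mul_self, Matrix.one_mul]
  have e2 : ((diagonal fun σ => g σ / c)ᵀ * ρ * diagonal fun σ => g σ / c).trace ≤ ρ.trace := by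
    rw [trace_mul_cycle, diagonal_transpose, diagonal_mul_diagonal, trace_mul_comm, tr_mul_diag]
    refine Finset.sum_le_sum fun σ _ => mul_le_of_le_one_right hρ.diag_nonneg ?_
    rw [← sq, sq_le_one_iff_abs_le_one, abs_div, abs_of_pos hc, div_le_one hc]
    exact hg σ
  have e3 : diagonal g = c • diagonal fun σ => g σ / c := by
    rw [← diagonal_smul]
    congr 1
    funext σ
    simp only [Pi.smul_apply, smul_eq_mul]
    field_simp
  rw [e3, Matrix.mul_smul, Matrix.mul_smul, trace_smul, smul_eq_mul, ← Matrix.mul_assoc,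
    trace_mul_cycle]
  rw [diagonal_transpose] at h e2
  exact mul_le_mul_of_nonneg_left (by linarith) hc.le

theorem tr_cas [Nonempty Λ] {ρ : BOp Λ} (hρ : ρ.PosSemidef) {φ : (Λ → Bool) → ℝ} {c : ℝ}
    (hc : 0 < c) (h1 : ∀ σ, |φ σ| ≤ 1)
    (h2 : ∀ s s' σ, |φ (σ ∘ Equiv.swap s s') - φ σ| ≤ c) :
    (ρ * (cas Λ * diagonal φ * diagonal φ)).trace ≤
      (ρ * (diagonal φ * cas Λ * diagonal φ)).trace + c * ρ.trace := by
  have hn : (0 : ℝ) < Fintype.card Λ := Nat.cast_pos.2 Fintype.card_pos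
  have e : ∀ s s' : Λ, swp s s' * diagonal φ * diagonal φ = diagonal φ * swp s s' * diagonal φ +
      swp s s' * diagonal fun σ => (φ σ - φ (σ ∘ Equiv.swap s s')) * φ σ := fun s s' => by
    have e1 := swp_mul_diag s s' fun σ => φ (σ ∘ Equiv.swap s s')
    have e2 : (fun σ : Λ → Bool => φ ((σ ∘ Equiv.swap s s') ∘ Equiv.swap s s')) = φ := by
      funext σ; congr 1; funext u; simp
    rw [e2] at e1
    rw [← e1, Matrix.mul_assoc, Matrix.mul_assoc, ← Matrix.mul_add, diagonal_mul_diagonal,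
      diagonal_mul_diagonal, diagonal_add]
    congr 2
    funext σ
    ring
  have hb : ∀ s s' : Λ, (ρ * (swp s s' * diagonal φ * diagonal φ)).trace ≤
      (ρ * (diagonal φ * swp s s' * diagonal φ)).trace + c * ρ.trace := fun s s' => by
    rw [e, Matrix.mul_add, trace_add]
    refine add_le_add le_rfl (tr_swp_diag hρ s s' hc fun σ => ?_)
    rw [abs_mul, abs_sub_comm]
    exact (mul_le_of_le_one_right (abs_nonneg _) (h1 σ)).trans (h2 s s' σ)
  have e4 : c * ρ.trace = ∑ _s : Λ, ∑ _s' : Λ,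
      1 / (Fintype.card Λ : ℝ) * (1 / (Fintype.card Λ : ℝ)) * (c * ρ.trace) := by
    simp only [Finset.sum_const, Finset.card_univ, nsmul_eq_mul]
    field_simp
  rw [e4]
  simp only [cas, Sq, Finset.sum_mul, Finset.mul_sum, Matrix.smul_mul, Matrix.mul_smul, trace_sum,
    trace_smul, smul_eq_mul, ← Finset.sum_add_distrib, ← mul_add]
  exact Finset.sum_le_sum fun s _ => Finset.sum_le_sum fun s' _ =>
    mul_le_mul_of_nonneg_left (hb s s') (by positivity)

theorem cnt_update {η : Λ → Bool} {u : Λ} (h : η u = true) :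
    cnt η = cnt (Function.update η u false) + 1 := by
  unfold cnt
  have : (Finset.univ.filter fun x => η x = true) =
      insert u (Finset.univ.filter fun x => Function.update η u false x = true) := by
    ext x
    by_cases hx : x = u
    · subst hx; simp [h]
    · simp [hx]
  rw [this, Finset.card_insert_of_notMem (by simp)]

theorem num_crF (b : Λ → ℝ) : (diagonal fun σ : Λ → Bool => (cnt σ : ℝ)) * crF b =
    crF b * (diagonal fun σ : Λ → Bool => (cnt σ : ℝ)) + crF b := by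
  have h : ∀ u : Λ, (diagonal fun σ : Λ → Bool => (cnt σ : ℝ)) * cr u =
      cr u * (diagonal fun σ : Λ → Bool => (cnt σ : ℝ)) + cr u := fun u => by
    ext η τ
    have e := cr_mul_apply u (1 : BOp Λ) η τ
    rw [Matrix.mul_one] at e
    rw [Matrix.add_apply, diagonal_mul, mul_diagonal, e]
    split_ifs with hu
    · by_cases ht : Function.update η u false = τ
      · rw [cnt_update hu, ← ht]; simp
      · simp [ht]
    · simp
  simp only [crF, Finset.mul_sum, Finset.sum_mul, Matrix.mul_smul, Matrix.smul_mul, h, smul_add,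
    Finset.sum_add_distrib]

theorem tr_tr2 {R : BOp Λ} (hs : Rᵀ = R) (hH : Commute (Hd Λ) R)
    (hN : Commute (diagonal fun σ : Λ → Bool => (cnt σ : ℝ)) R) (b : Λ → ℝ) :
    (R * tr2 b).trace = 4 * (R * diagonal fun σ => mz b σ ^ 2).trace := by
  set N : BOp Λ := diagonal fun σ : Λ → Bool => (cnt σ : ℝ)
  have h1 : (R * (crF b * crF b)).trace = 0 := by
    have e : N * (crF b * crF b) = crF b * crF b * N + (2 : ℝ) • (crF b * crF b) := by
      rw [← Matrix.mul_assoc, num_crF, Matrix.add_mul, Matrix.mul_assoc, num_crF, Matrix.mul_add,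
        Matrix.mul_assoc]
      module
    have e2 : (R * (N * (crF b * crF b))).trace = (R * (crF b * crF b * N)).trace := by
      rw [← Matrix.mul_assoc, ← hN.eq, Matrix.mul_assoc, trace_mul_comm, Matrix.mul_assoc]
    rw [e, Matrix.mul_add, trace_add, Matrix.mul_smul, trace_smul, smul_eq_mul] at e2
    linarith
  have h2 : (R * (anF b * anF b)).trace = 0 := by
    rw [← trace_transpose, transpose_mul, transpose_mul, anF_transpose, hs, trace_mul_comm, h1]
  have h3 : (R * diagonal fun σ => mz b σ ^ 2).trace =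
      (R * ((1 / 2 : ℝ) • (crF b + anF b) * (1 / 2 : ℝ) • (crF b + anF b))).trace := by
    have e : diagonal (fun σ => mz b σ ^ 2) = diagonal (mz b) * diagonal (mz b) := by
      rw [diagonal_mul_diagonal]; simp only [sq]
    have e2 : (1 / 2 : ℝ) • (crF b + anF b) * (1 / 2 : ℝ) • (crF b + anF b) =
        Hd Λ * (diagonal (mz b) * diagonal (mz b)) * Hd Λ := by
      rw [← Matrix.mul_assoc (Hd Λ), Hd_mz, Matrix.mul_assoc _ (Hd Λ), Hd_mz, Matrix.mul_assoc,
        Matrix.mul_assoc, Hd_mul_Hd, Matrix.mul_one]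
    rw [e, e2, ← Matrix.mul_assoc R (_ * _) (Hd Λ), ← Matrix.mul_assoc R (Hd Λ), ← hH.eq,
      trace_mul_cycle (Hd Λ * R), ← Matrix.mul_assoc (Hd Λ), Hd_mul_Hd, Matrix.one_mul]
  rw [h3, tr2]
  simp only [Matrix.smul_mul, Matrix.mul_smul, Matrix.add_mul, Matrix.mul_add, trace_smul,
    trace_add, h1, h2, smul_eq_mul]
  ring

theorem tr_Qa {R : BOp Λ} (hs : Rᵀ = R) (hH : Commute (Hd Λ) R)
    (hN : Commute (diagonal fun σ : Λ → Bool => (cnt σ : ℝ)) R) (a : Z → Λ → ℝ) :
    (R * Qa a).trace = 4 * ∑ σ, R σ σ * (Yv fun z => mz (a z)) σ := by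
  simp only [Qa, Matrix.mul_smul, Finset.mul_sum, trace_smul, trace_sum, tr_tr2 hs hH hN,
    tr_mul_diag, smul_eq_mul, Yv, mz_bb, Finset.sum_div]
  rw [Finset.sum_comm (γ := Λ → Bool)]
  refine Finset.sum_congr rfl fun z _ => ?_
  rw [Finset.sum_comm (γ := Λ → Bool)]
  refine Finset.sum_congr rfl fun z' _ => Finset.sum_congr rfl fun σ _ => ?_
  ring

end Cn

open Cn in
theorem conc (hK : KeyStmt) : ConcStmt := by
  intro Λ _ _ _ W hW Z _ _ a δ θ h hθ Y
  obtain ⟨l1, l2, l3, l4, l5⟩ := (hK Λ).1 θ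
  have hn : (0 : ℝ) < Fintype.card Λ := Nat.cast_pos.2 Fintype.card_pos
  have cW : Commute (cas Λ) W := hW.comm comm_cas_swp
  have cH : Commute (cas Λ) (Hd Λ) := (comm_Sq comm_Hd_swp _).symm
  have cS : ∀ N, Commute (cas Λ) (sec N) := fun N => (comm_Sq (comm_sec_swp N) _).symm
  have hρ : ∀ N, (Hd Λ * (sec N * W) * Hd Λ).PosSemidef := fun N => by
    have := psd_conj (psd_mul (sec_psd N) hW.psd (hW.comm (comm_sec_swp N))) (Hd Λ)
    rwa [Hd_transpose] at this
  have trρ : ∀ N, (Hd Λ * (sec N * W) * Hd Λ).trace = Zs W N := fun N => by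
    rw [trace_mul_cycle, Hd_mul_Hd, Matrix.one_mul, Zs]
  have hrb : (lt Λ θ * W).PosSemidef := psd_mul l1 hW.psd (l3 _ cW)
  refine ⟨fun N d hd => ?_, fun N σ => (hρ N).diag_nonneg, fun N => trρ N, fun σ =>
    ⟨hrb.diag_nonneg, ?_⟩, ?_⟩
  · set ρ := Hd Λ * (sec N * W) * Hd Λ with hρe
    have cρ : Commute (cas Λ) ρ := (cH.mul_right ((cS N).mul_right cW)).mul_right cH
    have hδ : 0 ≤ δ := (Finset.sum_nonneg fun s _ => sq_nonneg _).trans
      (h.sq (Classical.arbitrary Z))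
    set φ : (Λ → Bool) → ℝ := fun σ => max (Y σ - d) 0 with hφ
    have φ1 : ∀ σ, |φ σ| ≤ 1 := fun σ => by
      rw [abs_of_nonneg (le_max_right _ _)]
      exact max_le (by linarith [Y_le h σ]) zero_le_one
    have φ2 : ∀ s s' σ, |φ (σ ∘ Equiv.swap s s') - φ σ| ≤ 8 / (Fintype.card Λ : ℝ) :=
      fun s s' σ => (abs_max_sub_max_le_abs _ _ _).trans (by
        rw [sub_sub_sub_cancel_right]; exact Y_swap h s s' σ)
    have s1 : ∑ σ, dg (sec N * W) σ * φ σ ^ 3 =
        (ρ * (diagonal φ * (diagonal fun σ => Y σ - d) * diagonal φ)).trace := by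
      rw [dg_sum, diagonal_mul_diagonal, diagonal_mul_diagonal]
      congr 3
      funext σ
      rcases le_total (Y σ - d) 0 with e | e
      · simp [hφ, max_eq_right e]
      · simp only [hφ, max_eq_left e]; ring
    have s2 := tr_mul_nonneg (hρ N) (psd_conj (op_psd h hd) (diagonal φ))
    have s3 := tr_cas (hρ N) (by positivity : (0 : ℝ) < 8 / (Fintype.card Λ : ℝ)) φ1 φ2
    have s4 : 0 ≤ (ρ * ((2 : ℝ) • lt Λ θ - (θ • (1 : BOp Λ) - cas Λ)) *
        (diagonal φ * diagonal φ)).trace := by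
      refine tr_mul_nonneg (psd_mul (hρ N) (l5 hθ) ?_) ?_
      · exact ((l3 _ cρ).symm.smul_right _).sub_right
          (((Commute.one_right _).smul_right _).sub_right cρ.symm)
      · simpa only [diagonal_transpose] using psd_tmul (diagonal φ)
    have s5 : (ρ * lt Λ θ * (diagonal φ * diagonal φ)).trace ≤ (ρ * lt Λ θ).trace := by
      rw [diagonal_mul_diagonal, tr_mul_diag]
      refine Finset.sum_le_sum fun σ _ => mul_le_of_le_one_right
        (psd_mul (hρ N) l1 (l3 _ cρ).symm).diag_nonneg ?_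
      rw [← sq, sq_le_one_iff_abs_le_one]
      exact φ1 σ
    have s6 : (ρ * lt Λ θ).trace = (sec N * lt Λ θ * W).trace := by
      rw [hρe, Matrix.mul_assoc, ← (l3 _ cH).eq, ← Matrix.mul_assoc, trace_mul_cycle,
        ← Matrix.mul_assoc, Hd_mul_Hd, Matrix.one_mul, Matrix.mul_assoc, ← (l3 _ cW).eq,
        Matrix.mul_assoc]
    change ∑ σ, dg (sec N * W) σ * φ σ ^ 3 ≤ _
    rw [s1, ← s6, ← trρ N]
    rw [diagonal_transpose, ← hρe] at s2
    rw [← hρe] at s3 ⊢
    simp only [Matrix.mul_sub, Matrix.sub_mul, Matrix.mul_smul, Matrix.smul_mul, trace_sub,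
      trace_smul, smul_eq_mul, Matrix.mul_one, Matrix.mul_assoc] at s2 s3 s4 s5 ⊢
    linarith
  · have e : ∑ N ∈ Finset.range (Fintype.card Λ + 1), dg (sec N * W) σ = W σ σ := by
      simp only [dg]
      rw [← Matrix.sum_apply, ← Finset.sum_mul, ← Finset.mul_sum, ← Finset.sum_mul, sum_sec,
        Matrix.one_mul, (hW.comm comm_Hd_swp).eq, Matrix.mul_assoc, Hd_mul_Hd, Matrix.mul_one]
    have := (psd_mul l2 hW.psd ((Commute.one_left W).sub_left (l3 _ cW))).diag_nonneg (i := σ)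
    rw [Matrix.sub_mul, Matrix.one_mul, Matrix.sub_apply] at this
    linarith
  · have cN : Commute (diagonal fun σ : Λ → Bool => (cnt σ : ℝ)) (lt Λ θ * W) :=
      (l3 _ (comm_Sq (comm_cnt_swp fun k => (k : ℝ)) _).symm).symm.mul_right
        (hW.comm (comm_cnt_swp fun k => (k : ℝ)))
    have t1 := tr_Qa (psd_symm hrb) ((l3 _ cH).symm.mul_right (hW.comm comm_Hd_swp)) cN a
    have t2 := congrArg (fun M => (lt Λ θ * W * M).trace) (avg_dot h)
    have t3 : 0 ≤ (lt Λ θ * W * (θ • (1 : BOp Λ) - cas Λ)).trace := by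
      rw [trace_mul_cycle]
      exact tr_mul_nonneg l4 hW.psd
    have t4 := mul_nonneg (be_nonneg a) hrb.trace_nonneg
    simp only [Matrix.mul_sub, Matrix.mul_add, Matrix.mul_smul, trace_sub, trace_add, trace_smul,
      smul_eq_mul, Matrix.mul_one, tr_mul_diag] at t2 t3 ⊢
    linarith

end Crest.Agent.N337.C
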