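import Crest.Agent.N337.C.Core1

/-!
# Row 337, task C-Core: random tilts by differences of block values
-/

set_option autoImplicit false
set_option linter.unusedSectionVars false

namespace Crest.Agent.N337.C
open Finset Real

namespace Co

/-- averaging over patterns: good ones are bounded, bad ones are rare -/
lemma avg {T S : Type} [Fintype T] [Fintype S] {O : T → S → ℝ} (hO : ∀ P σ, 0 ≤ O P σ)
    {Q ql : S → ℝ} (hQ : ∀ σ, 0 ≤ Q σ) (hl : ∀ σ, 0 ≤ ql σ) {γ A s B : ℝ} {p : ℕ}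
    (Zl : 0 < ∑ σ, ql σ) (γ0 : 0 < γ) (s0 : 0 < s) (A0 : 0 ≤ A)
    (hg : ∀ P, ∑ σ, ql σ * O P σ ≤ γ * ∑ σ, ql σ → ∑ σ, Q σ * O P σ ≤ A * ∑ σ, Q σ)
    (h1 : ∑ σ, ql σ * ∑ P, O P σ ^ p ≤ Fintype.card T * (B * ∑ σ, ql σ))
    (h2 : ∀ σ, ∑ P, O P σ ^ 2 ≤ Fintype.card T * s) (h3 : s * B ≤ 2 * γ ^ p) :
    ∑ σ, Q σ * ∑ P, O P σ ≤ Fintype.card T * ((A + 3 / 2) * ∑ σ, Q σ) := by
  have Zt : 0 ≤ ∑ σ, Q σ := sum_nonneg fun σ _ => hQ σ
  have h4 : ∀ P, ∑ σ, Q σ * O P σ ≤ A * ∑ σ, Q σ +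
      s / 2 * (∑ σ, Q σ) / ((∑ σ, ql σ) * γ ^ p) * ∑ σ, ql σ * O P σ ^ p +
      1 / (2 * s) * ∑ σ, Q σ * O P σ ^ 2 := fun P => by
    have h5 : 0 ≤ ∑ σ, ql σ * O P σ ^ p := sum_nonneg fun σ _ =>
      mul_nonneg (hl σ) (pow_nonneg (hO P σ) _)
    have h6 : 0 ≤ ∑ σ, Q σ * O P σ ^ 2 := sum_nonneg fun σ _ => mul_nonneg (hQ σ) (sq_nonneg _)
    by_cases h : ∑ σ, ql σ * O P σ ≤ γ * ∑ σ, ql σ
    · exact (hg P h).trans ((le_add_of_nonneg_right (by positivity)).trans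
        (le_add_of_nonneg_right (by positivity)))
    have h7 := Real.pow_arith_mean_le_arith_mean_pow univ (fun σ => ql σ / ∑ σ, ql σ) (O P)
      (fun σ _ => div_nonneg (hl σ) Zl.le) (by rw [← sum_div, div_self Zl.ne'])
      (fun σ _ => hO P σ) p
    simp only [div_mul_eq_mul_div, ← sum_div] at h7
    have h8 : (∑ σ, ql σ) * γ ^ p ≤ ∑ σ, ql σ * O P σ ^ p := by
      rw [mul_comm, ← le_div_iff₀ Zl]
      exact (pow_le_pow_left₀ γ0.le ((le_div_iff₀ Zl).2 (not_le.1 h).le) p).trans h7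
    have h9 : s / 2 * ∑ σ, Q σ ≤
        s / 2 * (∑ σ, Q σ) / ((∑ σ, ql σ) * γ ^ p) * ∑ σ, ql σ * O P σ ^ p := by
      rw [div_mul_eq_mul_div _ (_ * _), le_div_iff₀ (by positivity)]
      exact mul_le_mul_of_nonneg_left h8 (by positivity)
    have h10 : ∑ σ, Q σ * O P σ ≤ s / 2 * ∑ σ, Q σ + 1 / (2 * s) * ∑ σ, Q σ * O P σ ^ 2 := by
      rw [mul_sum, mul_sum, ← sum_add_distrib]
      refine sum_le_sum fun σ _ => ?_
      have : O P σ ≤ s / 2 + 1 / (2 * s) * O P σ ^ 2 := by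
        rw [← sub_nonneg, show s / 2 + 1 / (2 * s) * O P σ ^ 2 - O P σ =
          (s - O P σ) ^ 2 / (2 * s) by field_simp; ring]
        positivity
      linarith [mul_le_mul_of_nonneg_left this (hQ σ)]
    linarith [mul_nonneg A0 Zt]
  have e : ∀ (w : S → ℝ) (F : T → S → ℝ), ∑ P, ∑ σ, w σ * F P σ = ∑ σ, w σ * ∑ P, F P σ :=
    fun w F => by rw [sum_comm]; simp only [mul_sum]
  have h5 := sum_le_sum fun P (_ : P ∈ univ) => h4 P
  rw [sum_add_distrib, sum_add_distrib, ← mul_sum _ _ (_ / (_ * _)), ← mul_sum _ _ (1 / _), e, e, e,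
    sum_const, card_univ, nsmul_eq_mul] at h5
  have h6 : ∑ σ, Q σ * ∑ P, O P σ ^ 2 ≤ (∑ σ, Q σ) * (Fintype.card T * s) := by
    rw [sum_mul]
    exact sum_le_sum fun σ _ => mul_le_mul_of_nonneg_left (h2 σ) (hQ σ)
  have h7 : s / 2 * (∑ σ, Q σ) / ((∑ σ, ql σ) * γ ^ p) * ∑ σ, ql σ * ∑ P, O P σ ^ p ≤
      Fintype.card T * ∑ σ, Q σ := by
    refine (mul_le_mul_of_nonneg_left h1 (by positivity)).trans ?_
    rw [div_mul_eq_mul_div _ (_ * _), div_le_iff₀ (by positivity)]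
    linarith [mul_le_mul_of_nonneg_left h3
      (show 0 ≤ Fintype.card T * (∑ σ, Q σ) * (∑ σ, ql σ) / 2 by positivity)]
  have h8 : 1 / (2 * s) * ∑ σ, Q σ * ∑ P, O P σ ^ 2 ≤ Fintype.card T * (∑ σ, Q σ) / 2 :=
    (mul_le_mul_of_nonneg_left h6 (by positivity)).trans_eq (by field_simp)
  linarith

lemma exp_le {x : ℝ} (h : |x| ≤ 1) : exp x ≤ 1 + x + x ^ 2 := by
  linarith [(abs_le.1 (abs_exp_sub_one_sub_id_le h)).2]
lemma le_exp {x : ℝ} (h : |x| ≤ 1) : 1 + x + x ^ 2 / 4 ≤ exp x := by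
  have h1 := pow_le_pow_left₀ (by linarith [(abs_le.1 h).1]) (add_one_le_exp (x / 2)) 2
  rw [← exp_nat_mul, show ((2 : ℕ) : ℝ) * (x / 2) = x by push_cast; ring] at h1
  linarith

variable {Z S : Type} [Fintype Z] {u : Z → S → ℝ} {a : ℝ} {k : ℕ}
/-- the tilt of a pattern -/
noncomputable def O (u : Z → S → ℝ) (a : ℝ) (P : Fin k → Z × Z) (σ : S) : ℝ :=
  exp (a * ∑ i, (u (P i).1 σ - u (P i).2 σ))
omit [Fintype Z] in
lemma O_pow (P : Fin k → Z × Z) (σ : S) (j : ℕ) : O u a P σ ^ j = O u (j * a) P σ := by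
  rw [O, O, ← exp_nat_mul, mul_assoc]
lemma sum_O (σ : S) : ∑ P : Fin k → Z × Z, O u a P σ =
    (∑ y : Z × Z, exp (a * (u y.1 σ - u y.2 σ))) ^ k := by
  rw [Fintype.sum_pow]
  exact sum_congr rfl fun P _ => by rw [O, mul_sum, exp_sum]
lemma exists_w (u : Z → S → ℝ) (a : ℝ) (P : Fin k → Z × Z) :
    ∃ w : Z → ℝ, ∀ σ, exp (∑ z, w z * u z σ) = O u a P σ := by
  classical
  refine ⟨fun z => a * ∑ i, ((if (P i).1 = z then 1 else 0) - if (P i).2 = z then 1 else 0),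
    fun σ => congrArg exp ?_⟩
  simp only [mul_assoc, ← mul_sum, sum_mul, sub_mul]
  rw [sum_comm]
  simp
lemma sum_dl (σ : S) : ∑ y : Z × Z, (u y.1 σ - u y.2 σ) = 0 := by
  rw [sum_sub_distrib, sub_eq_zero, Fintype.sum_prod_type, Fintype.sum_prod_type_right]
variable [Nonempty Z]
lemma sum_dl_sq (σ : S) :
    ∑ y : Z × Z, (u y.1 σ - u y.2 σ) ^ 2 = (Fintype.card Z : ℝ) ^ 2 * Yv u σ := by
  rw [Yv, mul_div_cancel₀ _ (by positivity), Fintype.sum_prod_type]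
omit [Fintype Z] [Nonempty Z] in
lemma dl_le (hu : ∀ z σ, |u z σ| ≤ 1 / 2) (y : Z × Z) (σ : S) : |u y.1 σ - u y.2 σ| ≤ 1 :=
  (abs_sub _ _).trans (by linarith [hu y.1 σ, hu y.2 σ])
omit [Nonempty Z] in
lemma Y_nonneg (σ : S) : 0 ≤ Yv u σ := by unfold Yv; positivity
lemma card_sq : (Fintype.card (Z × Z) : ℝ) = (Fintype.card Z : ℝ) ^ 2 := by
  rw [Fintype.card_prod, Nat.cast_mul, sq]
lemma Y_le (hu : ∀ z σ, |u z σ| ≤ 1 / 2) (σ : S) : Yv u σ ≤ 1 := by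
  have := sum_le_card_nsmul univ (fun y : Z × Z => (u y.1 σ - u y.2 σ) ^ 2) 1 fun y _ =>
    (sq_le_one_iff_abs_le_one _).2 (dl_le hu y σ)
  rw [sum_dl_sq, card_univ, nsmul_eq_mul, card_sq] at this
  exact le_of_mul_le_mul_left this (by positivity)
lemma card_pat : (Fintype.card (Fin k → Z × Z) : ℝ) = ((Fintype.card Z : ℝ) ^ 2) ^ k := by
  rw [Fintype.card_fun, Fintype.card_fin, Nat.cast_pow, card_sq]
lemma sum_quad (b : ℝ) (σ : S) : ∑ y : Z × Z, (1 + a * (u y.1 σ - u y.2 σ) +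
    (a * (u y.1 σ - u y.2 σ)) ^ 2 / b) = (Fintype.card Z : ℝ) ^ 2 * (1 + a ^ 2 * Yv u σ / b) := by
  simp only [sum_add_distrib, mul_pow, ← sum_div, ← mul_sum, sum_dl, sum_dl_sq, sum_const, card_univ,
    nsmul_eq_mul, card_sq]
  ring
omit [Fintype Z] [Nonempty Z] in
lemma adl_le (hu : ∀ z σ, |u z σ| ≤ 1 / 2) (ha : |a| ≤ 1) (y : Z × Z) (σ : S) :
    |a * (u y.1 σ - u y.2 σ)| ≤ 1 := by
  rw [abs_mul]
  exact mul_le_one₀ ha (abs_nonneg _) (dl_le hu y σ)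
lemma sum_O_le (hu : ∀ z σ, |u z σ| ≤ 1 / 2) (ha : |a| ≤ 1) (σ : S) :
    ∑ P : Fin k → Z × Z, O u a P σ ≤ Fintype.card (Fin k → Z × Z) * (1 + a ^ 2 * Yv u σ) ^ k := by
  rw [sum_O, card_pat, ← mul_pow, ← div_one (a ^ 2 * _), ← sum_quad]
  exact pow_le_pow_left₀ (sum_nonneg fun _ _ => (exp_pos _).le)
    (sum_le_sum fun y _ => by rw [div_one]; exact exp_le (adl_le hu ha y σ)) k
lemma le_sum_O (hu : ∀ z σ, |u z σ| ≤ 1 / 2) (ha : |a| ≤ 1) (σ : S) :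
    Fintype.card (Fin k → Z × Z) * exp (a ^ 2 * k / 8 * Yv u σ) ≤
      ∑ P : Fin k → Z × Z, O u a P σ := by
  have h0 := mul_nonneg (sq_nonneg a) (Y_nonneg (u := u) σ)
  have h1 : a ^ 2 * Yv u σ ≤ 1 :=
    mul_le_one₀ ((sq_le_one_iff_abs_le_one _).2 ha) (Y_nonneg σ) (Y_le hu σ)
  rw [sum_O, card_pat, show a ^ 2 * k / 8 * Yv u σ = k * (a ^ 2 * Yv u σ / 8) by ring, exp_nat_mul,
    ← mul_pow]
  refine pow_le_pow_left₀ (by positivity) (le_trans ?_
    ((sum_quad 4 σ).ge.trans (sum_le_sum fun y _ => le_exp (adl_le hu ha y σ)))) k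
  exact mul_le_mul_of_nonneg_left ((exp_le (abs_le.2 ⟨by linarith, by linarith⟩)).trans
    (by nlinarith)) (by positivity)

lemma pow_le {Y d : ℝ} (hd : 0 < d) (h0 : 0 ≤ Y) (h1 : Y ≤ 1) (k : ℕ) :
    (1 + Y) ^ k ≤ exp (2 * d * k) + 2 ^ k / d ^ 3 * max (Y - d) 0 ^ 3 := by
  by_cases h : Y ≤ 2 * d
  · refine le_trans ?_ (le_add_of_nonneg_right (by positivity))
    rw [mul_comm, exp_nat_mul]
    exact pow_le_pow_left₀ (by linarith) (by linarith [add_one_le_exp (2 * d)]) k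
  · refine le_trans ?_ (le_add_of_nonneg_left (exp_pos _).le)
    rw [div_mul_eq_mul_div, le_div_iff₀ (by positivity)]
    exact mul_le_mul (pow_le_pow_left₀ (by linarith) (by linarith) k)
      (pow_le_pow_left₀ hd.le (le_max_of_le_left (by linarith)) 3) (by positivity) (by positivity)

/-- tangent line of the exponential -/
lemma tang [Fintype S] {q Y : S → ℝ} (hq : ∀ σ, 0 ≤ q σ) {b m : ℝ} (hb : 0 ≤ b)
    (h : m * ∑ σ, q σ ≤ ∑ σ, q σ * Y σ) : exp (b * m) * ∑ σ, q σ ≤ ∑ σ, q σ * exp (b * Y σ) := by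
  have h1 : ∑ σ, exp (b * m) * (q σ + b * (q σ * Y σ) - b * m * q σ) ≤
      ∑ σ, q σ * exp (b * Y σ) := sum_le_sum fun σ _ => by
    have := mul_le_mul_of_nonneg_left (add_one_le_exp (b * Y σ - b * m))
      (mul_nonneg (hq σ) (exp_pos (b * m)).le)
    rw [mul_assoc (q σ) _ (exp _), ← exp_add, add_sub_cancel] at this
    linarith
  simp only [← mul_sum, sum_sub_distrib, sum_add_distrib] at h1
  exact le_trans (mul_le_mul_of_nonneg_left (by linarith [mul_le_mul_of_nonneg_left h hb])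
    (exp_pos _).le) h1

/-- the constants -/
lemma exists_const {c κ : ℝ} (hc : 0 < c) (hc' : c ≤ 1 / 8) (hκ : 0 < κ) :
    ∃ (l θ : ℝ) (p k : ℕ), 0 < l ∧ 2 * l ≤ 1 ∧ p * l = 1 ∧
      (2 * l) ^ 2 + 2 * (c ^ 4 / 10 ^ 7) ≤ p * θ ∧ 0 ≤ θ ∧
      4 / 3 * exp (θ * k) * exp ((14 / c ^ 2 + 20 / c + 4 * θ * k / c) / 2) + 3 / 2 <
        exp (l ^ 2 * k / 8 * (c / 5)) * κ := by
  have c2 : c ^ 2 ≤ 1 := by nlinarith
  have h1 := Nat.le_ceil (1600 / c ^ 2)
  have h2 := Nat.ceil_lt_add_one (show 0 ≤ 1600 / c ^ 2 by positivity)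
  generalize ⌈1600 / c ^ 2⌉₊ = p at h1 h2
  have p0 : (0 : ℝ) < p := lt_of_lt_of_le (by positivity) h1
  obtain ⟨l, l0, hl⟩ : ∃ l : ℝ, 0 < l ∧ p * l = 1 := ⟨1 / p, by positivity, by field_simp⟩
  rw [div_le_iff₀ (by positivity)] at h1
  rw [div_add_one (by positivity), lt_div_iff₀ (by positivity)] at h2
  have h3 : 1600 * l ≤ c ^ 2 := by nlinarith [mul_le_mul_of_nonneg_right h1 l0.le]
  have h4 : c ^ 2 ≤ 1601 * l := by nlinarith [mul_le_mul_of_nonneg_right h2.le l0.le]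
  obtain ⟨k, hk⟩ := exists_nat_gt
    ((4 / 3 * exp (7 / c ^ 2 + 10 / c) + 3 / 2) / (κ * (l ^ 2 * c / 80)))
  rw [div_lt_iff₀ (by positivity)] at hk
  refine ⟨l, l ^ 2 * c ^ 2 / 200, p, k, l0, by linarith, hl, ?_, by positivity, ?_⟩
  · rw [show p * (l ^ 2 * c ^ 2 / 200) = (p * l) * (l * c ^ 2 / 200) by ring, hl]
    nlinarith [mul_le_mul_of_nonneg_left h3 l0.le, mul_le_mul_of_nonneg_left h4 (sq_nonneg c),
      mul_pos l0 (pow_pos hc 2)]
  · set x := l ^ 2 * c / 80 * k with hx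
    have x0 : 0 ≤ x := by positivity
    have h5 : exp (l ^ 2 * c ^ 2 / 200 * k) *
        exp ((14 / c ^ 2 + 20 / c + 4 * (l ^ 2 * c ^ 2 / 200) * k / c) / 2) ≤
        exp (7 / c ^ 2 + 10 / c) * exp x := by
      rw [← exp_add, ← exp_add, exp_le_exp, show 4 * (l ^ 2 * c ^ 2 / 200) * k / c =
        l ^ 2 * c / 50 * k by field_simp; ring, hx]
      have := mul_le_mul_of_nonneg_left hc' (show 0 ≤ l ^ 2 * c * k by positivity)
      have : 0 ≤ l ^ 2 * c * k := by positivity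
      ring_nf at *
      linarith
    rw [show l ^ 2 * k / 8 * (c / 5) = x + x by rw [hx]; ring, exp_add, mul_assoc (4 / 3 : ℝ)]
    have h6 := one_le_exp x0
    have h7 : 4 / 3 * exp (7 / c ^ 2 + 10 / c) + 3 / 2 < exp x * κ := by
      nlinarith [add_one_le_exp x]
    nlinarith [mul_lt_mul_of_pos_left h7 (exp_pos x)]
end Co
open Co

/-- **(Core)** -/
theorem core : CoreStmt := by
  intro c hc hc' κ hκ
  obtain ⟨l, θ, p, k, l0, l2, hp, h1, θ0, h2⟩ := exists_const hc hc' hκ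
  set d := c ^ 4 / 10 ^ 7 with hd
  have d0 : 0 < d := by positivity
  refine ⟨min (min c (κ * c / 20)) (d ^ 3 / 2 ^ k), by positivity, ?_⟩
  set ε := min (min c (κ * c / 20)) (d ^ 3 / 2 ^ k)
  have ε1 : ε ≤ c := (min_le_left _ _).trans (min_le_left _ _)
  have ε2 : ε ≤ κ * c / 20 := (min_le_left _ _).trans (min_le_right _ _)
  have ε3 : 2 ^ k / d ^ 3 * ε ≤ 1 :=
    (mul_le_mul_of_nonneg_left (min_le_right _ _) (by positivity)).trans_eq (by field_simp)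
  intro S Z _ _ _ n Nm N1 u q qb hu hq hb hZ h0 hw hY hm hN hN' hn hf hc4
  by_contra hcon
  have hn' : 1 ≤ c * n := hn.trans (mul_le_mul_of_nonneg_right ε1 n.cast_nonneg)
  have e : ∀ (m : ℕ) (F : S → ℝ), ∑ σ, (∑ N ∈ range m, q N σ) * F σ =
      ∑ N ∈ range m, ∑ σ, q N σ * F σ := fun m F => by rw [sum_comm]; simp only [sum_mul]
  have e' : ∀ m : ℕ, ∑ σ, ∑ N ∈ range m, q N σ = ∑ N ∈ range m, ∑ σ, q N σ := fun m => sum_comm
  have Z0 : ∀ m : ℕ, 0 < ∑ N ∈ range (m + 1), ∑ σ, q N σ := fun m =>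
    sum_pos' (fun N _ => hZ.nonneg N) ⟨0, by simp, hZ.pos⟩
  have hl1 : |l| ≤ 1 := by rw [abs_of_pos l0]; linarith
  have h3 := avg (O := fun P : Fin k → Z × Z => O u l P) (fun _ _ => (exp_pos _).le)
    (Q := fun σ => ∑ N ∈ range (n + 1), q N σ) (ql := fun σ => ∑ N ∈ range (N1 + 1), q N σ)
    (fun σ => sum_nonneg fun N _ => hq N σ) (fun σ => sum_nonneg fun N _ => hq N σ)
    (γ := exp (θ * k)) (A := 4 / 3 * exp (θ * k) * exp ((14 / c ^ 2 + 20 / c + 4 * θ * k / c) / 2))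
    (s := exp ((2 * l) ^ 2 * k)) (B := 2 * exp (2 * d * k)) (p := p) (e' _ ▸ Z0 N1) (exp_pos _)
    (exp_pos _) (by positivity) (fun P hP => ?_) ?_ (fun σ => ?_) ?_
  · rw [e'] at h3
    have h4 := tang (q := qb) (Y := Yv u) (fun σ => (hb σ).1) (b := l ^ 2 * k / 8) (m := c / 5)
      (by positivity) (by
        have := mul_le_mul_of_nonneg_right ε2 (Z0 n).le
        have := mul_le_mul_of_nonneg_left (not_le.1 hcon).le hc.le
        linarith)
    have h5 : Fintype.card (Fin k → Z × Z) * ∑ σ, qb σ * exp (l ^ 2 * k / 8 * Yv u σ) ≤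
        ∑ σ, (∑ N ∈ range (n + 1), q N σ) * ∑ P : Fin k → Z × Z, O u l P σ := by
      rw [mul_sum]
      exact sum_le_sum fun σ _ => (mul_left_comm _ _ _).trans_le (mul_le_mul (hb σ).2
        (le_sum_O hu hl1 σ) (by positivity) (sum_nonneg fun N _ => hq N σ))
    have h6 := h4.trans (le_of_mul_le_mul_left (h5.trans h3) (by rw [card_pat]; positivity))
    have h7 := mul_lt_mul_of_pos_left (not_le.1 hcon) (exp_pos (l ^ 2 * k / 8 * (c / 5)))
    linarith [mul_lt_mul_of_pos_right h2 (Z0 n)]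
  · obtain ⟨w, hw'⟩ := exists_w u l P
    obtain ⟨h3, h4⟩ := hw w
    simp only [hw'] at h3 h4
    rw [e, e'] at hP ⊢
    refine good hc hc' hn' hm hN hN' hZ hf (fun N => ?_) hP
      (by rw [add_assoc]; exact le_add_of_nonneg_right (by positivity)) ?_ h3 h4
    · have h5 : ∑ σ, q N σ * ∑ z, w z * u z σ = 0 := by
        simp only [mul_sum, mul_left_comm (q N _)]
        rw [sum_comm]
        exact sum_eq_zero fun z _ => by rw [← mul_sum, h0, mul_zero]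
      rw [← add_zero (∑ σ, q N σ), ← h5, ← sum_add_distrib]
      exact sum_le_sum fun σ _ => by
        rw [← hw']
        linarith [mul_le_mul_of_nonneg_left (add_one_le_exp (∑ z, w z * u z σ)) (hq N σ)]
    · rw [show (14 / c ^ 2 + 20 / c + 4 * θ * k / c) * c / 4 = 7 / (2 * c) + 5 + θ * k by
        field_simp; ring, exp_add]
      refine mul_le_mul_of_nonneg_right (le_trans ?_ (exp_le_exp.2
        (le_add_of_nonneg_left (by positivity)))) (exp_pos _).le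
      have := pow_le_pow_left₀ (by norm_num) exp_one_gt_d9.le 5
      rw [← exp_nat_mul, mul_one, Nat.cast_ofNat] at this
      exact le_trans (by norm_num) this
  · have h3 : ∀ σ, ∑ P : Fin k → Z × Z, O u l P σ ^ p ≤ Fintype.card (Fin k → Z × Z) *
        (exp (2 * d * k) + 2 ^ k / d ^ 3 * max (Yv u σ - d) 0 ^ 3) := fun σ => by
      simp only [O_pow, hp]
      refine (sum_O_le hu abs_one.le σ).trans (mul_le_mul_of_nonneg_left ?_ (Nat.cast_nonneg _))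
      rw [one_pow, one_mul]
      exact pow_le d0 (Y_nonneg σ) (Y_le hu σ) k
    refine (sum_le_sum fun σ _ => mul_le_mul_of_nonneg_left (h3 σ)
      (sum_nonneg fun N _ => hq N σ)).trans ?_
    simp only [mul_left_comm _ (Fintype.card (Fin k → Z × Z) : ℝ), ← mul_sum]
    refine mul_le_mul_of_nonneg_left ?_ (Nat.cast_nonneg _)
    rw [e, e', mul_sum]
    refine sum_le_sum fun N hN => ?_
    have h4 := mul_le_mul_of_nonneg_left (hY N (Nat.lt_succ_iff.1 (mem_range.1 hN)))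
      (show 0 ≤ 2 ^ k / d ^ 3 by positivity)
    have h5 := mul_le_mul_of_nonneg_right (ε3.trans (one_le_exp (show 0 ≤ 2 * d * k by positivity)))
      (hZ.nonneg N)
    simp only [mul_add, sum_add_distrib, ← sum_mul, mul_left_comm (q N _), ← mul_sum]
    linarith
  · simp only [O_pow, Nat.cast_ofNat]
    refine (sum_O_le hu (by rwa [abs_of_pos (by positivity)]) σ).trans
      (mul_le_mul_of_nonneg_left ?_ (Nat.cast_nonneg _))
    rw [mul_comm _ (k : ℝ), exp_nat_mul]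
    have := mul_le_of_le_one_right (sq_nonneg (2 * l)) (Y_le hu σ)
    exact pow_le_pow_left₀ (add_nonneg zero_le_one (mul_nonneg (sq_nonneg _) (Y_nonneg σ)))
      (by linarith [add_one_le_exp ((2 * l) ^ 2)]) k
  · rw [mul_left_comm, ← exp_add, ← exp_nat_mul]
    exact mul_le_mul_of_nonneg_left (exp_le_exp.2
      (by linarith [mul_le_mul_of_nonneg_right h1 k.cast_nonneg])) zero_le_two

end Crest.Agent.N337.C
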