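import Crest.Agent.N337.C.Defs

/-!
# Row 337, task C-Core, part 1: the continuity argument for one good tilt
-/

set_option autoImplicit false

namespace Crest.Agent.N337.C.Co

open Finset Filter Topology Real

/-- two separated masses force a variance -/
lemma var_ge {s A B : Finset ℕ} (hA : A ⊆ s) (hB : B ⊆ s) {w x : ℕ → ℝ} (hw : ∀ i, 0 ≤ w i)
    {D : ℝ} (hD : 0 < D) (h : ∀ i ∈ A, ∀ j ∈ B, D ≤ x j - x i) :
    D ^ 2 * ((∑ i ∈ A, w i) * ∑ i ∈ B, w i) ≤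
      (∑ i ∈ s, w i) * (∑ i ∈ s, w i * x i ^ 2) - (∑ i ∈ s, w i * x i) ^ 2 := by
  have e : ∀ {A : Finset ℕ}, A ⊆ s → ∑ i ∈ A, w i = ∑ i ∈ s, if i ∈ A then w i else 0 :=
    fun hA => by rw [sum_ite_mem, inter_eq_right.2 hA]
  have h1 : ∀ i ∈ A, ∀ j ∈ B, D ^ 2 * (w i * w j) ≤ w i * w j * (x i - x j) ^ 2 := fun i hi j hj => by
    have := h i hi j hj
    rw [mul_comm]
    exact mul_le_mul_of_nonneg_left (by nlinarith) (mul_nonneg (hw i) (hw j))
  have h2 : 0 ≤ ∑ i ∈ s, ∑ j ∈ s, (w i * (w j * x j ^ 2) + w i * x i ^ 2 * w j -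
      2 * (w i * x i * (w j * x j)) -
      D ^ 2 * ((if i ∈ A then w i else 0) * if j ∈ B then w j else 0) -
      D ^ 2 * ((if i ∈ B then w i else 0) * if j ∈ A then w j else 0)) :=
    sum_nonneg fun i _ => sum_nonneg fun j _ => by
      have h0 := mul_nonneg (mul_nonneg (hw i) (hw j)) (sq_nonneg (x i - x j))
      by_cases h3 : i ∈ A ∧ j ∈ B
      · have h4 : i ∉ B := fun h4 => by linarith [h i h3.1 i h4]
        have := h1 i h3.1 j h3.2
        simp only [h3.1, h3.2, h4, if_true, if_false]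
        linarith
      by_cases h4 : i ∈ B ∧ j ∈ A
      · have h5 : i ∉ A := fun h5 => by linarith [h i h5 i h4.1]
        have := h1 j h4.2 i h4.1
        simp only [h4.1, h4.2, h5, if_true, if_false]
        linarith
      rw [ite_zero_mul_ite_zero, ite_zero_mul_ite_zero, if_neg h3, if_neg h4]
      linarith
  simp only [sum_sub_distrib, sum_add_distrib, ← mul_sum, ← sum_mul] at h2
  rw [e hA, e hB]
  linarith

lemma Z_pos {Z : ℕ → ℝ} {n N : ℕ} (hZ : Uni Z n) (h : 2 * N ≤ n) : 0 < Z N :=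
  hZ.pos.trans_le (hZ.mono 0 N N.zero_le h)

lemma num {L W H V θ n c : ℝ} (L0 : 0 < L) (W0 : 0 ≤ W) (n0 : 0 < n) (θ0 : 0 < θ)
    (h : L + W = 3 * H) (h1 : 4 * W ≤ L) (h2 : (c * n / 2) ^ 2 * (L * H) ≤ V)
    (h3 : θ * V ≤ n / 2 * (3 * H + H) ^ 2) (ht : 14 ≤ θ * n * c ^ 2) : False := by
  have H0 : 0 < H := by linarith
  have h4 : (c * n / 2) ^ 2 * (12 / 5 * H * H) ≤ V := le_trans (mul_le_mul_of_nonneg_left
    (mul_le_mul_of_nonneg_right (by linarith) H0.le) (sq_nonneg _)) h2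
  have h5 := (mul_le_mul_of_nonneg_left h4 θ0.le).trans h3
  have h6 : 0 < n * H ^ 2 := by positivity
  nlinarith [mul_le_mul_of_nonneg_right ht h6.le]

lemma two_le {N n : ℕ} {c : ℝ} (hc' : c ≤ 1 / 8) (h : (N : ℝ) ≤ 2 * c * n) : 2 * N ≤ n := by
  have : (2 * N : ℝ) ≤ n := by nlinarith [(n.cast_nonneg : (0 : ℝ) ≤ n)]
  exact_mod_cast this

section good
variable {ν Z : ℕ → ℝ} {n Nm N1 : ℕ} {c γ t₀ : ℝ}

/-- no tilt puts exactly a quarter of the mass above `N1` -/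
lemma ne_quarter (hc : 0 < c) (hc' : c ≤ 1 / 8) (hn : 1 ≤ c * n) (hm : (Nm : ℝ) ≤ c * n / 16)
    (h1 : c * n ≤ N1) (h1' : (N1 : ℝ) ≤ 2 * c * n) (hZ : Uni Z n) (hf : Z N1 ≤ 2 * Z Nm)
    (hν : ∀ N, Z N ≤ ν N) (hγ : ∑ N ∈ range (N1 + 1), ν N ≤ γ * ∑ N ∈ range (N1 + 1), Z N)
    {θ : ℝ} (ht : 14 / c ^ 2 ≤ θ * n) (ht' : 128 * γ ≤ exp (θ * n * c / 4))
    (hN : θ * (mo ν n 0 θ * mo ν n 2 θ - mo ν n 1 θ ^ 2) ≤ n / 2 * mo ν n 0 θ ^ 2) :
    ∑ N ∈ range (N1 + 1), ν N * exp (-(θ * N)) ≠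
      3 * ∑ N ∈ Ico (N1 + 1) (n + 1), ν N * exp (-(θ * N)) := fun he => by
  have n0 : (0 : ℝ) < n := pos_of_mul_pos_right (one_pos.trans_le hn) hc.le
  have θ0 : 0 < θ := pos_of_mul_pos_left (lt_of_lt_of_le (by positivity) ht) n0.le
  have ν0 : ∀ N, 0 ≤ ν N := fun N => (hZ.nonneg N).trans (hν N)
  have hw : ∀ N, 0 ≤ ν N * exp (-(θ * N)) := fun N => mul_nonneg (ν0 N) (exp_pos _).le
  have h2 : 2 * N1 ≤ n := two_le hc' h1'
  have hZm := Z_pos hZ (two_le (N := Nm) hc' (by linarith))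
  set a := ⌈c * n / 2⌉₊ with ha
  have ha1 : a ≤ N1 + 1 := (Nat.ceil_le.2 (by linarith)).trans N1.le_succ
  have h3 := sum_range_add_sum_Ico (fun N => ν N * exp (-(θ * N))) ha1
  have h4 := sum_range_add_sum_Ico (fun N => ν N * exp (-(θ * N))) (show N1 + 1 ≤ n + 1 by omega)
  -- the low part
  have h5 : 3 * (c * n) / 16 * (Z Nm * exp (-(θ * n * c / 4))) ≤
      ∑ N ∈ range a, ν N * exp (-(θ * N)) := by
    have hb := Nat.floor_le (show 0 ≤ c * n / 4 by positivity)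
    have hb' := Nat.lt_floor_add_one (c * n / 4)
    have hb2 : Nm ≤ ⌊c * n / 4⌋₊ + 1 := by
      have : (Nm : ℝ) ≤ ⌊c * n / 4⌋₊ + 1 := by linarith
      exact_mod_cast this
    refine le_trans ?_ (sum_le_sum_of_subset_of_nonneg (s := Ico Nm (⌊c * n / 4⌋₊ + 1))
      (fun N hN => mem_range.2 (Nat.lt_ceil.2 ?_)) fun N _ _ => hw N)
    · refine le_trans ?_ (card_nsmul_le_sum _ _ (Z Nm * exp (-(θ * n * c / 4))) fun N hN => ?_)
      · rw [Nat.card_Ico, nsmul_eq_mul, Nat.cast_sub hb2]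
        exact mul_le_mul_of_nonneg_right (by push_cast; linarith) (by positivity)
      · obtain ⟨h6, h7⟩ := mem_Ico.1 hN
        have h8 : (N : ℝ) ≤ c * n / 4 := (Nat.cast_le.2 (Nat.lt_succ_iff.1 h7)).trans hb
        exact mul_le_mul ((hZ.mono _ _ h6 (two_le hc' (by linarith))).trans (hν N))
          (exp_le_exp.2 (by linarith [mul_le_mul_of_nonneg_left h8 θ0.le])) (exp_pos _).le (ν0 N)
    · have h8 : (N : ℝ) ≤ c * n / 4 :=
        (Nat.cast_le.2 (Nat.lt_succ_iff.1 (mem_Ico.1 hN).2)).trans hb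
      linarith
  -- the window
  have hZl : ∑ N ∈ range (N1 + 1), Z N ≤ 6 * (c * n) * Z Nm := by
    refine (sum_le_card_nsmul _ _ (Z N1) fun N hN =>
      hZ.mono _ _ (Nat.lt_succ_iff.1 (mem_range.1 hN)) h2).trans ?_
    rw [card_range, nsmul_eq_mul]
    push_cast
    exact (mul_le_mul (show _ ≤ 3 * (c * n) by linarith) hf (hZ.nonneg _) (by positivity)).trans_eq
      (by ring)
  have γ0 : 0 ≤ γ := nonneg_of_mul_nonneg_left ((sum_nonneg fun N _ => ν0 N).trans hγ)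
    (sum_pos' (fun N _ => hZ.nonneg N) ⟨0, by simp, hZ.pos⟩)
  have h6 : ∑ N ∈ Ico a (N1 + 1), ν N * exp (-(θ * N)) ≤
      γ * (6 * (c * n) * Z Nm) * exp (-(θ * n * c / 2)) := by
    refine le_trans (sum_le_sum (g := fun N => ν N * exp (-(θ * n * c / 2))) fun N hN => ?_) ?_
    · have h7 : c * n / 2 ≤ N := Nat.ceil_le.1 (mem_Ico.1 hN).1
      exact mul_le_mul_of_nonneg_left
        (exp_le_exp.2 (by linarith [mul_le_mul_of_nonneg_left h7 θ0.le])) (ν0 N)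
    · rw [← sum_mul]
      refine mul_le_mul_of_nonneg_right (le_trans ?_
        (hγ.trans (mul_le_mul_of_nonneg_left hZl γ0))) (exp_pos _).le
      exact sum_le_sum_of_subset_of_nonneg (fun N hN => mem_range.2 (mem_Ico.1 hN).2)
        fun N _ _ => ν0 N
  have h7 : 128 * γ * exp (-(θ * n * c / 2)) ≤ exp (-(θ * n * c / 4)) :=
    (mul_le_mul_of_nonneg_right ht' (exp_pos _).le).trans (by rw [← exp_add]; ring_nf; rfl)
  have h8 := var_ge (s := range (n + 1)) (A := range a) (B := Ico (N1 + 1) (n + 1))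
    (range_subset_range.2 (by omega)) (fun N hN => mem_range.2 (mem_Ico.1 hN).2) hw
    (x := fun N => (N : ℝ)) (D := c * n / 2) (by positivity) fun i hi j hj => by
      have h9 : (i : ℝ) < c * n / 2 := Nat.lt_ceil.1 (mem_range.1 hi)
      have h10 : ((N1 + 1 : ℕ) : ℝ) ≤ j := Nat.cast_le.2 (mem_Ico.1 hj).1
      push_cast at h10
      linarith
  simp only [mo, pow_zero, mul_one, pow_one, mul_right_comm (ν _) _ (exp _)] at hN
  rw [← h4, he] at hN h8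
  refine num (lt_of_lt_of_le (by positivity) h5) (sum_nonneg fun N _ => hw N) n0 θ0 (h3.trans he)
    ?_ h8 hN ((div_le_iff₀ (by positivity)).1 ht)
  have := mul_le_mul_of_nonneg_left h7 (show 0 ≤ 3 * (c * n) / 16 * Z Nm by positivity)
  linarith

/-- **a tilt with little mass below `N1` has little mass** -/
theorem good (hc : 0 < c) (hc' : c ≤ 1 / 8) (hn : 1 ≤ c * n) (hm : (Nm : ℝ) ≤ c * n / 16)
    (h1 : c * n ≤ N1) (h1' : (N1 : ℝ) ≤ 2 * c * n) (hZ : Uni Z n) (hf : Z N1 ≤ 2 * Z Nm)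
    (hν : ∀ N, Z N ≤ ν N) (hγ : ∑ N ∈ range (N1 + 1), ν N ≤ γ * ∑ N ∈ range (N1 + 1), Z N)
    (ht : 14 / c ^ 2 ≤ t₀) (ht' : 128 * γ ≤ exp (t₀ * c / 4)) (hs : ∀ N, N ≤ n → ν (n - N) = ν N)
    (hN : ∀ θ : ℝ, 0 < θ →
      θ * (mo ν n 0 θ * mo ν n 2 θ - mo ν n 1 θ ^ 2) ≤ n / 2 * mo ν n 0 θ ^ 2) :
    ∑ N ∈ range (n + 1), ν N ≤ 4 / 3 * γ * exp (t₀ / 2) * ∑ N ∈ range (n + 1), Z N := by
  have n0 : (0 : ℝ) < n := pos_of_mul_pos_right (one_pos.trans_le hn) hc.le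
  have t0 : 0 < t₀ := lt_of_lt_of_le (by positivity) ht
  have ν0 : ∀ N, 0 ≤ ν N := fun N => (hZ.nonneg N).trans (hν N)
  have h2 : N1 + 1 ≤ n + 1 := by have := two_le hc' h1'; omega
  have γ0 : 0 ≤ γ := nonneg_of_mul_nonneg_left ((sum_nonneg fun N _ => ν0 N).trans hγ)
    (sum_pos' (fun N _ => hZ.nonneg N) ⟨0, by simp, hZ.pos⟩)
  let f : ℝ → ℝ := fun θ => ∑ N ∈ range (N1 + 1), ν N * exp (-(θ * N)) -
    3 * ∑ N ∈ Ico (N1 + 1) (n + 1), ν N * exp (-(θ * N))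
  have hθ : 0 < t₀ / n := by positivity
  have h3 : 0 < f (t₀ / n) := by
    by_contra h
    have h4 : Tendsto (fun θ : ℝ => 3 * ∑ N ∈ Ico (N1 + 1) (n + 1), ν N * exp (-(θ * N))) atTop
        (𝓝 (3 * ∑ N ∈ Ico (N1 + 1) (n + 1), ν N * 0)) :=
      (tendsto_finsetSum _ fun N hN => (tendsto_exp_neg_atTop_nhds_zero.comp
        (tendsto_id.atTop_mul_const (Nat.cast_pos.2 (by
          have := (mem_Ico.1 hN).1; omega)))).const_mul _).const_mul _
    simp only [mul_zero, sum_const_zero] at h4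
    obtain ⟨T, h5, h6⟩ := ((h4.eventually (gt_mem_nhds (hZ.pos.trans_le (hν 0)))).and
      (eventually_ge_atTop (t₀ / n))).exists
    have h7 : 0 ≤ f T := by
      have := single_le_sum (f := fun N : ℕ => ν N * exp (-(T * N))) (s := range (N1 + 1))
        (fun N _ => mul_nonneg (ν0 N) (exp_pos _).le) (mem_range.2 N1.succ_pos)
      simp only [Nat.cast_zero, mul_zero, neg_zero, exp_zero, mul_one] at this
      simp only [f]
      linarith
    obtain ⟨θ, ⟨h8, -⟩, h9⟩ := intermediate_value_Icc h6 (f := f) (by fun_prop) ⟨not_lt.1 h, h7⟩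
    have h10 : t₀ ≤ θ * n := (div_le_iff₀ n0).1 h8
    exact ne_quarter hc hc' hn hm h1 h1' hZ hf hν hγ (ht.trans h10)
      (ht'.trans (exp_le_exp.2 (by linarith [mul_le_mul_of_nonneg_right h10 hc.le])))
      (hN θ (hθ.trans_le h8)) (sub_eq_zero.1 h9)
  have h4 := sum_range_add_sum_Ico (fun N => ν N * exp (-(t₀ / n * N))) h2
  have h5 : ∑ N ∈ range (N1 + 1), ν N * exp (-(t₀ / n * N)) ≤ γ * ∑ N ∈ range (n + 1), Z N :=
    (sum_le_sum fun N _ => mul_le_of_le_one_right (ν0 N) (exp_le_one_iff.2 (neg_nonpos.2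
      (by positivity)))).trans (hγ.trans (mul_le_mul_of_nonneg_left
        (sum_le_sum_of_subset_of_nonneg (range_subset_range.2 h2) fun N _ _ => hZ.nonneg N) γ0))
  have h6 : ∑ N ∈ range (n + 1), ν N * exp (-(t₀ / n * (n - N : ℕ))) =
      ∑ N ∈ range (n + 1), ν N * exp (-(t₀ / n * N)) := by
    rw [← sum_flip fun N => ν N * exp (-(t₀ / n * N))]
    exact sum_congr rfl fun N hN => by rw [hs N (Nat.lt_succ_iff.1 (mem_range.1 hN))]
  have h7 : 2 * ∑ N ∈ range (n + 1), ν N ≤ exp (t₀ / 2) *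
      (∑ N ∈ range (n + 1), ν N * exp (-(t₀ / n * (n - N : ℕ))) +
        ∑ N ∈ range (n + 1), ν N * exp (-(t₀ / n * N))) := by
    rw [← sum_add_distrib, mul_sum, mul_sum]
    refine sum_le_sum fun N hN => ?_
    rw [Nat.cast_sub (Nat.lt_succ_iff.1 (mem_range.1 hN)), ← mul_add, mul_left_comm, mul_add,
      ← exp_add, ← exp_add, mul_comm, mul_sub, div_mul_cancel₀ _ n0.ne']
    exact mul_le_mul_of_nonneg_left (by
      linarith [add_one_le_exp (t₀ / 2 + -(t₀ - t₀ / n * N)),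
        add_one_le_exp (t₀ / 2 + -(t₀ / n * N))]) (ν0 N)
  rw [h6] at h7
  have h8 : ∑ N ∈ range (n + 1), ν N * exp (-(t₀ / n * N)) ≤
      4 / 3 * (γ * ∑ N ∈ range (n + 1), Z N) := by
    simp only [f] at h3
    linarith
  linarith [mul_le_mul_of_nonneg_left h8 (exp_pos (t₀ / 2)).le]
end good

end Crest.Agent.N337.C.Co
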