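import Crest.Agent.N337.C.Defs

/-! # Row 337: layer decomposition of symmetric unimodal weights. -/

set_option autoImplicit false

namespace Crest.Agent.N337.C

open Finset

/-- increments -/
def dd (Z : ℕ → ℝ) : ℕ → ℝ
  | 0 => Z 0
  | k + 1 => Z (k + 1) - Z k

theorem sum_dd (Z : ℕ → ℝ) (N : ℕ) : ∑ k ∈ range (N + 1), dd Z k = Z N := by
  induction N with
  | zero => simp [dd]
  | succ N ih => rw [sum_range_succ, ih, dd]; ring

theorem sum_dd_Ioc (Z : ℕ → ℝ) {A B : ℕ} (h : A ≤ B) : ∑ k ∈ Ioc A B, dd Z k = Z B - Z A := by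
  induction B, h using Nat.le_induction with
  | base => simp
  | succ B h ih => rw [sum_Ioc_succ_top h, ih, dd]; ring

theorem Uni.dd_nonneg {Z : ℕ → ℝ} {n k : ℕ} (h : Uni Z n) (hk : 2 * k ≤ n) : 0 ≤ dd Z k := by
  cases k with
  | zero => exact h.nonneg 0
  | succ k => exact sub_nonneg.2 (h.mono k (k + 1) (Nat.le_succ k) hk)

theorem Uni.eq_min {Z : ℕ → ℝ} {n N : ℕ} (h : Uni Z n) (hN : N ≤ n) : Z N = Z (min N (n - N)) := by
  rcases le_total N (n - N) with e | e
  · rw [min_eq_left e]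
  · rw [min_eq_right e, h.symm N hN]

/-- layer decomposition -/
theorem Uni.decomp {Z : ℕ → ℝ} {n : ℕ} (h : Uni Z n) (F : ℕ → ℝ) :
    ∑ N ∈ range (n + 1), Z N * F N =
      ∑ k ∈ range (n / 2 + 1), dd Z k * ∑ N ∈ Icc k (n - k), F N := by
  simp only [mul_sum]
  rw [sum_comm' (t' := range (n + 1)) (s' := fun N => range (min N (n - N) + 1))]
  · refine sum_congr rfl fun N hN => ?_
    rw [← sum_mul, sum_dd, ← h.eq_min (Nat.lt_succ_iff.1 (mem_range.1 hN))]
  · intro k N
    simp only [mem_range, mem_Icc]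
    omega

end Crest.Agent.N337.C
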