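import Crest.Agent.N337.Slot.Defs

/-!
# Row 337, S0527, closing part (helper5): frozen definitions and interface statements

`PolarStmt` (loop part) ⟹ flat window `B1` ⟹ non-polar sectors vanish (`NPStmt`) ⟹ S0527.
Slot model: configurations `Λ → Bool`, `true` = down.
-/

set_option autoImplicit false

namespace Crest.Agent.N337.C

open Crest.MathPhysics.SpinModel Filter Topology Crest.Agent.N337.Slot

section defs
variable {Λ : Type} [Fintype Λ] [DecidableEq Λ]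

/-- projector on the sector with `N` down slots. -/
def sec (N : ℕ) : BOp Λ := Matrix.diagonal fun σ => if cnt σ = N then 1 else 0
/-- canonical partition function. -/
def Zs (W : BOp Λ) (N : ℕ) : ℝ := (sec N * W).trace
/-- finite products of Bernoulli steps (no fugacity). -/
def Adm0 (Λ : Type) [Fintype Λ] [DecidableEq Λ] : Submonoid (BOp Λ) :=
  Submonoid.closure {M | ∃ x y p, 0 ≤ p ∧ p ≤ 1 ∧ M = step x y p}
/-- zero-field Gibbs weights. -/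
structure Good (W : BOp Λ) : Prop where
  psd : W.PosSemidef
  mem : W ∈ closure (Adm0 Λ : Set (BOp Λ))
/-- `∑ a s a s' T_{s s'}`. -/
def Sq (a : Λ → ℝ) : BOp Λ := ∑ s, ∑ s', (a s * a s') • swp s s'
/-- normalised Casimir (central). -/
noncomputable def cas (Λ : Type) [Fintype Λ] [DecidableEq Λ] : BOp Λ :=
  Sq fun _ => 1 / (Fintype.card Λ : ℝ)
/-- value of `cas` on the highest-weight vectors with `N` down slots out of `n`. -/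
noncomputable def th (n N : ℕ) : ℝ :=
  1 - 2 * ((N : ℝ) / n) + 2 * ((N : ℝ) / n) ^ 2 - 2 * (N : ℝ) / (n : ℝ) ^ 2
/-- spectral projector `1{cas < θ}`. -/
noncomputable def lt (Λ : Type) [Fintype Λ] [DecidableEq Λ] (θ : ℝ) : BOp Λ :=
  cfc (fun x : ℝ => if x < θ then (1 : ℝ) else 0) (cas Λ)
/-- Hadamard rotation (exchanges the `x` and `z` axes). -/
noncomputable def Hd (Λ : Type) [Fintype Λ] [DecidableEq Λ] : BOp Λ :=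
  tens fun _ i j => (if i = true ∧ j = true then -1 else 1) / Real.sqrt 2
/-- classical weights of the `x`-components in the (unnormalised) state `ρ`. -/
noncomputable def dg (ρ : BOp Λ) (σ : Λ → Bool) : ℝ := (Hd Λ * ρ * Hd Λ) σ σ
/-- `∑ a s • s^z_s` on a configuration. -/
noncomputable def mz (a : Λ → ℝ) (σ : Λ → Bool) : ℝ :=
  ∑ s, a s * (if σ s = true then -(1 / 2) else 1 / 2)
/-- a family of probability weights (blocks) covering the slots uniformly. -/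
structure Blocks {Z : Type} [Fintype Z] (a : Z → Λ → ℝ) (δ : ℝ) : Prop where
  nonneg : ∀ z s, 0 ≤ a z s
  sum : ∀ z, ∑ s, a z s = 1
  sq : ∀ z, ∑ s, a z s ^ 2 ≤ δ
  unif : ∀ s, (∑ z, a z s) / (Fintype.card Z : ℝ) = 1 / (Fintype.card Λ : ℝ)
/-- average of `Sq` over the blocks. -/
noncomputable def avSq {Z : Type} [Fintype Z] (a : Z → Λ → ℝ) : BOp Λ :=
  (1 / (Fintype.card Z : ℝ)) • ∑ z, Sq (a z)
end defs

/-- mean square difference of the block values. -/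
noncomputable def Yv {Z S : Type} [Fintype Z] (u : Z → S → ℝ) (σ : S) : ℝ :=
  (∑ z, ∑ z', (u z σ - u z' σ) ^ 2) / (Fintype.card Z : ℝ) ^ 2

/-- moments `∑_{N ≤ n} ν N · N^k e^{-θ N}`. -/
noncomputable def mo (ν : ℕ → ℝ) (n k : ℕ) (θ : ℝ) : ℝ :=
  ∑ N ∈ Finset.range (n + 1), ν N * (N : ℝ) ^ k * Real.exp (-(θ * N))

/-- nonnegative, symmetric, unimodal weights on `{0,…,n}`. -/
structure Uni (Z : ℕ → ℝ) (n : ℕ) : Prop where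
  nonneg : ∀ N, 0 ≤ Z N
  pos : 0 < Z 0
  symm : ∀ N, N ≤ n → Z (n - N) = Z N
  mono : ∀ N N', N ≤ N' → 2 * N' ≤ n → Z N ≤ Z N'

/-- **(Key)** calculus of the central Casimir. -/
def KeyStmt : Prop :=
  ∀ (Λ : Type) [Fintype Λ] [DecidableEq Λ] [Nonempty Λ],
    (∀ θ : ℝ, (lt Λ θ).PosSemidef ∧ (1 - lt Λ θ).PosSemidef ∧
      (∀ X : BOp Λ, Commute (cas Λ) X → Commute (lt Λ θ) X) ∧
      ((θ • (1 : BOp Λ) - cas Λ) * lt Λ θ).PosSemidef ∧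
      (θ ≤ 1 → ((2 : ℝ) • lt Λ θ - (θ • (1 : BOp Λ) - cas Λ)).PosSemidef)) ∧
    ∀ W : BOp Λ, Good W →
      Uni (Zs W) (Fintype.card Λ) ∧ 1 ≤ W.trace ∧
      W.trace = ∑ N ∈ Finset.range (Fintype.card Λ + 1), Zs W N ∧
      ∀ N N' : ℕ, 2 * N ≤ Fintype.card Λ → 2 * N' ≤ Fintype.card Λ →
        (sec N' * lt Λ (th (Fintype.card Λ) N) * W).trace = max (Zs W N' - Zs W N) 0

/-- **(Newman)** Lee-Yang with real transverse tilts. -/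
def NewmanStmt : Prop :=
  ∀ (Λ : Type) [Fintype Λ] [DecidableEq Λ] (W : BOp Λ), Good W → ∀ φ : Λ → ℝ,
    let n := Fintype.card Λ
    let ν : ℕ → ℝ := fun N => ∑ σ, dg (sec N * W) σ * Real.exp (mz φ σ)
    (∀ N, N ≤ n → ν (n - N) = ν N) ∧ (∀ N, ∑ σ, dg (sec N * W) σ * mz φ σ = 0) ∧
    ∀ θ : ℝ, 0 < θ → θ * (mo ν n 0 θ * mo ν n 2 θ - mo ν n 1 θ ^ 2) ≤ n / 2 * mo ν n 0 θ ^ 2

/-- **(Conc)** blocks are aligned on states with large Casimir, and not aligned otherwise. -/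
def ConcStmt : Prop :=
  ∀ (Λ : Type) [Fintype Λ] [DecidableEq Λ] [Nonempty Λ] (W : BOp Λ), Good W →
  ∀ (Z : Type) [Fintype Z] [Nonempty Z] (a : Z → Λ → ℝ) (δ θ : ℝ), Blocks a δ → θ ≤ 1 →
    let Y := Yv fun z => mz (a z)
    (∀ (N : ℕ) (d : ℝ), δ + 1 - θ ≤ d →
      ∑ σ, dg (sec N * W) σ * (max (Y σ - d) 0) ^ 3 ≤
        8 / (Fintype.card Λ : ℝ) * Zs W N + 2 * (sec N * lt Λ θ * W).trace) ∧
    (∀ N σ, 0 ≤ dg (sec N * W) σ) ∧ (∀ N, ∑ σ, dg (sec N * W) σ = Zs W N) ∧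
    (∀ σ, 0 ≤ (lt Λ θ * W) σ σ ∧
      (lt Λ θ * W) σ σ ≤ ∑ N ∈ Finset.range (Fintype.card Λ + 1), dg (sec N * W) σ) ∧
    (1 - θ) * (lt Λ θ * W).trace - (lt Λ θ * W * (1 - avSq a)).trace ≤
      3 * ∑ σ, (lt Λ θ * W) σ σ * Y σ

/-- **(Core)** the classical part of the non-polar argument (note 243). -/
def CoreStmt : Prop :=
  ∀ c : ℝ, 0 < c → c ≤ 1 / 8 → ∀ κ : ℝ, 0 < κ → ∃ ε : ℝ, 0 < ε ∧
  ∀ (S Z : Type) [Fintype S] [Fintype Z] [Nonempty Z] (n Nm N1 : ℕ) (u : Z → S → ℝ)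
    (q : ℕ → S → ℝ) (qb : S → ℝ),
    (∀ z σ, |u z σ| ≤ 1 / 2) → (∀ N σ, 0 ≤ q N σ) →
    (∀ σ, 0 ≤ qb σ ∧ qb σ ≤ ∑ N ∈ Finset.range (n + 1), q N σ) →
    Uni (fun N => ∑ σ, q N σ) n →
    (∀ N z, ∑ σ, q N σ * u z σ = 0) →
    (∀ w : Z → ℝ,
      let ν : ℕ → ℝ := fun N => ∑ σ, q N σ * Real.exp (∑ z, w z * u z σ)
      (∀ N, N ≤ n → ν (n - N) = ν N) ∧
      ∀ θ : ℝ, 0 < θ → θ * (mo ν n 0 θ * mo ν n 2 θ - mo ν n 1 θ ^ 2) ≤ n / 2 * mo ν n 0 θ ^ 2) →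
    (∀ N, N ≤ N1 → ∑ σ, q N σ * (max (Yv u σ - c ^ 4 / 10 ^ 7) 0) ^ 3 ≤ ε * ∑ σ, q N σ) →
    (Nm : ℝ) ≤ c * n / 16 → c * n ≤ N1 → (N1 : ℝ) ≤ 2 * c * n → 1 ≤ ε * n →
    ∑ σ, q N1 σ ≤ 2 * ∑ σ, q Nm σ →
    c / 4 * ∑ σ, qb σ ≤ ∑ σ, qb σ * Yv u σ + ε * ∑ N ∈ Finset.range (n + 1), ∑ σ, q N σ →
    ∑ σ, qb σ ≤ κ * ∑ N ∈ Finset.range (n + 1), ∑ σ, q N σ

/-- **(NP)** a flat canonical window kills the non-polar sectors. -/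
def NPStmt : Prop :=
  ∀ c : ℝ, 0 < c → c ≤ 1 / 8 → ∀ κ : ℝ, 0 < κ → ∃ ε : ℝ, 0 < ε ∧
  ∀ (Λ : Type) [Fintype Λ] [DecidableEq Λ] (W : BOp Λ), Good W →
  ∀ (Z : Type) [Fintype Z] [Nonempty Z] (a : Z → Λ → ℝ) (δ : ℝ) (Nm N1 : ℕ), Blocks a δ →
    let n := Fintype.card Λ
    δ ≤ c ^ 4 / 10 ^ 8 → (Nm : ℝ) ≤ c ^ 4 / 10 ^ 8 * n → c * n ≤ N1 → (N1 : ℝ) ≤ 2 * c * n →
    1 ≤ ε * n → Zs W N1 ≤ (1 + ε) * Zs W Nm →
    (∀ R : BOp Λ, R.PosSemidef → (1 - R).PosSemidef → (∀ s s', Commute R (swp s s')) →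
      (R * W * (1 - avSq a)).trace ≤ c / 4 * (R * W).trace + ε) →
    ∑ N ∈ (Finset.range (n + 1)).filter (fun N => N1 < N ∧ 2 * N ≤ n), (Zs W N - Zs W N1) ≤
      κ * ∑ N ∈ Finset.range (n + 1), Zs W N

/-- canonical weights of the spin model at zero field (`N` = number of magnons). -/
noncomputable def Zc {X : Type} [Fintype X] [DecidableEq X] (n : ℕ) (J : X → X → ℝ) (β : ℝ)
    (N : ℕ) : ℝ :=
  ∑ σ : X → Fin (n + 1), if ∑ x, (n - (σ x : ℕ)) = N then (W n J 0 β σ σ).re else 0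

/-- **(Model)** the slot model of the nearest-neighbour torus, with its energy bound. -/
def ModelStmt : Prop :=
  ∀ (n L : ℕ) [NeZero L] (β : ℝ), 1 ≤ n → 3 ≤ L → 0 < β →
    ∃ (W : BOp (Tor 3 L × Fin n)) (k : ℝ), 0 < k ∧ Good W ∧
      (∀ N, Zs W N = k * Zc n (torJ (nnCoupling 3) L) β N) ∧
      ∀ l : ℕ, 1 ≤ l → l ≤ L → ∃ a : Tor 3 L → Tor 3 L × Fin n → ℝ,
        Blocks a (1 / ((n : ℝ) * (l : ℝ) ^ 3)) ∧
        ∀ R : BOp (Tor 3 L × Fin n), R.PosSemidef → (1 - R).PosSemidef →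
          (∀ s s', Commute R (swp s s')) →
          (R * W * (1 - avSq a)).trace ≤
            10 ^ 4 * n * (l : ℝ) ^ 2 / β * (R * W).trace + 10 ^ 4 * (l : ℝ) ^ 2 / (β * (L : ℝ) ^ 3)

/-- **(Rot)** rotation invariance, and everything in terms of the canonical weights. -/
def RotStmt : Prop :=
  ∀ (X : Type) [Fintype X] [DecidableEq X] (n : ℕ) (J : X → X → ℝ) (β : ℝ), Ferro J →
    let V := Fintype.card X
    let M : ℕ → ℝ := fun N => (n : ℝ) * V / 2 - N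
    (∀ h : ℝ, Zp n J β h =
      ∑ N ∈ Finset.range (n * V + 1), Zc n J β N * Real.exp (β * h * M N)) ∧
    (∀ h : ℝ, ev n J β h (∑ x, num n x) =
      mo (Zc n J β) (n * V) 1 (β * h) / mo (Zc n J β) (n * V) 0 (β * h)) ∧
    (∀ t : Fin 3 → ℝ,
      (NormedSpace.exp (∑ a : Fin 3, ((t a : ℝ) : ℂ) • ∑ x : X, siteOpOn x (spinComp n a)) *
        W n J 0 β).trace =
      ((∑ N ∈ Finset.range (n * V + 1),
        Zc n J β N * Real.exp (Real.sqrt (∑ a, t a ^ 2) * M N) : ℝ) : ℂ)) ∧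
    ∑ x : X, ∑ y : X, (spinDotOn n x y * W n J 0 β).trace =
      ((3 * ∑ N ∈ Finset.range (n * V + 1), Zc n J β N * M N ^ 2 : ℝ) : ℂ)

/-- a sequence of unimodal weights with a thermodynamic limit; `S = n/2`. -/
structure Seq (n : ℕ) (β m : ℝ) (V : ℕ → ℕ) (Z : ℕ → ℕ → ℝ) (p : ℝ → ℝ) : Prop where
  hn : 1 ≤ n
  hβ : 0 < β
  vol : Tendsto V atTop atTop
  uni : ∀ᶠ L in atTop, Uni (Z L) (n * V L)
  lim : ∀ h : ℝ, Tendsto (fun L => Real.log (∑ N ∈ Finset.range (n * V L + 1),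
    Z L N * Real.exp (β * h * ((n : ℝ) * V L / 2 - N))) / (β * V L)) atTop (𝓝 (p h))
  cvx : ConvexOn ℝ Set.univ p
  der : Tendsto (fun h : ℝ => (p h - p 0) / h) (𝓝[>] 0) (𝓝 m)
  lo : 0 ≤ (n : ℝ) / 2 - m
  hi : (n : ℝ) / 2 - m ≤ 1 / 32

/-- **(LD)** large deviations from the pressure. -/
def LDStmt : Prop :=
  ∀ (n : ℕ) (β m : ℝ) (V : ℕ → ℕ) (Z : ℕ → ℕ → ℝ) (p : ℝ → ℝ), Seq n β m V Z p →
    (∀ h ε : ℝ, 0 < h → 0 < ε → ∀ᶠ L in atTop,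
      mo (Z L) (n * V L) 1 (β * h) / mo (Z L) (n * V L) 0 (β * h) ≤ (n / 2 - m + ε) * V L) ∧
    ∀ ε r : ℝ, 0 < ε → 0 < r → ∀ᶠ L in atTop, ∀ A B : ℕ, (A : ℝ) ≤ (n / 2 - m - ε) * V L →
      (n / 2 - m + ε) * V L ≤ B → 2 * B ≤ n * V L → ((n * V L + 1 : ℕ) : ℝ) * Z L A ≤ r * Z L B

/-- **(B1)** the polar bound gives a flat canonical window. -/
def B1Stmt : Prop :=
  ∀ (n : ℕ) (β m : ℝ) (V : ℕ → ℕ) (Z : ℕ → ℕ → ℝ) (p : ℝ → ℝ), Seq n β m V Z p →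
  ∀ c C u0 : ℝ, 0 < c → c ≤ 1 / 16 →
    (∀ u, u0 ≤ u → ∀ ε : ℝ, 0 < ε → ∀ᶠ L in atTop,
      mo (Z L) (n * V L) 1 (u / V L) / mo (Z L) (n * V L) 0 (u / V L) ≤
        (n / 2 - m + 1 / u + C * Real.exp (-(c * u)) + ε) * V L) →
    ∀ d r : ℝ, 0 < d → 0 < r → ∀ᶠ L in atTop,
      Z L ⌈c / 2 * V L⌉₊ ≤ (1 + r) * Z L ⌈(n / 2 - m + d) * V L⌉₊ ∨
        ⌈c / 2 * V L⌉₊ ≤ ⌈(n / 2 - m + d) * V L⌉₊

/-- **(Law)** the limit law of the magnetisation. -/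
def LawStmt : Prop :=
  ∀ (n : ℕ) (β m : ℝ) (V : ℕ → ℕ) (Z : ℕ → ℕ → ℝ) (p : ℝ → ℝ), Seq n β m V Z p →
  ∀ N1 : ℕ → ℕ, (∀ᶠ L in atTop, 8 * N1 L ≤ V L) →
    (∀ d r : ℝ, 0 < d → 0 < r → ∀ᶠ L in atTop,
      Z L (N1 L) ≤ (1 + r) * Z L ⌈(n / 2 - m + d) * V L⌉₊ ∨ N1 L ≤ ⌈(n / 2 - m + d) * V L⌉₊) →
    (∀ κ : ℝ, 0 < κ → ∀ᶠ L in atTop,
      ∑ N ∈ (Finset.range (n * V L + 1)).filter (fun N => N1 L < N ∧ 2 * N ≤ n * V L),
        (Z L N - Z L (N1 L)) ≤ κ * ∑ N ∈ Finset.range (n * V L + 1), Z L N) →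
    (∀ r : ℝ, 0 < r → Tendsto (fun L => (∑ N ∈ Finset.range (n * V L + 1),
        Z L N * Real.exp (r / V L * ((n : ℝ) * V L / 2 - N))) /
        ∑ N ∈ Finset.range (n * V L + 1), Z L N) atTop (𝓝 (Real.sinh (m * r) / (m * r)))) ∧
    Tendsto (fun L => (3 * ∑ N ∈ Finset.range (n * V L + 1),
        Z L N * ((n : ℝ) * V L / 2 - N) ^ 2) / (V L : ℝ) ^ 2 /
        ∑ N ∈ Finset.range (n * V L + 1), Z L N) atTop (𝓝 (m ^ 2))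

/-- magnon density of the nearest-neighbour torus of side `L + 1`. -/
noncomputable def dens (n L : ℕ) (β h : ℝ) : ℝ :=
  ev n (torJ (nnCoupling 3) (L + 1)) β h (∑ x : Tor 3 (L + 1), num n x) / ((L + 1 : ℕ) : ℝ) ^ 3

/-- **(Polar)** what the loop part has to deliver. -/
def PolarStmt : Prop :=
  ∀ n : ℕ, 1 ≤ n → ∃ β0 : ℝ, ∀ β : ℝ, β0 ≤ β → ∃ C u0 : ℝ, ∀ u : ℝ, u0 ≤ u → ∀ ε : ℝ, 0 < ε →
    ∃ h : ℝ, 0 < h ∧ ∀ᶠ L : ℕ in atTop,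
      dens n L β (u / (β * ((L + 1 : ℕ) : ℝ) ^ 3)) ≤
        dens n L β h + 1 / u + C * Real.exp (-(β ^ (-(1 / 4 : ℝ)) * u)) + ε

end Crest.Agent.N337.C
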