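import Crest.Agent.N337.C.Basic

/-!
# Row 337, S0527 closing: the quadratic form `Sq` (helper5)
-/

set_option autoImplicit false
set_option linter.unusedSectionVars false

namespace Crest.Agent.N337.C

open Crest.Agent.N337.Slot Crest.Agent.N337.Slot.SL Matrix

variable {Λ : Type} [Fintype Λ] [DecidableEq Λ]

/-! ### the quadratic form `Sq` -/

theorem one_sub_swp_psd (x y : Λ) : (1 - swp x y : BOp Λ).PosSemidef := by
  have h := (psd_tmul (1 - swp x y : BOp Λ)).smul (show (0 : ℝ) ≤ 1 / 2 by norm_num)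
  have e : (1 / 2 : ℝ) • ((1 - swp x y : BOp Λ)ᵀ * (1 - swp x y)) = 1 - swp x y := by
    simp only [transpose_sub, transpose_one, swp_transpose, Matrix.sub_mul, Matrix.mul_sub,
      Matrix.one_mul, Matrix.mul_one, swp_mul_self]
    module
  rwa [e] at h

theorem one_add_swp_psd (x y : Λ) : (1 + swp x y : BOp Λ).PosSemidef := by
  have h := (psd_tmul (1 + swp x y : BOp Λ)).smul (show (0 : ℝ) ≤ 1 / 2 by norm_num)
  have e : (1 / 2 : ℝ) • ((1 + swp x y : BOp Λ)ᵀ * (1 + swp x y)) = 1 + swp x y := by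
    simp only [transpose_add, transpose_one, swp_transpose, Matrix.add_mul, Matrix.mul_add,
      Matrix.one_mul, Matrix.mul_one, swp_mul_self]
    module
  rwa [e] at h

theorem Sq_transpose (a : Λ → ℝ) : (Sq a)ᵀ = Sq a := by
  simp only [Sq, transpose_sum, transpose_smul, swp_transpose]

theorem comm_Sq {X : BOp Λ} (h : ∀ x y, Commute X (swp x y)) (a : Λ → ℝ) : Commute X (Sq a) :=
  Commute.sum_right _ _ _ fun s _ => Commute.sum_right _ _ _ fun s' _ => (h s s').smul_right _

theorem one_eq_sum {a : Λ → ℝ} (h1 : ∑ s, a s = 1) :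
    (1 : BOp Λ) = ∑ s, ∑ s', (a s * a s') • (1 : BOp Λ) := by
  simp only [← Finset.sum_smul, ← Finset.mul_sum, h1, mul_one, one_smul]

theorem one_sub_Sq_psd {a : Λ → ℝ} (h0 : ∀ s, 0 ≤ a s) (h1 : ∑ s, a s = 1) :
    (1 - Sq a).PosSemidef := by
  rw [one_eq_sum h1, Sq, ← Finset.sum_sub_distrib]
  refine posSemidef_sum _ fun s _ => ?_
  rw [← Finset.sum_sub_distrib]
  refine posSemidef_sum _ fun s' _ => ?_
  rw [← smul_sub]
  exact (one_sub_swp_psd s s').smul (mul_nonneg (h0 s) (h0 s'))

theorem one_add_Sq_psd {a : Λ → ℝ} (h0 : ∀ s, 0 ≤ a s) (h1 : ∑ s, a s = 1) :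
    (1 + Sq a).PosSemidef := by
  rw [one_eq_sum h1, Sq, ← Finset.sum_add_distrib]
  refine posSemidef_sum _ fun s _ => ?_
  rw [← Finset.sum_add_distrib]
  refine posSemidef_sum _ fun s' _ => ?_
  rw [← smul_add]
  exact (one_add_swp_psd s s').smul (mul_nonneg (h0 s) (h0 s'))

theorem comm_cas_swp (x y : Λ) : Commute (cas Λ) (swp x y) := by
  change cas Λ * swp x y = swp x y * cas Λ
  simp only [cas, Sq, Finset.sum_mul, Finset.mul_sum, Matrix.smul_mul, Matrix.mul_smul, swp_conj x y]
  symm
  refine Fintype.sum_equiv (Equiv.swap x y) _ _ fun s => ?_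
  exact Fintype.sum_equiv (Equiv.swap x y) _ _ fun s' => rfl

theorem an_transpose (u : Λ) : (an u)ᵀ = cr u := by
  rw [an, cr, tens_transpose]; congr 1; funext y i j
  by_cases h : y = u <;> simp [h, and_comm, eq_comm]

theorem anF_transpose (a : Λ → ℝ) : (anF a)ᵀ = crF a := by
  simp only [anF, crF, transpose_sum, transpose_smul, an_transpose]

theorem crF_transpose (a : Λ → ℝ) : (crF a)ᵀ = anF a := by
  rw [← anF_transpose, transpose_transpose]

theorem an_mul_cr (u : Λ) : an u * cr u = diagonal fun η => if η u = true then 0 else 1 := by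
  ext η τ
  rw [← Matrix.mul_one (cr u), ← Matrix.mul_one (diagonal _)]
  simp only [an_mul_apply, cr_mul_apply, diagonal_mul, Function.update_self]
  rcases h : η u with _ | _
  · have : Function.update (Function.update η u true) u false = η := by
      funext z; by_cases hz : z = u
      · subst hz; simp [h]
      · simp [hz]
    rw [this]; simp
  · simp

theorem cr_mul_an (u : Λ) : cr u * an u = diagonal fun η => if η u = true then 1 else 0 := by
  ext η τ
  rw [← Matrix.mul_one (an u), ← Matrix.mul_one (diagonal _)]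
  simp only [an_mul_apply, cr_mul_apply, diagonal_mul, Function.update_self]
  rcases h : η u with _ | _
  · simp
  · have : Function.update (Function.update η u false) u true = η := by
      funext z; by_cases hz : z = u
      · subst hz; simp [h]
      · simp [hz]
    rw [this]; simp

theorem comm_an_cr {u v : Λ} (h : u ≠ v) : an u * cr v = cr v * an u := by
  rw [an, cr, tens_mul, tens_mul]; congr 1; funext y i j
  by_cases h1 : y = u
  · subst h1; cases i <;> cases j <;> simp [h]
  · by_cases h2 : y = v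
    · subst h2; cases i <;> cases j <;> simp [h1]
    · cases i <;> cases j <;> simp [h1, h2]

theorem mz_eq (a : Λ → ℝ) : diagonal (mz a) = ∑ s, a s • sz s := by
  ext σ τ
  rw [Matrix.sum_apply]
  by_cases h : σ = τ
  · subst h; simp [mz, sz]
  · simp [sz, h]

/-- **(DOT)** -/
theorem Sq_eq (a : Λ → ℝ) : Sq a = (2 : ℝ) • diagonal (fun σ => mz a σ ^ 2) +
    (crF a * anF a + anF a * crF a) + ((∑ s, a s) ^ 2 / 2 - ∑ s, a s ^ 2) • (1 : BOp Λ) := by
  have h1 : ∀ u v : Λ, swp u v = (2 : ℝ) • (sz u * sz v) + (cr u * an v + an u * cr v) +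
      (1 / 2 - if u = v then 1 else 0 : ℝ) • (1 : BOp Λ) := by
    intro u v
    by_cases h : u = v
    · subst h
      rw [swp_self, an_mul_cr, cr_mul_an, sz, diagonal_mul_diagonal]
      ext σ τ
      by_cases e : σ = τ
      · subst e; cases hs : σ u <;> simp [hs] <;> norm_num
      · simp [e]
    · have := dot_eq h
      rw [if_neg h]
      linear_combination (norm := module) (-2 : ℝ) • this
  have h2 : diagonal (fun σ => mz a σ ^ 2) = diagonal (mz a) * diagonal (mz a) := by
    rw [diagonal_mul_diagonal]; simp only [sq]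
  have h3 : (∑ s, a s) ^ 2 / 2 - ∑ s, a s ^ 2 =
      ∑ u, ∑ v, a u * a v * (1 / 2 - if u = v then 1 else 0) := by
    simp only [mul_sub, Finset.sum_sub_distrib, mul_ite, mul_one, mul_zero, Finset.sum_ite_eq,
      Finset.mem_univ, if_true, sq, Finset.sum_mul_sum, Finset.sum_div]
    congr 1
    exact Finset.sum_congr rfl fun u _ => Finset.sum_congr rfl fun v _ => by ring
  rw [h2, h3, mz_eq, Sq, crF, anF]
  simp only [Finset.sum_mul_sum, Finset.sum_smul, Finset.smul_sum, ← Finset.sum_add_distrib,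
    Matrix.smul_mul, Matrix.mul_smul]
  refine Finset.sum_congr rfl fun u _ => Finset.sum_congr rfl fun v _ => ?_
  rw [h1 u v]
  module

theorem abs_mz_le {a : Λ → ℝ} (h0 : ∀ s, 0 ≤ a s) (h1 : ∑ s, a s = 1) (σ : Λ → Bool) :
    |mz a σ| ≤ 1 / 2 := by
  refine (Finset.abs_sum_le_sum_abs _ _).trans (le_of_eq ?_)
  have : (1 / 2 : ℝ) = ∑ s, a s * (1 / 2) := by rw [← Finset.sum_mul, h1, one_mul]
  refine (Finset.sum_congr rfl fun s _ => ?_).trans this.symm
  rw [abs_mul, abs_of_nonneg (h0 s)]
  split_ifs <;> simp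

theorem mz_sum {Z : Type} [Fintype Z] (w : Z → ℝ) (a : Z → Λ → ℝ) (σ : Λ → Bool) :
    mz (fun s => ∑ z, w z * a z s) σ = ∑ z, w z * mz (a z) σ := by
  simp only [mz, Finset.sum_mul, Finset.mul_sum, mul_assoc]
  exact Finset.sum_comm

theorem Hd_mz (a : Λ → ℝ) :
    Hd Λ * diagonal (mz a) = (1 / 2 : ℝ) • (crF a + anF a) * Hd Λ := by
  have h : ∀ u : Λ, Hd Λ * sz u = (1 / 2 : ℝ) • (cr u + an u) * Hd Λ := by
    intro u
    have e1 : sz u = tens fun y i j => if i = j then
        (if y = u then (if i = true then -(1 / 2) else 1 / 2) else 1) else 0 := by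
      rw [tens_diag fun y i => if y = u then (if i = true then -(1 / 2) else 1 / 2) else (1 : ℝ), sz]
      congr 1; funext σ
      rw [Finset.prod_ite_eq']; simp
    have e2 : (1 / 2 : ℝ) • (cr u + an u) = tens fun y i j =>
        if y = u then (if i = j then 0 else 1 / 2) else (if i = j then 1 else 0) := by
      ext σ τ
      simp only [cr, an, tens, Matrix.smul_apply, Matrix.add_apply, of_apply, smul_eq_mul]
      simp only [← Finset.mul_prod_erase _ _ (Finset.mem_univ u), if_true]
      have : ∀ F : Λ → ℝ, ∏ x ∈ Finset.univ.erase u, (if x = u then F x else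
          if σ x = τ x then (1 : ℝ) else 0) =
          ∏ x ∈ Finset.univ.erase u, if σ x = τ x then (1 : ℝ) else 0 := fun F =>
        Finset.prod_congr rfl fun x hx => if_neg (Finset.ne_of_mem_erase hx)
      rw [this, this, this]
      cases σ u <;> cases τ u <;> simp
    rw [e1, e2, Hd, tens_mul, tens_mul]
    congr 1; funext y i j
    by_cases hy : y = u <;> cases i <;> cases j <;> simp [hy] <;> ring
  rw [mz_eq, crF, anF, ← Finset.sum_add_distrib, Finset.smul_sum, Finset.mul_sum, Finset.sum_mul]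
  refine Finset.sum_congr rfl fun u _ => ?_
  rw [Matrix.mul_smul, h, ← smul_add, smul_comm, Matrix.smul_mul (a u)]

end Crest.Agent.N337.C
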