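import Crest.Agent.N337.C.Dot

/-!
# Row 337, S0527 closing: functional calculus of the central Casimir (helper32)
-/

set_option autoImplicit false
set_option linter.unusedSectionVars false

namespace Crest.Agent.N337.C

open Crest.Agent.N337.Slot Crest.Agent.N337.Slot.SL Matrix

namespace Ky

variable {Λ : Type} [Fintype Λ] [DecidableEq Λ]

/-! ### functional calculus -/

/-- functional calculus of the Casimir. -/
noncomputable def F (Λ : Type) [Fintype Λ] [DecidableEq Λ] (f : ℝ → ℝ) : BOp Λ := cfc f (cas Λ)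

theorem cas_sa : IsSelfAdjoint (cas Λ) := by
  have h : (cas Λ).IsHermitian := by
    rw [Matrix.IsHermitian, conjTranspose_eq_transpose_of_trivial]
    exact Sq_transpose _
  exact h

theorem cont (f : ℝ → ℝ) : ContinuousOn f (spectrum ℝ (cas Λ)) :=
  Matrix.finite_real_spectrum.continuousOn f

theorem F_mul (f g : ℝ → ℝ) : F Λ (fun x => f x * g x) = F Λ f * F Λ g :=
  cfc_mul f g (cas Λ) (cont f) (cont g)

theorem F_sub (f g : ℝ → ℝ) : F Λ (fun x => f x - g x) = F Λ f - F Λ g :=
  cfc_sub f g (cas Λ) (cont f) (cont g)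

theorem F_smul (c : ℝ) (f : ℝ → ℝ) : F Λ (fun x => c * f x) = c • F Λ f :=
  cfc_const_mul c f (cas Λ) (cont f)

theorem F_id : F Λ (fun x => x) = cas Λ := cfc_id' ℝ (cas Λ) cas_sa

theorem F_one : F Λ (fun _ => 1) = 1 := cfc_const_one ℝ (cas Λ) cas_sa

theorem F_const (c : ℝ) : F Λ (fun _ => c) = c • (1 : BOp Λ) := by
  rw [← F_one, ← F_smul]; simp

theorem F_lin (c : ℝ) : F Λ (fun x => c - x) = c • (1 : BOp Λ) - cas Λ := by
  rw [F_sub (fun _ => c) (fun x => x), F_const, F_id]

theorem F_lin' (c : ℝ) : F Λ (fun x => x - c) = cas Λ - c • (1 : BOp Λ) := by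
  rw [F_sub (fun x => x) (fun _ => c), F_const, F_id]

open scoped MatrixOrder in
theorem F_psd {f : ℝ → ℝ} (h : ∀ x ∈ spectrum ℝ (cas Λ), 0 ≤ f x) : (F Λ f).PosSemidef :=
  Matrix.nonneg_iff_posSemidef.1 (cfc_nonneg h)

theorem F_comm (f : ℝ → ℝ) {X : BOp Λ} (h : Commute (cas Λ) X) : Commute (F Λ f) X :=
  h.cfc_real f

open scoped MatrixOrder in
theorem spec_ge [Nonempty Λ] {x : ℝ} (hx : x ∈ spectrum ℝ (cas Λ)) : -1 ≤ x := by
  have hn : (0 : ℝ) < Fintype.card Λ := by exact_mod_cast Fintype.card_pos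
  have h := one_add_Sq_psd (Λ := Λ) (a := fun _ => 1 / (Fintype.card Λ : ℝ))
    (fun _ => by positivity) (by simp [hn.ne'])
  have e : (1 + Sq fun _ => 1 / (Fintype.card Λ : ℝ) : BOp Λ) = F Λ (fun x => x - -1) := by
    rw [F_lin', cas]; module
  rw [e] at h
  have := (cfc_nonneg_iff (fun x : ℝ => x - -1) (cas Λ) (cont _) cas_sa).1
    (Matrix.nonneg_iff_posSemidef.2 h) x hx
  linarith

theorem lt_eq (θ : ℝ) : lt Λ θ = F Λ fun x => if x < θ then 1 else 0 := rfl

theorem part1 [Nonempty Λ] (θ : ℝ) : (lt Λ θ).PosSemidef ∧ (1 - lt Λ θ).PosSemidef ∧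
    (∀ X : BOp Λ, Commute (cas Λ) X → Commute (lt Λ θ) X) ∧
    ((θ • (1 : BOp Λ) - cas Λ) * lt Λ θ).PosSemidef ∧
    (θ ≤ 1 → ((2 : ℝ) • lt Λ θ - (θ • (1 : BOp Λ) - cas Λ)).PosSemidef) := by
  refine ⟨?_, ?_, fun X h => F_comm _ h, ?_, fun hθ => ?_⟩
  · exact F_psd fun x _ => by split_ifs <;> norm_num
  · rw [lt_eq, ← F_one, ← F_sub]
    exact F_psd fun x _ => by split_ifs <;> norm_num
  · rw [lt_eq, ← F_lin, ← F_mul]
    refine F_psd fun x _ => ?_
    split_ifs with h
    · linarith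
    · simp
  · rw [lt_eq, ← F_lin, ← F_smul, ← F_sub]
    refine F_psd fun x hx => ?_
    have := spec_ge hx
    split_ifs with h
    · linarith
    · linarith [not_lt.1 h]

/-! ### total raising and lowering operators -/

/-- total creation operator. -/
def T (Λ : Type) [Fintype Λ] [DecidableEq Λ] : BOp Λ := ∑ u, cr u
/-- total annihilation operator. -/
def D (Λ : Type) [Fintype Λ] [DecidableEq Λ] : BOp Λ := ∑ u, an u

theorem D_transpose : (D Λ)ᵀ = T Λ := by
  simp only [D, T, transpose_sum, an_transpose]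

theorem cnt_real (σ : Λ → Bool) : (cnt σ : ℝ) = ∑ u, if σ u = true then (1 : ℝ) else 0 := by
  simp [cnt]

theorem D_mul_T : D Λ * T Λ =
    T Λ * D Λ + diagonal fun σ => (Fintype.card Λ : ℝ) - 2 * (cnt σ : ℝ) := by
  have h : ∀ u v : Λ, an u * cr v = cr v * an u + if u = v then
      diagonal (fun σ : Λ → Bool => (1 : ℝ) - 2 * if σ u = true then 1 else 0) else 0 := by
    intro u v
    split_ifs with huv
    · subst huv
      rw [an_mul_cr, cr_mul_an, diagonal_add]
      congr 1; funext σ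
      split_ifs <;> norm_num
    · rw [comm_an_cr huv, add_zero]
  rw [D, T, Finset.sum_mul_sum, Finset.sum_mul_sum, Finset.sum_comm (f := fun v u => cr v * an u)]
  simp only [h, Finset.sum_add_distrib, Finset.sum_ite_eq, Finset.mem_univ, if_true]
  congr 1
  ext σ τ
  rw [Matrix.sum_apply]
  by_cases e : σ = τ
  · subst e
    simp only [diagonal_apply_eq, Finset.sum_sub_distrib, ← Finset.mul_sum, cnt_real]
    simp
  · simp [e]

theorem mz_unif [Nonempty Λ] (σ : Λ → Bool) :
    mz (fun _ => 1 / (Fintype.card Λ : ℝ)) σ = 1 / 2 - (cnt σ : ℝ) / Fintype.card Λ := by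
  have hn : (0 : ℝ) < Fintype.card Λ := by exact_mod_cast Fintype.card_pos
  have : ∀ s, (if σ s = true then -(1 / 2) else 1 / 2 : ℝ) =
      1 / 2 - if σ s = true then 1 else 0 := fun s => by split_ifs <;> norm_num
  simp only [mz, this, ← Finset.mul_sum, Finset.sum_sub_distrib, ← cnt_real, Finset.sum_const,
    Finset.card_univ, nsmul_eq_mul]
  field_simp

theorem cas_eq [Nonempty Λ] : cas Λ = (2 / (Fintype.card Λ : ℝ) ^ 2) • (T Λ * D Λ) +
    diagonal fun σ => th (Fintype.card Λ) (cnt σ) := by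
  have hn : (0 : ℝ) < Fintype.card Λ := by exact_mod_cast Fintype.card_pos
  have e1 : crF (fun _ : Λ => 1 / (Fintype.card Λ : ℝ)) = (1 / (Fintype.card Λ : ℝ)) • T Λ := by
    rw [crF, T, Finset.smul_sum]
  have e2 : anF (fun _ : Λ => 1 / (Fintype.card Λ : ℝ)) = (1 / (Fintype.card Λ : ℝ)) • D Λ := by
    rw [anF, D, Finset.smul_sum]
  rw [cas, Sq_eq, e1, e2]
  simp only [Matrix.smul_mul, Matrix.mul_smul, D_mul_T, mz_unif]
  ext σ τ
  by_cases e : σ = τ
  · subst e
    simp only [Matrix.add_apply, Matrix.smul_apply, diagonal_apply_eq, one_apply_eq, smul_eq_mul,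
      Finset.sum_const, Finset.card_univ, nsmul_eq_mul, th]
    field_simp
    ring
  · simp only [Matrix.add_apply, Matrix.smul_apply, diagonal_apply_ne _ e, one_apply_ne e,
      smul_eq_mul]
    field_simp
    ring

theorem cas_eq' [Nonempty Λ] : cas Λ = (2 / (Fintype.card Λ : ℝ) ^ 2) • (D Λ * T Λ) +
    diagonal fun σ => th (Fintype.card Λ) (cnt σ + 1) := by
  have hn : (0 : ℝ) < Fintype.card Λ := by exact_mod_cast Fintype.card_pos
  rw [cas_eq, D_mul_T]
  ext σ τ
  by_cases e : σ = τ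
  · subst e
    simp only [Matrix.add_apply, Matrix.smul_apply, diagonal_apply_eq, smul_eq_mul, th]
    push_cast
    field_simp
    ring
  · simp only [Matrix.add_apply, Matrix.smul_apply, diagonal_apply_ne _ e, smul_eq_mul]
    ring

theorem sec_diag (N : ℕ) (f : ℕ → ℝ) :
    (sec N * diagonal fun σ => f (cnt σ) : BOp Λ) = f N • sec N := by
  rw [sec, diagonal_mul_diagonal, ← diagonal_smul]
  congr 1; funext σ
  simp only [Pi.smul_apply, smul_eq_mul]
  split_ifs with h
  · rw [h, mul_comm]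
  · simp

theorem sec_cas [Nonempty Λ] (N : ℕ) : sec N * (cas Λ - th (Fintype.card Λ) N • (1 : BOp Λ)) =
    (2 / (Fintype.card Λ : ℝ) ^ 2) • (sec N * (T Λ * D Λ)) := by
  rw [cas_eq, Matrix.mul_sub, Matrix.mul_add, sec_diag N (th (Fintype.card Λ)), Matrix.mul_smul,
    Matrix.mul_smul, Matrix.mul_one, add_sub_cancel_right]

theorem sec_cas' [Nonempty Λ] (N : ℕ) :
    sec N * (cas Λ - th (Fintype.card Λ) (N + 1) • (1 : BOp Λ)) =
    (2 / (Fintype.card Λ : ℝ) ^ 2) • (sec N * (D Λ * T Λ)) := by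
  rw [cas_eq', Matrix.mul_sub, Matrix.mul_add,
    sec_diag N (fun k => th (Fintype.card Λ) (k + 1)), Matrix.mul_smul,
    Matrix.mul_smul, Matrix.mul_one, add_sub_cancel_right]

theorem cnt_update {η : Λ → Bool} {u : Λ} (h : η u = true) :
    cnt (Function.update η u false) + 1 = cnt η := by
  unfold cnt
  have : (Finset.univ.filter fun x => Function.update η u false x = true) =
      (Finset.univ.filter fun x => η x = true).erase u := by
    ext x
    by_cases hx : x = u
    · subst hx; simp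
    · simp [hx]
  rw [this]
  exact Finset.card_erase_add_one (by simp [h])

theorem cr_sec (u : Λ) (N : ℕ) : cr u * sec N = sec (N + 1) * cr u := by
  ext η τ
  rw [← Matrix.mul_one (sec N), ← Matrix.mul_one (cr u), Matrix.mul_assoc (cr u), Matrix.one_mul]
  simp only [sec, diagonal_mul, cr_mul_apply]
  by_cases h : η u = true
  · have := cnt_update h
    simp only [h, if_true, ← this, Nat.add_right_cancel_iff]
  · simp [h]

theorem T_sec (N : ℕ) : T Λ * sec N = sec (N + 1) * T Λ := by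
  simp only [T, Finset.sum_mul, Finset.mul_sum, cr_sec]

theorem swp_cr (x y u : Λ) : swp x y * cr u = cr (Equiv.swap x y u) * swp x y := by
  ext η τ
  rw [← Matrix.mul_one (cr u), ← Matrix.mul_one (swp x y), Matrix.mul_assoc (swp x y),
    Matrix.one_mul]
  have e : Function.update η (Equiv.swap x y u) false ∘ Equiv.swap x y =
      Function.update (η ∘ Equiv.swap x y) u false := by
    funext z
    by_cases hz : z = u
    · subst hz; simp
    · simp [hz]
  simp only [swp_mul_apply, cr_mul_apply, Function.comp_apply]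
  split_ifs
  · exact congrArg (fun z => (1 : BOp Λ) z τ) e.symm
  · rfl

theorem comm_T_swp (x y : Λ) : Commute (T Λ) (swp x y) := by
  change T Λ * swp x y = swp x y * T Λ
  simp only [T, Finset.sum_mul, Finset.mul_sum, swp_cr]
  exact (Equiv.sum_comp (Equiv.swap x y) fun u => cr u * swp x y).symm

theorem comm_F {X : BOp Λ} (h : ∀ x y, Commute X (swp x y)) (f : ℝ → ℝ) : Commute (F Λ f) X :=
  F_comm f (comm_Sq h _).symm

theorem comm_F_swp (f : ℝ → ℝ) (x y : Λ) : Commute (F Λ f) (swp x y) :=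
  F_comm f (comm_cas_swp x y)

theorem comm_D_swp (x y : Λ) : Commute (D Λ) (swp x y) := by
  have h := congrArg transpose (comm_T_swp x y).eq
  rw [transpose_mul, transpose_mul, swp_transpose, ← D_transpose, transpose_transpose] at h
  exact h.symm

/-! ### the spectrum in a sector -/

theorem comm_sec_cas (N : ℕ) : Commute (sec N : BOp Λ) (cas Λ) := comm_Sq (comm_sec_swp N) _

theorem comm_sec_F (N : ℕ) (f : ℝ → ℝ) : Commute (sec N : BOp Λ) (F Λ f) :=
  (F_comm f (comm_sec_cas N).symm).symm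

theorem sec_cas_psd [Nonempty Λ] (N : ℕ) :
    (sec N * (cas Λ - th (Fintype.card Λ) N • (1 : BOp Λ))).PosSemidef := by
  have hc : Commute (sec N : BOp Λ) (cas Λ - th (Fintype.card Λ) N • (1 : BOp Λ)) :=
    (comm_sec_cas N).sub_right ((Commute.one_right _).smul_right _)
  have e : sec N * (cas Λ - th (Fintype.card Λ) N • (1 : BOp Λ)) =
      sec N * (cas Λ - th (Fintype.card Λ) N • (1 : BOp Λ)) * sec N := by
    rw [Matrix.mul_assoc, ← hc.eq, ← Matrix.mul_assoc, sec_mul_sec]
  rw [e, sec_cas, Matrix.smul_mul]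
  refine PosSemidef.smul ?_ (by positivity)
  have := psd_tmul (D Λ * sec N)
  rwa [transpose_mul, sec_transpose, D_transpose, Matrix.mul_assoc, ← Matrix.mul_assoc (T Λ),
    ← Matrix.mul_assoc] at this

/-- **(F3)** in the sector `N` the spectrum is at least `th N`. -/
theorem sec_F_zero [Nonempty Λ] (N : ℕ) {f : ℝ → ℝ}
    (hf : ∀ x, th (Fintype.card Λ) N ≤ x → f x = 0) : sec N * F Λ f = 0 := by
  set t := th (Fintype.card Λ) N with ht
  set g : ℝ → ℝ := fun x => (t - x) * if x < t then 1 else 0 with hg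
  have h1 : (sec N * F Λ g).PosSemidef := by
    refine psd_mul (sec_psd N) (F_psd fun x _ => ?_) (comm_sec_F N g)
    simp only [hg]
    split_ifs with h
    · linarith
    · simp
  have h2 : (sec N * F Λ g).trace ≤ 0 := by
    have h := tr_mul_nonneg (sec_cas_psd (Λ := Λ) N) (part1 (Λ := Λ) t).1
    have e : sec N * F Λ g = -(sec N * (cas Λ - t • (1 : BOp Λ)) * lt Λ t) := by
      rw [hg, F_mul, F_lin, lt_eq, Matrix.mul_assoc, ← Matrix.mul_neg, ← Matrix.neg_mul, neg_sub]
    rw [e, trace_neg]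
    linarith
  have h3 : sec N * F Λ g = 0 := h1.trace_eq_zero_iff.1 (le_antisymm h2 h1.trace_nonneg)
  have e : f = fun x => g x * (f x / (t - x)) := by
    funext x
    simp only [hg]
    split_ifs with h
    · have : t - x ≠ 0 := (sub_pos.2 h).ne'
      field_simp
    · simp [hf x (not_lt.1 h)]
  rw [e, F_mul, ← Matrix.mul_assoc, h3, Matrix.zero_mul]

/-- **(F2)** cyclicity: neighbouring sectors share the non-highest-weight multiplets. -/
theorem step_eq [Nonempty Λ] {W : BOp Λ} (hW : Good W) (N : ℕ) (g : ℝ → ℝ) :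
    (sec N * F Λ (fun x => (x - th (Fintype.card Λ) (N + 1)) * g x) * W).trace =
      (sec (N + 1) * F Λ (fun x => (x - th (Fintype.card Λ) (N + 1)) * g x) * W).trace := by
  have hT : Commute (T Λ) (F Λ g * W) :=
    ((comm_F comm_T_swp g).symm).mul_right (hW.comm comm_T_swp)
  rw [F_mul, F_lin', ← Matrix.mul_assoc, ← Matrix.mul_assoc, sec_cas', sec_cas,
    Matrix.mul_assoc _ (F Λ g), Matrix.mul_assoc _ (F Λ g), Matrix.smul_mul, Matrix.smul_mul,
    trace_smul, trace_smul]
  congr 1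
  rw [← Matrix.mul_assoc (sec (N + 1)), ← T_sec, Matrix.mul_assoc (T Λ), Matrix.mul_assoc (T Λ),
    trace_mul_comm (T Λ), Matrix.mul_assoc _ _ (T Λ), ← hT.eq]
  simp only [Matrix.mul_assoc]

theorem th_succ_lt {n k : ℕ} (h : 2 * k < n) : th n (k + 1) < th n k := by
  have hn : (0 : ℝ) < n := by exact_mod_cast (by omega : 0 < n)
  have h' : 2 * (k : ℝ) < n := by exact_mod_cast h
  have e : th n k - th n (k + 1) = 2 * (n - 2 * k) / (n : ℝ) ^ 2 := by
    simp only [th]; push_cast; field_simp; ring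
  have : 0 < 2 * (n - 2 * k) / (n : ℝ) ^ 2 := div_pos (by linarith) (by positivity)
  linarith

theorem th_anti {n N N' : ℕ} (h : N ≤ N') (h' : 2 * N' ≤ n) : th n N' ≤ th n N := by
  induction h with
  | refl => exact le_rfl
  | step hk ih =>
    exact (th_succ_lt (by omega)).le.trans (ih (by omega))

theorem ge_eq [Nonempty Λ] {W : BOp Λ} (hW : Good W) {N N' : ℕ} (h : N ≤ N')
    (h' : 2 * N' ≤ Fintype.card Λ) :
    (sec N' * (1 - lt Λ (th (Fintype.card Λ) N)) * W).trace = Zs W N := by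
  induction h with
  | refl =>
    rw [Matrix.mul_sub, lt_eq, sec_F_zero N fun x hx => if_neg (not_lt.2 hx), Matrix.mul_one,
      sub_zero, Zs]
  | @step k hk ih =>
    rw [← ih (by omega)]
    have hlt : th (Fintype.card Λ) (k + 1) < th (Fintype.card Λ) N :=
      (th_succ_lt (by omega)).trans_le (th_anti hk (by omega))
    have e : 1 - lt Λ (th (Fintype.card Λ) N) = F Λ fun x => (x - th (Fintype.card Λ) (k + 1)) *
        if x < th (Fintype.card Λ) N then 0 else 1 / (x - th (Fintype.card Λ) (k + 1)) := by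
      rw [lt_eq, ← F_one, ← F_sub]
      congr 1; funext x
      split_ifs with hx
      · simp
      · have : x - th (Fintype.card Λ) (k + 1) ≠ 0 := (by linarith [not_lt.1 hx] :
          0 < x - th (Fintype.card Λ) (k + 1)).ne'
        field_simp
        ring
    rw [e]
    exact (step_eq hW k _).symm

theorem lt_tr [Nonempty Λ] {W : BOp Λ} (hW : Good W) {N N' : ℕ} (h : N ≤ N')
    (h' : 2 * N' ≤ Fintype.card Λ) :
    (sec N' * lt Λ (th (Fintype.card Λ) N) * W).trace = Zs W N' - Zs W N := by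
  rw [← ge_eq hW h h', Zs, Matrix.mul_sub, Matrix.mul_one, Matrix.sub_mul, trace_sub]
  ring

theorem Zs_mono [Nonempty Λ] {W : BOp Λ} (hW : Good W) {N N' : ℕ} (h : N ≤ N')
    (h' : 2 * N' ≤ Fintype.card Λ) : Zs W N ≤ Zs W N' := by
  have := tr_mul_nonneg (psd_mul (sec_psd N') (part1 (Λ := Λ) (th (Fintype.card Λ) N)).1
    (comm_sec_F N' _)) hW.psd
  rw [lt_tr hW h h'] at this
  linarith

theorem Zs_zero {W : BOp Λ} (hW : Good W) : Zs W 0 = 1 := by
  rw [Zs, tr_sec_mul, Finset.sum_eq_single (fun _ => false)]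
  · rw [up_adm0 hW.mem]; simp [cnt]
  · intro σ _ hσ
    rw [if_neg]
    intro h
    apply hσ
    funext x
    have := Finset.card_eq_zero.1 h
    by_contra hx
    have hx' : x ∈ Finset.univ.filter fun x => σ x = true := by simpa using hx
    rw [this] at hx'
    simp at hx'
  · simp

theorem Zs_symm {W : BOp Λ} (hW : Good W) {N : ℕ} (hN : N ≤ Fintype.card Λ) :
    Zs W (Fintype.card Λ - N) = Zs W N := by
  have hc : Commute (Fl Λ) W := hW.comm (comm_tens_swp _)
  have e : (sec (Fintype.card Λ - N) : BOp Λ) = Fl Λ * sec N * Fl Λ := by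
    rw [Fl_sec hN, Matrix.mul_assoc, Fl_mul_Fl, Matrix.mul_one]
  rw [Zs, Zs, e, Matrix.mul_assoc, hc.eq, ← Matrix.mul_assoc, trace_mul_comm, ← Matrix.mul_assoc,
    ← Matrix.mul_assoc, Fl_mul_Fl, Matrix.one_mul]

end Ky

open Ky in
/-- **(Key)** -/
theorem key : KeyStmt := by
  intro Λ _ _ _
  refine ⟨part1, fun W hW => ?_⟩
  have h0 : ∀ N, 0 ≤ Zs W N := fun N => tr_mul_nonneg (sec_psd N) hW.psd
  have hs : W.trace = ∑ N ∈ Finset.range (Fintype.card Λ + 1), Zs W N := by
    simp only [Zs]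
    rw [← trace_sum, ← Finset.sum_mul, sum_sec, Matrix.one_mul]
  refine ⟨⟨h0, by rw [Zs_zero hW]; exact one_pos, fun N hN => Zs_symm hW hN,
    fun N N' h h' => Zs_mono hW h h'⟩, ?_, hs, fun N N' hN hN' => ?_⟩
  · rw [hs, ← Zs_zero hW]
    exact Finset.single_le_sum (fun N _ => h0 N) (by simp)
  · rcases le_total N N' with h | h
    · rw [lt_tr hW h hN', max_eq_left (sub_nonneg.2 (Zs_mono hW h hN'))]
    · rw [max_eq_right (sub_nonpos.2 (Zs_mono hW h hN)), lt_eq,
        sec_F_zero N' fun x hx => if_neg (not_lt.2 ((th_anti h hN).trans hx)), Matrix.zero_mul,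
        trace_zero]

end Crest.Agent.N337.C
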