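import Crest.Agent.N337.C.Defs

/-!
# Row 337, task C-LD (helper30): large deviations from the pressure
-/

set_option autoImplicit false

namespace Crest.Agent.N337.C

open Filter Topology Finset

namespace Ld

/-- tilted sums -/
noncomputable def T (Z : ℕ → ℝ) (n : ℕ) (c θ : ℝ) : ℝ :=
  ∑ N ∈ range (n + 1), Z N * Real.exp (θ * (c - N))

section fin
variable {Z : ℕ → ℝ} {n : ℕ}

lemma T_pos (h : Uni Z n) (c θ : ℝ) : 0 < T Z n c θ :=
  sum_pos' (fun N _ => mul_nonneg (h.nonneg N) (Real.exp_pos _).le)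
    ⟨0, mem_range.2 n.succ_pos, mul_pos h.pos (Real.exp_pos _)⟩

lemma T_eq (c θ : ℝ) : T Z n c θ = Real.exp (θ * c) * mo Z n 0 θ := by
  rw [T, mo, mul_sum]
  refine sum_congr rfl fun N _ => ?_
  rw [mul_sub, sub_eq_add_neg, Real.exp_add]
  ring

lemma mo_pos (h : Uni Z n) (θ : ℝ) : 0 < mo Z n 0 θ := by
  have := T_pos h 0 θ
  rwa [T_eq, mul_zero, Real.exp_zero, one_mul] at this

/-- Jensen -/
lemma jensen (h : Uni Z n) (c θ : ℝ) : θ * (mo Z n 1 θ / mo Z n 0 θ) ≤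
    θ * c - (Real.log (T Z n c θ) - Real.log (T Z n c 0)) := by
  have h0 := mo_pos h θ
  obtain ⟨μ, hμ⟩ : ∃ μ, μ = mo Z n 1 θ / mo Z n 0 θ := ⟨_, rfl⟩
  have h1 : mo Z n 1 θ = μ * mo Z n 0 θ := by rw [hμ, div_mul_cancel₀ _ h0.ne']
  have h2 : Real.exp (θ * μ) * mo Z n 0 θ =
      ∑ N ∈ range (n + 1), Z N * (Real.exp (-(θ * (N - μ))) * (θ * (N - μ) + 1)) := by
    have e : Real.exp (θ * μ) * mo Z n 0 θ =
        Real.exp (θ * μ) * ((1 - θ * μ) * mo Z n 0 θ + θ * mo Z n 1 θ) := by rw [h1]; ring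
    rw [e, mo, mo, mul_sum, mul_sum, ← sum_add_distrib, mul_sum]
    refine sum_congr rfl fun N _ => ?_
    rw [show -(θ * (N - μ)) = θ * μ + -(θ * N) by ring, Real.exp_add]
    ring
  have h3 : Real.exp (θ * μ) * mo Z n 0 θ ≤ T Z n c 0 := by
    rw [h2, T]
    refine sum_le_sum fun N _ => mul_le_mul_of_nonneg_left ?_ (h.nonneg N)
    rw [zero_mul, Real.exp_zero, Real.exp_neg, inv_mul_le_iff₀ (Real.exp_pos _), mul_one]
    exact Real.add_one_le_exp _
  have h4 := Real.log_le_log (mul_pos (Real.exp_pos _) h0) h3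
  rw [Real.log_mul (Real.exp_pos _).ne' h0.ne', Real.log_exp] at h4
  rw [T_eq c θ, Real.log_mul (Real.exp_pos _).ne' h0.ne', Real.log_exp, ← hμ]
  linarith

/-- both tails are small, so the middle carries half of the tilted mass -/
lemma key (h : Uni Z n) {c θ a b δ : ℝ} (hθ : 0 < θ) {A B : ℕ} (hA : (A : ℝ) ≤ c - a)
    (hB : c - b ≤ B) (hAB : A ≤ B) (hn : 2 * B ≤ n) (hδ : δ ≤ 1 / 4)
    (h1 : T Z n c (2 * θ) * Real.exp (-(θ * a)) ≤ δ * T Z n c θ)
    (h2 : T Z n c 0 * Real.exp (θ * b) ≤ δ * T Z n c θ) :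
    Z A ≤ 2 * δ * ((n + 1 : ℕ) : ℝ) * Z B := by
  have hT := T_pos h c θ
  have hδ0 : 0 ≤ δ := nonneg_of_mul_nonneg_left
    ((mul_pos (T_pos h c 0) (Real.exp_pos _)).le.trans h2) hT
  have lo : ∀ N : ℕ, (N : ℝ) ≤ c - a → Z N * Real.exp (θ * (c - N)) ≤
      Z N * Real.exp (2 * θ * (c - N)) * Real.exp (-(θ * a)) := fun N hN => by
    rw [mul_assoc, ← Real.exp_add]
    refine mul_le_mul_of_nonneg_left (Real.exp_le_exp.2 ?_) (h.nonneg N)
    nlinarith [mul_nonneg hθ.le (sub_nonneg.2 hN)]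
  have pt : ∀ N : ℕ, Z N * Real.exp (θ * (c - N)) ≤
      Z N * Real.exp (2 * θ * (c - N)) * Real.exp (-(θ * a)) +
        Z N * Real.exp (0 * (c - N)) * Real.exp (θ * b) + Z B * Real.exp (θ * (c - A)) := fun N => by
    have p1 : 0 ≤ Z N * Real.exp (2 * θ * (c - N)) * Real.exp (-(θ * a)) :=
      mul_nonneg (mul_nonneg (h.nonneg N) (Real.exp_pos _).le) (Real.exp_pos _).le
    have p2 : 0 ≤ Z N * Real.exp (0 * (c - N)) * Real.exp (θ * b) :=
      mul_nonneg (mul_nonneg (h.nonneg N) (Real.exp_pos _).le) (Real.exp_pos _).le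
    have p3 : 0 ≤ Z B * Real.exp (θ * (c - A)) := mul_nonneg (h.nonneg B) (Real.exp_pos _).le
    rcases le_total (N : ℝ) (c - a) with h3 | h3
    · linarith [lo N h3]
    rcases le_total (c - b) (N : ℝ) with h4 | h4
    · have : Z N * Real.exp (θ * (c - N)) ≤ Z N * Real.exp (0 * (c - N)) * Real.exp (θ * b) := by
        rw [zero_mul, Real.exp_zero, mul_one]
        exact mul_le_mul_of_nonneg_left (Real.exp_le_exp.2
          (mul_le_mul_of_nonneg_left (by linarith) hθ.le)) (h.nonneg N)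
      linarith
    · have : Z N * Real.exp (θ * (c - N)) ≤ Z B * Real.exp (θ * (c - A)) :=
        mul_le_mul (h.mono N B (by exact_mod_cast h4.trans hB) hn) (Real.exp_le_exp.2
          (mul_le_mul_of_nonneg_left (by linarith) hθ.le)) (Real.exp_pos _).le (h.nonneg B)
      linarith
  have h5 : T Z n c θ ≤ T Z n c (2 * θ) * Real.exp (-(θ * a)) + T Z n c 0 * Real.exp (θ * b) +
      ((n + 1 : ℕ) : ℝ) * (Z B * Real.exp (θ * (c - A))) := by
    refine (sum_le_sum fun N _ => pt N).trans (le_of_eq ?_)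
    rw [sum_add_distrib, sum_add_distrib, ← sum_mul, ← sum_mul, sum_const, card_range, nsmul_eq_mul]
    rfl
  have h6 : Z A * Real.exp (θ * (c - A)) ≤ δ * T Z n c θ :=
    (lo A hA).trans ((mul_le_mul_of_nonneg_right (single_le_sum
      (f := fun N : ℕ => Z N * Real.exp (2 * θ * (c - N)))
      (fun N _ => mul_nonneg (h.nonneg N) (Real.exp_pos _).le) (mem_range.2 (by omega)))
      (Real.exp_pos _).le).trans h1)
  have h7 : T Z n c θ ≤ 2 * (((n + 1 : ℕ) : ℝ) * (Z B * Real.exp (θ * (c - A)))) := by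
    nlinarith [mul_le_mul_of_nonneg_right hδ hT.le]
  refine le_of_mul_le_mul_right (h6.trans ((mul_le_mul_of_nonneg_left h7 hδ0).trans
    (le_of_eq ?_))) (Real.exp_pos (θ * (c - A)))
  ring

lemma le_of_log (h : Uni Z n) {c θ θ' x y : ℝ}
    (e : Real.log (T Z n c θ') - Real.log (T Z n c θ) ≤ y - x) :
    T Z n c θ' * Real.exp x ≤ Real.exp y * T Z n c θ := by
  rw [← Real.exp_log (T_pos h c θ'), ← Real.exp_log (T_pos h c θ), ← Real.exp_add, ← Real.exp_add]
  exact Real.exp_le_exp.2 (by linarith)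
end fin

variable {n : ℕ} {β m : ℝ} {V : ℕ → ℕ} {Z : ℕ → ℕ → ℝ} {p : ℝ → ℝ}

lemma slope_ge (S : Seq n β m V Z p) {h : ℝ} (hh : 0 < h) : m * h ≤ p h - p 0 := by
  rw [← le_div_iff₀ hh]
  refine le_of_tendsto S.der ?_
  filter_upwards [Ioc_mem_nhdsGT hh] with t ht
  simpa using S.cvx.secant_mono (Set.mem_univ 0) (Set.mem_univ t) (Set.mem_univ h) ht.1.ne' hh.ne'
    ht.2

lemma ev_pos (S : Seq n β m V Z p) : ∀ᶠ L in atTop, 0 < (V L : ℝ) :=
  (S.vol.eventually (eventually_gt_atTop 0)).mono fun _ h => by exact_mod_cast h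

lemma ev_diff (S : Seq n β m V Z p) {x y q : ℝ} (h : p x - p y < q) : ∀ᶠ L in atTop,
    Real.log (T (Z L) (n * V L) ((n : ℝ) * V L / 2) (β * x)) -
      Real.log (T (Z L) (n * V L) ((n : ℝ) * V L / 2) (β * y)) ≤ β * V L * q := by
  filter_upwards [((S.lim x).sub (S.lim y)).eventually (gt_mem_nhds h), ev_pos S] with L h1 h2
  rw [← sub_div, div_lt_iff₀ (mul_pos S.hβ h2), mul_comm q] at h1
  exact h1.le

lemma ev_small (n : ℕ) {k r : ℝ} (hk : 0 < k) (hr : 0 < r) : ∀ᶠ v : ℕ in atTop,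
    2 * Real.exp (-(k * v)) * ((n * v + 1 : ℕ) : ℝ) ^ 2 ≤ r := by
  have h1 : Tendsto (fun v : ℕ => 2 * ((n + 1 : ℝ) / k) ^ 2 *
      ((k * v) ^ 2 * Real.exp (-(k * v)))) atTop (𝓝 (2 * ((n + 1 : ℝ) / k) ^ 2 * 0)) :=
    ((Real.tendsto_pow_mul_exp_neg_atTop_nhds_zero 2).comp
      (tendsto_natCast_atTop_atTop.const_mul_atTop hk)).const_mul _
  rw [mul_zero] at h1
  filter_upwards [h1.eventually (gt_mem_nhds hr), eventually_ge_atTop 1] with v h2 h3
  have h4 : (1 : ℝ) ≤ v := by exact_mod_cast h3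
  have h5 : ((n * v + 1 : ℕ) : ℝ) ^ 2 ≤ ((n + 1 : ℝ) / k) ^ 2 * (k * v) ^ 2 := by
    rw [← mul_pow, ← mul_assoc, div_mul_cancel₀ _ hk.ne']
    refine pow_le_pow_left₀ (Nat.cast_nonneg _) ?_ 2
    push_cast
    linarith
  refine le_trans ?_ h2.le
  nlinarith [mul_le_mul_of_nonneg_left h5 (Real.exp_pos (-(k * v))).le]

end Ld
open Ld

/-- **(LD)** -/
theorem ld : LDStmt := by
  intro n β m V Z p S
  refine ⟨fun h ε hh hε => ?_, fun ε r hε hr => ?_⟩
  · have h1 : p 0 - p h < -(m * h) + ε * h := by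
      have := slope_ge S hh
      have := mul_pos hε hh
      linarith
    filter_upwards [ev_diff S h1, S.uni] with L h2 hU
    have h3 := jensen hU ((n : ℝ) * V L / 2) (β * h)
    rw [mul_zero] at h2
    refine le_of_mul_le_mul_left (h3.trans ?_) (mul_pos S.hβ hh)
    linarith
  · obtain ⟨t, h1, ht⟩ := ((S.der.eventually (gt_mem_nhds (show m < m + ε / 8 by linarith))).and
      self_mem_nhdsWithin).exists
    obtain ⟨h, rfl⟩ : ∃ h, t = 2 * h := ⟨t / 2, by ring⟩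
    have hh : 0 < h := by have : 0 < 2 * h := ht; linarith
    rw [div_lt_iff₀ ht] at h1
    have h0 := slope_ge S hh
    have hp := mul_pos hε hh
    have h2 : p (2 * h) - p h < m * h + ε * h / 2 := by linarith
    have h3 : p 0 - p h < -(m * h) + ε * h / 2 := by linarith
    have hk : 0 < β * (ε * h / 2) := mul_pos S.hβ (by linarith)
    filter_upwards [ev_diff S h2, ev_diff S h3, S.uni, ev_pos S,
      S.vol.eventually (ev_small n hk hr), S.vol.eventually (ev_small 0 hk one_half_pos)]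
      with L e2 e3 hU hV e4 e5 A B hA hB hn
    rw [mul_zero] at e3
    rw [mul_left_comm β 2 h] at e2
    have hAB : A ≤ B := by
      have : (A : ℝ) ≤ B := by nlinarith [mul_pos hε hV]
      exact_mod_cast this
    have h4 := key hU (c := (n : ℝ) * V L / 2) (a := (m + ε) * V L) (b := (m - ε) * V L)
      (δ := Real.exp (-(β * (ε * h / 2) * V L))) (mul_pos S.hβ hh) (by linarith) (by linarith) hAB hn
      (by simp at e5; linarith) (le_of_log hU (e2.trans (le_of_eq (by ring))))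
      (le_of_log hU (e3.trans (le_of_eq (by ring))))
    refine (mul_le_mul_of_nonneg_left h4 (Nat.cast_nonneg _)).trans ?_
    refine le_trans (le_of_eq ?_) (mul_le_mul_of_nonneg_right e4 (hU.nonneg B))
    ring

end Crest.Agent.N337.C
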