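import Crest.Agent.N337.C.Defs

/-!
# Row 337, S0527: the limit law of the magnetisation (`LawStmt`) (helper44)

The weights are compared with the flat weights on the window `[B, n V - B]`.
-/

set_option autoImplicit false

namespace Crest.Agent.N337.C

open Filter Topology Finset

namespace Lw

/-- the window -/
def Sw (nn B : ℕ) : Finset ℕ := Ico B (nn - B + 1)

variable {Z : ℕ → ℝ} {nn B : ℕ}

theorem card_Sw (hB : 2 * B ≤ nn) : ((Sw nn B).card : ℝ) = nn - 2 * B + 1 := by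
  rw [Sw, Nat.card_Ico, show nn - B + 1 - B = nn - 2 * B + 1 by omega]
  push_cast [Nat.cast_sub hB]
  ring

theorem Sw_subset : Sw nn B ⊆ range (nn + 1) := fun N hN => by
  simp only [Sw, mem_Ico, mem_range] at hN ⊢; omega

theorem le_of_mem (h : Uni Z nn) {N : ℕ} (hN : N ∈ Sw nn B) : Z B ≤ Z N := by
  simp only [Sw, mem_Ico] at hN
  by_cases h2 : 2 * N ≤ nn
  · exact h.mono _ _ hN.1 h2
  · rw [← h.symm N (by omega)]
    exact h.mono _ _ (by omega) (by omega)

theorem sum_pos' (h : Uni Z nn) : 0 < ∑ N ∈ range (nn + 1), Z N :=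
  h.pos.trans_le (single_le_sum (fun N _ => h.nonneg N) (mem_range.2 (Nat.succ_pos _)))

/-- the excess over the flat weights -/
noncomputable def tt (Z : ℕ → ℝ) (nn B N : ℕ) : ℝ := Z N - if N ∈ Sw nn B then Z B else 0

theorem tt_nonneg (h : Uni Z nn) (N : ℕ) : 0 ≤ tt Z nn B N := by
  unfold tt
  split_ifs with hN
  · linarith [le_of_mem h hN]
  · linarith [h.nonneg N]

theorem sum_tt_mul (F : ℕ → ℝ) : ∑ N ∈ range (nn + 1), tt Z nn B N * F N =
    ∑ N ∈ range (nn + 1), Z N * F N - Z B * ∑ N ∈ Sw nn B, F N := by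
  simp only [tt, sub_mul, sum_sub_distrib, ite_mul, zero_mul, sum_ite_mem,
    inter_eq_right.2 Sw_subset, mul_sum]

theorem approx (h : Uni Z nn) (hB : 2 * B ≤ nn) {η K : ℝ}
    (hη : ∑ N ∈ range (nn + 1), tt Z nn B N ≤ η * ∑ N ∈ range (nn + 1), Z N)
    {F : ℕ → ℝ} (hF : ∀ N ≤ nn, |F N| ≤ K) :
    |(∑ N ∈ range (nn + 1), Z N * F N) / ∑ N ∈ range (nn + 1), Z N -
      (∑ N ∈ Sw nn B, F N) / (Sw nn B).card| ≤ η * (2 * K) := by
  have hZ := sum_pos' h
  have hc : (0 : ℝ) < (Sw nn B).card := by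
    rw [card_Sw hB]
    have : ((2 * B : ℕ) : ℝ) ≤ nn := by exact_mod_cast hB
    push_cast at this
    linarith
  have hK : 0 ≤ K := (abs_nonneg _).trans (hF 0 (Nat.zero_le _))
  set a := (∑ N ∈ Sw nn B, F N) / (Sw nn B).card with ha
  have hle : ∀ N ∈ range (nn + 1), |F N| ≤ K := fun N hN => hF N (Nat.lt_succ_iff.1 (mem_range.1 hN))
  have haK : |a| ≤ K := by
    rw [ha, abs_div, abs_of_pos hc, div_le_iff₀ hc, mul_comm, ← nsmul_eq_mul]
    exact (abs_sum_le_sum_abs _ _).trans (sum_le_card_nsmul _ _ _ fun N hN => hle N (Sw_subset hN))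
  have e := sum_tt_mul (Z := Z) (nn := nn) (B := B) fun N => F N - a
  have e0 : ∑ N ∈ Sw nn B, (F N - a) = 0 := by
    rw [sum_sub_distrib, sum_const, nsmul_eq_mul, ha, mul_div_cancel₀ _ hc.ne', sub_self]
  simp only [e0, mul_zero, sub_zero, mul_sub (Z _), sum_sub_distrib, ← sum_mul] at e
  rw [div_sub' hZ.ne', ← e, abs_div, abs_of_pos hZ, div_le_iff₀ hZ]
  calc _ ≤ ∑ N ∈ range (nn + 1), tt Z nn B N * (2 * K) := by
        refine (abs_sum_le_sum_abs _ _).trans (sum_le_sum fun N hN => ?_)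
        rw [abs_mul, abs_of_nonneg (tt_nonneg h N)]
        exact mul_le_mul_of_nonneg_left ((abs_sub _ _).trans (by linarith [hle N hN]))
          (tt_nonneg h N)
    _ ≤ η * (∑ N ∈ range (nn + 1), Z N) * (2 * K) := by
        rw [← sum_mul]; exact mul_le_mul_of_nonneg_right hη (by positivity)
    _ = _ := by ring

theorem sum_tt_le (h : Uni Z nn) (hB : 2 * B ≤ nn) {A N1 : ℕ} {r : ℝ} (hr : 0 ≤ r)
    (hA : ∀ N < A, Z N ≤ r * Z B) (h1 : Z N1 ≤ (1 + r) * Z B) (hN1 : 2 * N1 ≤ nn) :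
    ∑ N ∈ range (nn + 1), tt Z nn B N ≤ 2 * ((nn + 1) * r * Z B + (Ico A B).card * Z B +
      ∑ N ∈ (range (nn + 1)).filter (fun N => N1 < N ∧ 2 * N ≤ nn), (Z N - Z N1)) := by
  have hZ := h.nonneg B
  let s : ℕ → ℝ := fun N => r * Z B + (if N ∈ Ico A B then Z B else 0) +
    if N1 < N ∧ 2 * N ≤ nn then Z N - Z N1 else 0
  have p1 : ∀ N, 0 ≤ if N ∈ Ico A B then Z B else 0 := fun N => by split_ifs <;> simp [hZ]
  have p2 : ∀ N, 0 ≤ if N1 < N ∧ 2 * N ≤ nn then Z N - Z N1 else 0 := fun N => by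
    split_ifs with hN
    · linarith [h.mono _ _ hN.1.le hN.2]
    · exact le_rfl
  have p3 : 0 ≤ r * Z B := mul_nonneg hr hZ
  have s0 : ∀ N, 0 ≤ s N := fun N => add_nonneg (add_nonneg p3 (p1 N)) (p2 N)
  have half : ∀ N, 2 * N ≤ nn → tt Z nn B N ≤ s N := fun N hN => by
    have q1 := p1 N
    have q2 := p2 N
    simp only [tt, s]
    rcases lt_or_ge N B with hb | hb
    · rw [if_neg (by simp only [Sw, mem_Ico]; omega)]
      rcases lt_or_ge N A with ha | ha
      · linarith [hA N ha]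
      · rw [if_pos (mem_Ico.2 ⟨ha, hb⟩)]
        linarith [h.mono _ _ hb.le hB]
    · rw [if_pos (by simp only [Sw, mem_Ico]; omega)]
      rcases lt_or_ge N1 N with ha | ha
      · rw [if_pos (And.intro ha hN)]
        linarith
      · linarith [h.mono _ _ ha hN1]
  have all : ∀ N ∈ range (nn + 1), tt Z nn B N ≤ s N + s (nn + 1 - 1 - N) := fun N hN => by
    have hN' := Nat.lt_succ_iff.1 (mem_range.1 hN)
    rw [Nat.add_sub_cancel]
    by_cases h2 : 2 * N ≤ nn
    · linarith [half N h2, s0 (nn - N)]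
    · have e : tt Z nn B N = tt Z nn B (nn - N) := by
        simp only [tt, h.symm N hN']
        congr 1
        exact if_congr (by simp only [Sw, mem_Ico]; omega) rfl rfl
      linarith [half (nn - N) (by omega), s0 N]
  refine (sum_le_sum all).trans ?_
  rw [sum_add_distrib, sum_range_reflect, ← two_mul]
  refine mul_le_mul_of_nonneg_left ?_ zero_le_two
  simp only [s, sum_add_distrib, sum_const, card_range, nsmul_eq_mul, sum_ite_mem, sum_filter]
  push_cast
  have : ((range (nn + 1) ∩ Ico A B).card : ℝ) ≤ (Ico A B).card := by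
    exact_mod_cast card_le_card inter_subset_right
  nlinarith

theorem sum_exp (a x : ℝ) (c : ℕ) :
    (∑ i ∈ range c, Real.exp (a * (x - i))) * (2 * Real.sinh (a / 2)) =
      Real.exp (a * (x + 1 / 2)) - Real.exp (a * (x - c + 1 / 2)) := by
  induction c with
  | zero => simp
  | succ c ih =>
    rw [sum_range_succ, add_mul, ih, Real.sinh_eq, mul_div_cancel₀ _ two_ne_zero, mul_sub,
      ← Real.exp_add, ← Real.exp_add]
    push_cast
    ring_nf

theorem sum_sq (x : ℝ) (c : ℕ) : ∑ i ∈ range c, (x - i) ^ 2 =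
    c * x ^ 2 - x * c * (c - 1) + (c - 1) * c * (2 * c - 1) / 6 := by
  induction c with
  | zero => simp
  | succ c ih => rw [sum_range_succ, ih]; push_cast; ring

theorem sum_Sw (hB : 2 * B ≤ nn) (G : ℝ → ℝ) : ∑ N ∈ Sw nn B, G ((nn : ℝ) / 2 - N) =
    ∑ i ∈ range (Sw nn B).card, G ((((Sw nn B).card : ℝ) - 1) / 2 - i) := by
  rw [card_Sw hB, Sw, sum_Ico_eq_sum_range, Nat.card_Ico]
  refine sum_congr rfl fun i _ => ?_
  push_cast
  congr 1
  ring

theorem avg_exp (hB : 2 * B ≤ nn) {a : ℝ} (ha : 0 < a) :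
    ∑ N ∈ Sw nn B, Real.exp (a * ((nn : ℝ) / 2 - N)) =
      Real.sinh (a * (Sw nn B).card / 2) / Real.sinh (a / 2) := by
  have hs : 0 < Real.sinh (a / 2) := Real.sinh_pos_iff.2 (half_pos ha)
  rw [sum_Sw hB fun x => Real.exp (a * x), eq_div_iff hs.ne']
  have := sum_exp a ((((Sw nn B).card : ℝ) - 1) / 2) (Sw nn B).card
  rw [Real.sinh_eq (a * _ / 2), show a * (Sw nn B).card / 2 =
    a * ((((Sw nn B).card : ℝ) - 1) / 2 + 1 / 2) by ring, show -(a * ((((Sw nn B).card : ℝ) - 1) / 2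
      + 1 / 2)) = a * ((((Sw nn B).card : ℝ) - 1) / 2 - (Sw nn B).card + 1 / 2) by ring, ← this]
  ring

theorem avg_sq (hB : 2 * B ≤ nn) : ∑ N ∈ Sw nn B, ((nn : ℝ) / 2 - N) ^ 2 =
    (Sw nn B).card * (((Sw nn B).card : ℝ) ^ 2 - 1) / 12 := by
  rw [sum_Sw hB fun x => x ^ 2, sum_sq]
  ring

section seq
variable {n : ℕ} {β m : ℝ} {V : ℕ → ℕ} {Z : ℕ → ℕ → ℝ} {p : ℝ → ℝ}

theorem vol (H : Seq n β m V Z p) : Tendsto (fun L => (V L : ℝ)) atTop atTop :=
  tendsto_natCast_atTop_atTop.comp H.vol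

theorem ev_B (H : Seq n β m V Z p) {ε : ℝ} (hε : 0 < ε) (hε' : ε ≤ 1 / 32) : ∀ᶠ L in atTop,
    (⌈(n / 2 - m + ε) * V L⌉₊ : ℝ) ≤ V L / 8 ∧ 2 * ⌈(n / 2 - m + ε) * V L⌉₊ ≤ n * V L := by
  filter_upwards [(vol H).eventually_ge_atTop 16] with L hV
  have h1 := (Nat.ceil_lt_add_one (a := (n / 2 - m + ε) * V L)
    (mul_nonneg (by linarith [H.lo]) (by linarith))).le
  have h2 : (n / 2 - m + ε) * V L ≤ 1 / 16 * V L :=
    mul_le_mul_of_nonneg_right (by linarith [H.hi]) (by linarith)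
  have hn : (1 : ℝ) ≤ n := by exact_mod_cast H.hn
  refine ⟨by linarith, ?_⟩
  rw [← @Nat.cast_le ℝ]
  push_cast
  nlinarith

theorem tendsto_card (H : Seq n β m V Z p) {ε : ℝ} (hε : 0 < ε) (hε' : ε ≤ 1 / 32) :
    Tendsto (fun L => ((Sw (n * V L) ⌈(n / 2 - m + ε) * V L⌉₊).card : ℝ) / V L) atTop
      (𝓝 (2 * (m - ε))) := by
  have h1 := (tendsto_nat_ceil_mul_div_atTop (a := n / 2 - m + ε) (by linarith [H.lo])).comp (vol H)
  have h2 := ((tendsto_const_nhds (x := (n : ℝ))).sub (h1.const_mul 2)).add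
    (vol H).inv_tendsto_atTop
  rw [show (n : ℝ) - 2 * (n / 2 - m + ε) + 0 = 2 * (m - ε) by ring] at h2
  refine h2.congr' ?_
  filter_upwards [ev_B H hε hε', (vol H).eventually_gt_atTop 0] with L hB hV
  rw [card_Sw hB.2]
  simp only [Function.comp_apply, Pi.inv_apply]
  push_cast
  field_simp

theorem flat (hL : LDStmt) (H : Seq n β m V Z p) {N1 : ℕ → ℕ} (h8 : ∀ᶠ L in atTop, 8 * N1 L ≤ V L)
    (hw : ∀ d r : ℝ, 0 < d → 0 < r → ∀ᶠ L in atTop,
      Z L (N1 L) ≤ (1 + r) * Z L ⌈(n / 2 - m + d) * V L⌉₊ ∨ N1 L ≤ ⌈(n / 2 - m + d) * V L⌉₊)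
    (hκ : ∀ κ : ℝ, 0 < κ → ∀ᶠ L in atTop,
      ∑ N ∈ (range (n * V L + 1)).filter (fun N => N1 L < N ∧ 2 * N ≤ n * V L),
        (Z L N - Z L (N1 L)) ≤ κ * ∑ N ∈ range (n * V L + 1), Z L N)
    {η ε : ℝ} (hε : 0 < ε) (hε' : ε ≤ 1 / 32) (hη : 32 * ε ≤ η) : ∀ᶠ L in atTop,
      ∑ N ∈ range (n * V L + 1), tt (Z L) (n * V L) ⌈(n / 2 - m + ε) * V L⌉₊ N ≤
        η * ∑ N ∈ range (n * V L + 1), Z L N := by
  have hn : (1 : ℝ) ≤ n := by exact_mod_cast H.hn
  have hr : 0 < ε / n := by positivity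
  filter_upwards [H.uni, ev_B H hε hε', h8, hw ε _ hε hr, hκ (4 * ε) (by positivity),
    (hL n β m V Z p H).2 ε _ hε hr, (vol H).eventually_ge_atTop (max 1 ε⁻¹)]
    with L hu hB h8 hw hκ hld hV
  obtain ⟨hV1, hVε⟩ := max_le_iff.1 hV
  set B := ⌈(n / 2 - m + ε) * V L⌉₊ with hBdef
  have hZ := hu.nonneg B
  have hVn : V L ≤ n * V L := Nat.le_mul_of_pos_left _ H.hn
  have key := sum_tt_le hu hB.2 (A := ⌊(n / 2 - m - ε) * V L⌋₊) (N1 := N1 L) hr.le
    (fun N hN => by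
      have h1 := (Nat.le_floor_iff' (Nat.succ_ne_zero N)).1 hN
      push_cast at h1
      refine le_trans (le_mul_of_one_le_left (hu.nonneg N) ?_)
        (hld N B (by linarith) (Nat.le_ceil _) hB.2)
      exact_mod_cast Nat.succ_pos _)
    (hw.elim id fun h1 => (hu.mono _ _ h1 hB.2).trans (le_mul_of_one_le_left hZ (by linarith)))
    (by omega)
  refine key.trans ?_
  have c1 : ((Ico ⌊(n / 2 - m - ε) * V L⌋₊ B).card : ℝ) ≤ 4 * ε * V L := by
    have b1 := (Nat.ceil_lt_add_one (a := (n / 2 - m + ε) * V L)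
      (mul_nonneg (by linarith [H.lo]) (by linarith))).le
    have b2 := (Nat.sub_one_lt_floor ((n / 2 - m - ε) * V L)).le
    have b3 : 1 ≤ ε * V L := by rwa [inv_le_iff_one_le_mul₀' hε] at hVε
    rw [Nat.card_Ico]
    rcases le_total ⌊(n / 2 - m - ε) * V L⌋₊ B with h1 | h1
    · rw [Nat.cast_sub h1]; linarith
    · rw [Nat.sub_eq_zero_of_le h1, Nat.cast_zero]; linarith
  have c2 : (((n * V L : ℕ) : ℝ) + 1) * (ε / n) ≤ 2 * ε * V L := by
    push_cast
    rw [← mul_div_assoc, div_le_iff₀ (by linarith)]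
    have : (1 : ℝ) ≤ n * V L := one_le_mul_of_one_le_of_one_le hn hV1
    nlinarith
  have c3 : V L * Z L B ≤ 2 * ∑ N ∈ range (n * V L + 1), Z L N := by
    have b1 := sum_nonneg fun N (_ : N ∈ range (n * V L + 1)) => tt_nonneg (B := B) hu N
    have b2 := sum_tt_mul (Z := Z L) (nn := n * V L) (B := B) fun _ => 1
    simp only [mul_one, sum_const, nsmul_eq_mul, card_Sw hB.2] at b2
    have b3 : (V L : ℝ) ≤ (n * V L : ℕ) := by exact_mod_cast hVn
    have b4 : Z L B * (V L / 2) ≤ Z L B * ((n * V L : ℕ) - 2 * B + 1) :=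
      mul_le_mul_of_nonneg_left (by linarith [hB.1]) hZ
    linarith
  have d1 := mul_le_mul_of_nonneg_right c1 hZ
  have d2 := mul_le_mul_of_nonneg_right c2 hZ
  have d3 := mul_le_mul_of_nonneg_left c3 hε.le
  have d4 := mul_le_mul_of_nonneg_right hη (sum_pos' hu).le
  linarith

theorem gen (H : Seq n β m V Z p)
    (hf : ∀ η ε : ℝ, 0 < ε → ε ≤ 1 / 32 → 32 * ε ≤ η → ∀ᶠ L in atTop,
      ∑ N ∈ range (n * V L + 1), tt (Z L) (n * V L) ⌈(n / 2 - m + ε) * V L⌉₊ N ≤
        η * ∑ N ∈ range (n * V L + 1), Z L N)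
    {F : ℕ → ℕ → ℝ} {K : ℝ} (hK : 0 < K) (hF : ∀ᶠ L in atTop, ∀ N ≤ n * V L, |F L N| ≤ K)
    {φ : ℝ → ℝ} (hφ : ContinuousAt φ m)
    (hlim : ∀ ε : ℝ, 0 < ε → ε ≤ 1 / 32 → Tendsto (fun L =>
      (∑ N ∈ Sw (n * V L) ⌈(n / 2 - m + ε) * V L⌉₊, F L N) /
        (Sw (n * V L) ⌈(n / 2 - m + ε) * V L⌉₊).card) atTop (𝓝 (φ (m - ε)))) :
    Tendsto (fun L => (∑ N ∈ range (n * V L + 1), Z L N * F L N) /
      ∑ N ∈ range (n * V L + 1), Z L N) atTop (𝓝 (φ m)) := by
  refine Metric.tendsto_nhds.2 fun e he => ?_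
  obtain ⟨δ, hδ, hδ'⟩ := Metric.continuousAt_iff.1 hφ (e / 3) (by positivity)
  obtain ⟨ε, hε, h1, h2, h3⟩ : ∃ ε : ℝ, 0 < ε ∧ ε ≤ 1 / 32 ∧ ε < δ ∧ 32 * ε * (2 * K) ≤ e / 3 :=
    ⟨min (min (1 / 32) (δ / 2)) (e / (192 * K)), by positivity,
      (min_le_left _ _).trans (min_le_left _ _),
      ((min_le_left _ _).trans (min_le_right _ _)).trans_lt (half_lt_self hδ), by
        have := min_le_right (min (1 / 32) (δ / 2)) (e / (192 * K))
        rw [le_div_iff₀ (by positivity)] at this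
        linarith⟩
  have h4 := @hδ' (m - ε) (by rwa [Real.dist_eq, sub_sub_cancel_left, abs_neg, abs_of_pos hε])
  filter_upwards [H.uni, ev_B H hε h1, hf _ ε hε h1 le_rfl, hF,
    Metric.tendsto_nhds.1 (hlim ε hε h1) (e / 3) (by positivity)] with L hu hB ht hF h5
  have h6 := (approx hu hB.2 ht hF).trans h3
  rw [← Real.dist_eq] at h6
  linarith [dist_triangle4 ((∑ N ∈ range (n * V L + 1), Z L N * F L N) /
    ∑ N ∈ range (n * V L + 1), Z L N) ((∑ N ∈ Sw (n * V L) ⌈(n / 2 - m + ε) * V L⌉₊, F L N) /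
        (Sw (n * V L) ⌈(n / 2 - m + ε) * V L⌉₊).card) (φ (m - ε)) (φ m)]

theorem abs_M_le {n V N : ℕ} (h : N ≤ n * V) : |(n : ℝ) * V / 2 - N| ≤ n * V := by
  have h1 : (N : ℝ) ≤ n * V := by exact_mod_cast h
  have h2 : (0 : ℝ) ≤ N := Nat.cast_nonneg N
  rw [abs_le]
  constructor <;> linarith

end seq

end Lw

open Lw in
theorem law (hL : LDStmt) : LawStmt := by
  intro n β m V Z p H N1 h8 hw hκ
  have hn : (1 : ℝ) ≤ n := by exact_mod_cast H.hn
  have hm : 1 / 4 < m - 1 / 32 := by linarith [H.hi]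
  have hf := fun η ε => flat hL H h8 hw hκ (η := η) (ε := ε)
  have hV := (vol H).eventually_gt_atTop 0
  refine ⟨fun r hr => gen H hf (K := Real.exp (r * n)) (Real.exp_pos _) ?_
    (φ := fun y => Real.sinh (y * r) / (y * r)) ?_ fun ε hε hε' => ?_, ?_⟩
  · filter_upwards [hV] with L hV N hN
    rw [abs_of_pos (Real.exp_pos _), Real.exp_le_exp]
    refine (mul_le_mul_of_nonneg_left ((le_abs_self _).trans (abs_M_le hN))
      (by positivity)).trans_eq ?_
    field_simp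
  · exact ContinuousAt.div (by fun_prop) (by fun_prop) (mul_pos (by linarith) hr).ne'
  · have h1 := tendsto_card H hε hε'
    have h2 : Tendsto (fun L => Real.sinh (r / V L / 2) / (r / V L / 2)) atTop (𝓝 1) := by
      have a1 := (hasDerivAt_iff_tendsto_slope.1 (Real.hasDerivAt_sinh 0)).comp
        (f := fun L => r / V L / 2) (x := atTop) (tendsto_nhdsWithin_iff.2
          ⟨by simpa using ((vol H).const_div_atTop r).div_const 2,
            hV.mono fun L hV => (by positivity : 0 < r / V L / 2).ne'⟩)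
      simpa [Function.comp_def, slope_def_field] using a1
    have h3 := ((Real.continuous_sinh.tendsto _).comp ((h1.const_mul r).div_const 2)).div
      (((h1.const_mul r).div_const 2).mul h2) (by
        have : 0 < m - ε := by linarith
        positivity)
    rw [show r * (2 * (m - ε)) / 2 = (m - ε) * r by ring, mul_one] at h3
    refine h3.congr' ?_
    filter_upwards [hV, ev_B H hε hε'] with L hV hB
    have := avg_exp hB.2 (a := r / V L) (by positivity)
    push_cast at this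
    simp only [Function.comp_apply, Pi.div_apply, this]
    generalize ((Sw (n * V L) ⌈(n / 2 - m + ε) * V L⌉₊).card : ℝ) = c
    rw [show r * (c / V L) / 2 = r / V L * c / 2 by ring, div_div (Real.sinh _) (Real.sinh _) c]
    generalize Real.sinh (r / V L / 2) = s
    congr 1
    field_simp
  · have := gen H hf (F := fun L N => 3 * ((n : ℝ) * V L / 2 - N) ^ 2 / (V L : ℝ) ^ 2)
      (K := 3 * (n : ℝ) ^ 2) (by positivity) ?_ (φ := fun y => y ^ 2) (by fun_prop)
      fun ε hε hε' => ?_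
    · refine this.congr fun L => ?_
      congr 1
      rw [mul_sum, sum_div]
      exact sum_congr rfl fun N _ => by ring
    · filter_upwards [hV] with L hV N hN
      rw [abs_of_nonneg (by positivity), div_le_iff₀ (by positivity), mul_assoc, ← mul_pow,
        ← sq_abs]
      gcongr
      exact abs_M_le hN
    · have h1 := tendsto_card H hε hε'
      have h3 := ((h1.pow 2).sub ((vol H).inv_tendsto_atTop.pow 2)).div_const 4
      rw [show ((2 * (m - ε)) ^ 2 - 0 ^ 2) / 4 = (m - ε) ^ 2 by ring] at h3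
      refine h3.congr' ?_
      filter_upwards [hV, ev_B H hε hε', h1.eventually (lt_mem_nhds
        (show 0 < 2 * (m - ε) by linarith))] with L hV hB hc
      have := avg_sq hB.2
      push_cast at this
      rw [← sum_div, ← mul_sum, this]
      have hc' := (div_pos_iff_of_pos_right hV).1 hc
      simp only [Pi.inv_apply]
      generalize ((Sw (n * V L) ⌈(n / 2 - m + ε) * V L⌉₊).card : ℝ) = c at hc' ⊢
      field_simp
      ring

end Crest.Agent.N337.C
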