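import Crest.Agent.N337.C.MoB
import Crest.Agent.N337.Free.Tor
import Crest.Agent.N337.Asy.Basic

/-!
# Row 337, `C.model : ModelStmt` (helper88)
-/

set_option autoImplicit false
set_option linter.unusedSectionVars false

namespace Crest.Agent.N337.C

open Matrix Crest.Agent.N337.Slot Crest.Agent.N337.Slot.SL Crest.MathPhysics.SpinModel

namespace Mo

variable {d L n : ℕ}

theorem ferro_nn (hL : 3 ≤ L) : Ferro (torJ (nnCoupling d) L) := by
  refine ⟨Free.torJ_symm (Asy.coup_nn d), Free.torJ_nonneg (Asy.coup_nn d), fun x => ?_⟩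
  rw [Free.torJ_eq (Asy.coup_nn d)]
  refine Finset.sum_eq_zero fun z _ => ?_
  split_ifs with h
  · unfold nnCoupling
    rw [if_neg]
    intro h0
    have : z = 0 := funext fun a => by
      have h1 : ((z a : ℤ) : ZMod L) = 0 := by simpa [tcast] using congrFun h a
      have h2 : |z a| ≤ 1 := h0 ▸ Finset.single_le_sum (f := fun a => |z a|)
        (fun _ _ => abs_nonneg _) (Finset.mem_univ a)
      refine Int.eq_zero_of_dvd_of_natAbs_lt_natAbs
        ((ZMod.intCast_zmod_eq_zero_iff_dvd _ _).1 h1) ?_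
      have := abs_le.1 h2
      simp only [Int.natAbs_natCast]
      omega
    simp [this] at h0
  · rfl

theorem one_le_J (x : Tor d L) (a : Fin d) :
    1 ≤ torJ (nnCoupling d) L x (x + Pi.single a 1) := by
  have h1 : nnCoupling d (Pi.single a 1) = 1 := by
    unfold nnCoupling
    rw [if_pos]
    rw [Finset.sum_eq_single a] <;> simp +contextual
  rw [Free.torJ_eq (Asy.coup_nn d)]
  refine le_trans (le_of_eq ?_) (Finset.single_le_sum
    (f := fun z => if tcast L z = x + Pi.single a 1 - x then nnCoupling d z else 0)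
    (fun z _ => ?_) ((Free.mem_sp (Asy.coup_nn d)).2 (by rw [h1]; exact one_ne_zero)))
  · rw [if_pos, h1]
    funext b
    by_cases hb : b = a
    · subst hb; simp [tcast]
    · simp [tcast, hb]
  · split_ifs
    exacts [(Asy.coup_nn d).nonneg z, le_rfl]

variable [NeZero L]

/-- a natural vector on the torus -/
def nc (L : ℕ) (v : Fin d → ℕ) : Tor d L := fun a => (v a : ZMod L)

theorem path {ρ : BOp (Tor d L × Fin n)} (h : ρ.PosSemidef) {S : ℝ}
    (h0 : ∀ u v : Tor d L × Fin n, u.1 = v.1 → tt ρ u v = 0)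
    (hS : ∀ a i j, ∑ x, tt ρ (x, i) (x + Pi.single a 1, j) ≤ S) (k : ℕ) :
    ∀ v : Fin d → ℕ, ∑ a, v a = k → ∀ i j,
      ∑ z, tt ρ (z, i) (z + nc L v, j) ≤ 8 * (k : ℝ) ^ 2 * S := by
  induction k with
  | zero =>
    intro v hv i j
    have : nc L v = 0 := funext fun a => by
      simp [nc, Finset.sum_eq_zero_iff.1 hv a (Finset.mem_univ a)]
    rw [Finset.sum_eq_zero fun z _ => h0 _ _ (by simp [this])]
    simp
  | succ k ih =>
    intro v hv i j
    obtain ⟨a, -, ha⟩ := Finset.exists_ne_zero_of_sum_ne_zero (s := Finset.univ) (f := v)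
      (by omega)
    have h1 := Finset.add_sum_erase Finset.univ v (Finset.mem_univ a)
    have h2 := ih (Function.update v a (v a - 1)) (by
      rw [Finset.sum_update_of_mem (Finset.mem_univ a), Finset.sdiff_singleton_eq_erase]
      omega) i i
    set w := nc L (Function.update v a (v a - 1)) with hw
    have e : nc L v = w + Pi.single a 1 := funext fun b => by
      by_cases hb : b = a
      · subst hb
        obtain ⟨m, hm⟩ := Nat.exists_eq_succ_of_ne_zero ha
        simp [hw, nc, hm]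
      · simp [hw, nc, hb]
    have h3 : ∑ z, tt ρ (z + w, i) (z + w + Pi.single a 1, j) ≤ S := by
      have e3 := Equiv.sum_comp (Equiv.addRight w) fun x => tt ρ (x, i) (x + Pi.single a 1, j)
      simp only [Equiv.coe_addRight] at e3
      rw [e3]
      exact hS a i j
    have S0 : 0 ≤ S := (Finset.sum_nonneg fun x _ => tt_nonneg h _ _).trans h3
    have k0 : (0 : ℝ) ≤ k := Nat.cast_nonneg k
    have s0 : (0 : ℝ) < 1 / (k + 1) := by positivity
    have h4 := Finset.sum_le_sum fun z (_ : z ∈ Finset.univ) =>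
      tt_tri h (z, i) (z + w, i) (z + w + Pi.single a 1, j) s0
    rw [Finset.sum_add_distrib, ← Finset.mul_sum, ← Finset.mul_sum, one_div_one_div] at h4
    simp only [e, ← add_assoc]
    have h5 := mul_le_mul_of_nonneg_left h2 (show 0 ≤ 1 + 1 / ((k : ℝ) + 1) by positivity)
    have h6 := mul_le_mul_of_nonneg_left h3 (show 0 ≤ 4 * (1 + ((k : ℝ) + 1)) by positivity)
    have h7 : 1 / ((k : ℝ) + 1) * k ^ 2 ≤ k := by
      rw [div_mul_eq_mul_div, div_le_iff₀ (by positivity)]
      nlinarith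
    have h8 := mul_le_mul_of_nonneg_right h7 S0
    have h9 := mul_nonneg k0 S0
    push_cast
    linarith

/-- the uniform weight on the slots of the cube of side `l` with corner `z` -/
noncomputable def cube (L n l : ℕ) (z : Tor 3 L) (s : Tor 3 L × Fin n) : ℝ :=
  ∑ v : Fin 3 → Fin l, if s.1 = z + nc L (fun a => v a) then 1 / ((n : ℝ) * (l : ℝ) ^ 3) else 0

theorem sum_cube {l : ℕ} (z : Tor 3 L) (f : Tor 3 L × Fin n → ℝ) :
    ∑ s, cube L n l z s * f s = 1 / ((n : ℝ) * (l : ℝ) ^ 3) *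
      ∑ v : Fin 3 → Fin l, ∑ i, f (z + nc L (fun a => v a), i) := by
  simp only [cube, Finset.sum_mul, Finset.mul_sum]
  rw [Finset.sum_comm]
  refine Finset.sum_congr rfl fun v _ => ?_
  rw [Fintype.sum_prod_type, Finset.sum_comm]
  refine Finset.sum_congr rfl fun i _ => ?_
  simp only [ite_mul, zero_mul, Finset.sum_ite_eq', Finset.mem_univ, if_true]

theorem blocks_cube {l : ℕ} (hn : 1 ≤ n) (hl : 1 ≤ l) (hL : l ≤ L) :
    Blocks (cube L n l) (1 / ((n : ℝ) * (l : ℝ) ^ 3)) := by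
  have n0 : (0 : ℝ) < n := by exact_mod_cast hn
  have l0 : (0 : ℝ) < l := by exact_mod_cast hl
  have h0 : ∀ z s, 0 ≤ cube L n l z s := fun z s =>
    Finset.sum_nonneg fun v _ => by split_ifs <;> positivity
  have h1 : ∀ z, ∑ s, cube L n l z s = 1 := fun z => by
    have := sum_cube (n := n) (l := l) z fun _ => 1
    simp only [mul_one, Finset.sum_const, Finset.card_univ, Fintype.card_fin, Fintype.card_fun,
      nsmul_eq_mul] at this
    rw [this]
    push_cast
    field_simp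
  have h2 : ∀ z s, cube L n l z s ≤ 1 / ((n : ℝ) * (l : ℝ) ^ 3) := fun z s => by
    rw [cube, ← Finset.sum_filter, Finset.sum_const, nsmul_eq_mul]
    refine mul_le_of_le_one_left (by positivity) ?_
    rw [Nat.cast_le_one, Finset.card_le_one]
    intro v hv w hw
    have e := ((Finset.mem_filter.1 hv).2.symm.trans (Finset.mem_filter.1 hw).2)
    funext a
    have e1 : ((v a : ℕ) : ZMod L) = ((w a : ℕ) : ZMod L) := congrFun (add_left_cancel e) a
    have e2 := congrArg ZMod.val e1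
    rw [ZMod.val_natCast_of_lt ((v a).2.trans_le hL),
      ZMod.val_natCast_of_lt ((w a).2.trans_le hL)] at e2
    exact Fin.ext e2
  refine ⟨h0, h1, fun z => ?_, fun s => ?_⟩
  · refine (Finset.sum_le_sum fun s _ => (sq _).trans_le
      (mul_le_mul_of_nonneg_left (h2 z s) (h0 z s))).trans (le_of_eq ?_)
    rw [← Finset.sum_mul, h1, one_mul]
  · have : ∑ z, cube L n l z s = 1 / n := by
      simp only [cube]
      rw [Finset.sum_comm]
      simp only [← sub_eq_iff_eq_add, Finset.sum_ite_eq, Finset.mem_univ, if_true,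
        Finset.sum_const, Finset.card_univ, Fintype.card_fin, Fintype.card_fun, nsmul_eq_mul]
      push_cast
      field_simp
    rw [this, Fintype.card_prod, Fintype.card_fin]
    push_cast
    rw [div_div, mul_comm]

end Mo

open Mo in
theorem model : ModelStmt := by
  intro n L _ β hn hL hβ
  have hJ := ferro_nn (d := 3) hL
  obtain ⟨k, k0, hk⟩ := Zs_WW (n := n) hJ β
  refine ⟨WW n _ β, k, k0, good hJ hβ, hk, fun l hl hlL =>
    ⟨cube L n l, blocks_cube hn hl hlL, fun R hR hR' hc => ?_⟩⟩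
  have hB := blocks_cube (L := L) hn hl hlL
  have hρ := RW_psd hJ β hR hc
  have hE := energy hJ hβ hR hR' hc
  have h0 := fun u v (h : u.1 = v.1) => tt_site hJ β R (u := u) (v := v) h
  generalize R * WW n (torJ (nnCoupling 3) L) β = ρ at hρ hE h0 ⊢
  have n0 : (0 : ℝ) < n := by exact_mod_cast hn
  have l0 : (0 : ℝ) < l := by exact_mod_cast hl
  have V0 : (0 : ℝ) < (L : ℝ) ^ 3 := Free.vol_pos
  have hV : (Fintype.card (Tor 3 L) : ℝ) = (L : ℝ) ^ 3 := by rw [Free.card_Tor]; push_cast; rfl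
  rw [hV] at hE
  set S := 8 * ((L : ℝ) ^ 3 * n) / β * ρ.trace + 8 / β with hSdef
  have t0 := hρ.trace_nonneg
  have S0 : 0 ≤ S := by positivity
  have hS : ∀ a i j, ∑ x, tt ρ (x, i) (x + Pi.single a 1, j) ≤ S := by
    intro a i j
    refine le_trans ?_ hE
    have p0 : ∀ u v : Tor 3 L × Fin n, 0 ≤ torJ (nnCoupling 3) L u.1 v.1 * tt ρ u v :=
      fun u v => mul_nonneg (hJ.nonneg _ _) (tt_nonneg hρ _ _)
    rw [Fintype.sum_prod_type]
    refine Finset.sum_le_sum fun x _ => ?_
    refine le_trans ?_ (Finset.single_le_sum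
      (f := fun i' => ∑ v, torJ (nnCoupling 3) L x v.1 * tt ρ (x, i') v)
      (fun i' _ => Finset.sum_nonneg fun v _ => p0 (x, i') v) (Finset.mem_univ i))
    refine le_trans ?_ (Finset.single_le_sum
      (f := fun v : Tor 3 L × Fin n => torJ (nnCoupling 3) L x v.1 * tt ρ (x, i) v)
      (fun v _ => p0 (x, i) v) (Finset.mem_univ (x + Pi.single a 1, j)))
    exact le_mul_of_one_le_left (tt_nonneg hρ _ _) (one_le_J x a)
  have i0 : Fin n := ⟨0, hn⟩
  have hp : ∀ (v : Fin 3 → Fin l) (i : Fin n),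
      ∑ z, tt ρ (z, i0) (z + nc L (fun a => v a), i) ≤ 72 * (l : ℝ) ^ 2 * S := by
    intro v i
    refine (path hρ h0 hS _ _ rfl i0 i).trans (mul_le_mul_of_nonneg_right ?_ S0)
    have h1 : ∑ a, (v a : ℕ) ≤ 3 * l := by
      rw [Fin.sum_univ_three]
      have := (v 0).2; have := (v 1).2; have := (v 2).2
      omega
    have h2 : ((∑ a, (v a : ℕ) : ℕ) : ℝ) ≤ 3 * l := by exact_mod_cast h1
    have h3 := pow_le_pow_left₀ (Nat.cast_nonneg _) h2 2
    linarith
  have e1 : (ρ * (1 - avSq (cube L n l))).trace =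
      1 / (L : ℝ) ^ 3 * ∑ z, (ρ * (1 - Sq (cube L n l z))).trace := by
    simp only [avSq, trace_sub, Matrix.mul_smul, trace_smul, Matrix.mul_sum,
      trace_sum, Finset.sum_sub_distrib, Finset.sum_const, Finset.card_univ, nsmul_eq_mul, hV,
      smul_eq_mul, mul_sub]
    field_simp
  have h2 : ∑ z, (ρ * (1 - Sq (cube L n l z))).trace ≤ 720 * (l : ℝ) ^ 2 * S := by
    refine (Finset.sum_le_sum fun z _ => block_le hρ (hB.nonneg z) (hB.sum z) (z, i0)).trans ?_
    simp only [sum_cube, ← Finset.mul_sum]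
    rw [Finset.sum_comm]
    have h3 : ∑ v : Fin 3 → Fin l, ∑ z, ∑ i, tt ρ (z, i0) (z + nc L (fun a => v a), i) ≤
        ∑ _v : Fin 3 → Fin l, ∑ _i : Fin n, 72 * (l : ℝ) ^ 2 * S :=
      Finset.sum_le_sum fun v _ => by
        rw [Finset.sum_comm]; exact Finset.sum_le_sum fun i _ => hp v i
    simp only [Finset.sum_const, Finset.card_univ, Fintype.card_fin, Fintype.card_fun,
      nsmul_eq_mul] at h3
    have h4 := mul_le_mul_of_nonneg_left h3 (show 0 ≤ 1 / ((n : ℝ) * (l : ℝ) ^ 3) by positivity)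
    have h5 : 1 / ((n : ℝ) * (l : ℝ) ^ 3) * (((l ^ 3 : ℕ) : ℝ) * (n * (72 * (l : ℝ) ^ 2 * S))) =
        72 * (l : ℝ) ^ 2 * S := by
      push_cast; field_simp
    linarith
  rw [e1]
  refine (mul_le_mul_of_nonneg_left h2 (by positivity)).trans ?_
  have e2 : 1 / (L : ℝ) ^ 3 * (720 * (l : ℝ) ^ 2 * S) = 5760 * (n * (l : ℝ) ^ 2 / β * ρ.trace) +
      5760 * ((l : ℝ) ^ 2 / (β * (L : ℝ) ^ 3)) := by
    rw [hSdef]; field_simp; ring
  have e3 : 10 ^ 4 * n * (l : ℝ) ^ 2 / β * ρ.trace + 10 ^ 4 * (l : ℝ) ^ 2 / (β * (L : ℝ) ^ 3) =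
      10000 * (n * (l : ℝ) ^ 2 / β * ρ.trace) + 10000 * ((l : ℝ) ^ 2 / (β * (L : ℝ) ^ 3)) := by
    ring
  have p1 : 0 ≤ n * (l : ℝ) ^ 2 / β * ρ.trace := by positivity
  have p2 : 0 ≤ (l : ℝ) ^ 2 / (β * (L : ℝ) ^ 3) := by positivity
  rw [e2, e3]
  linarith

end Crest.Agent.N337.C
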