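import Crest.Agent.N337.C.Dot
import Crest.Agent.N337.LY.Newton

/-!
# Row 337, task C-Newman: Lee-Yang with real transverse tilts
-/

set_option autoImplicit false
set_option linter.unusedSectionVars false

namespace Crest.Agent.N337.C
open Crest.Agent.N337.Slot Crest.Agent.N337.LY Matrix Finset

namespace Nw
section poly
open Polynomial

/-- the Euler operator -/
noncomputable def eu (Q : ℂ[X]) : ℂ[X] := X * derivative Q
lemma eu_mul (P R : ℂ[X]) : eu (P * R) = eu P * R + P * eu R := by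
  simp only [eu, derivative_mul]; ring
lemma eu_add (P R : ℂ[X]) : eu (P + R) = eu P + eu R := by
  simp only [eu, derivative_add]; ring
lemma eu_sum (s : Finset ℕ) (c : ℕ → ℂ) :
    eu (∑ N ∈ s, monomial N (c N)) = ∑ N ∈ s, monomial N (c N * N) := by
  rw [eu, derivative_sum, mul_sum]
  refine sum_congr rfl fun N _ => ?_
  cases N with
  | zero => simp
  | succ N => rw [derivative_monomial_succ, X_mul_monomial, Nat.cast_succ]

lemma one_fac {z θ : ℝ} (z0 : 0 < z) (h : 2 * θ * z ≤ 1 - z ^ 2) (θ0 : 0 < θ) {a : ℂ}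
    (ha : ‖a‖ = 1) : θ * ((z : ℂ) / (z + a) - (z / (z + a)) ^ 2).re ≤ 1 / 2 - ((z : ℂ) / (z + a)).re := by
  have h1 : a.re ^ 2 + a.im ^ 2 = 1 := by
    have := Complex.sq_norm a
    rw [ha, Complex.normSq_apply] at this
    linarith
  have h2 : a.re ≤ 1 := by nlinarith [sq_nonneg a.im]
  have h2' : -1 ≤ a.re := by nlinarith [sq_nonneg a.im]
  have z1 : z < 1 := by nlinarith [mul_pos θ0 z0]
  have hD : 0 < 1 + z ^ 2 + 2 * z * a.re := by nlinarith [mul_pos (sub_pos.2 z1) (sub_pos.2 z1)]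
  have hN : Complex.normSq (z + a) = 1 + z ^ 2 + 2 * z * a.re := by
    simp only [Complex.normSq_apply, Complex.add_re, Complex.add_im, Complex.ofReal_re,
      Complex.ofReal_im]
    linarith
  have e1 : ((z : ℂ) / (z + a)).re = z * (z + a.re) / (1 + z ^ 2 + 2 * z * a.re) := by
    rw [Complex.div_re, hN]; simp
  have e2 : ((z : ℂ) / (z + a)).im = -(z * a.im) / (1 + z ^ 2 + 2 * z * a.re) := by
    rw [Complex.div_im, hN]; simp [neg_div]
  rw [Complex.sub_re, sq (_ / _), Complex.mul_re, e1, e2, ← sub_nonneg]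
  have h3 : 2 * θ * z * (a.re * (1 + z ^ 2) + 2 * z) ≤ (1 - z ^ 2) * (1 + z ^ 2 + 2 * z * a.re) := by
    rcases le_total 0 (a.re * (1 + z ^ 2) + 2 * z) with h4 | h4
    · refine (mul_le_mul_of_nonneg_right h h4).trans (mul_le_mul_of_nonneg_left ?_ (by nlinarith))
      nlinarith [mul_nonneg (sub_nonneg.2 h2) (sq_nonneg (1 - z))]
    · exact (mul_nonpos_of_nonneg_of_nonpos (by positivity) h4).trans
        (mul_nonneg (by nlinarith) hD.le)
  refine le_of_le_of_eq (div_nonneg (sub_nonneg.2 h3)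
    (show 0 ≤ 2 * (1 + z ^ 2 + 2 * z * a.re) ^ 2 by positivity)) ?_
  have h4 := hD.ne'
  generalize hE : 1 + z ^ 2 + 2 * z * a.re = D at h4 ⊢
  field_simp
  rw [show a.im ^ 2 = 1 - a.re ^ 2 by linarith, ← hE]
  ring

lemma circle {z θ : ℝ} (z0 : 0 < z) (h : 2 * θ * z ≤ 1 - z ^ 2) (θ0 : 0 < θ) (Q : ℂ[X])
    (hQ : ∀ w : ℂ, ‖w‖ ≠ 1 → Q.eval w ≠ 0) :
    θ * ((eu (eu Q)).eval (z : ℂ) / Q.eval (z : ℂ) - ((eu Q).eval (z : ℂ) / Q.eval (z : ℂ)) ^ 2).re ≤
      Q.natDegree / 2 - ((eu Q).eval (z : ℂ) / Q.eval (z : ℂ)).re := by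
  have z1 : ‖(z : ℂ)‖ ≠ 1 := by
    rw [Complex.norm_real, Real.norm_of_nonneg z0.le]
    nlinarith [mul_pos θ0 z0]
  refine poly_ind (fun w => ‖w‖ ≠ 1) (fun Q => θ * ((eu (eu Q)).eval (z : ℂ) / Q.eval (z : ℂ) -
    ((eu Q).eval (z : ℂ) / Q.eval (z : ℂ)) ^ 2).re ≤
      Q.natDegree / 2 - ((eu Q).eval (z : ℂ) / Q.eval (z : ℂ)).re) ?_ ?_ ?_ Q hQ
  · intro c; simp [eu]
  · intro a ha
    simpa [eu] using one_fac z0 h θ0 (a := a) (by simpa using ha)
  · intro P R hP hR ihP ihR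
    have hP0 := hP _ z1
    have hR0 := hR _ z1
    have e1 : (eu (P * R)).eval (z : ℂ) / (P * R).eval (z : ℂ) =
        (eu P).eval (z : ℂ) / P.eval (z : ℂ) + (eu R).eval (z : ℂ) / R.eval (z : ℂ) := by
      simp only [eu_mul, eval_add, eval_mul]; field_simp
    have e2 : (eu (eu (P * R))).eval (z : ℂ) / (P * R).eval (z : ℂ) -
        ((eu P).eval (z : ℂ) / P.eval (z : ℂ) + (eu R).eval (z : ℂ) / R.eval (z : ℂ)) ^ 2 =
        ((eu (eu P)).eval (z : ℂ) / P.eval (z : ℂ) - ((eu P).eval (z : ℂ) / P.eval (z : ℂ)) ^ 2) +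
        ((eu (eu R)).eval (z : ℂ) / R.eval (z : ℂ) -
          ((eu R).eval (z : ℂ) / R.eval (z : ℂ)) ^ 2) := by
      simp only [eu_mul, eu_add, eval_add, eval_mul]; field_simp; ring
    rw [e1, e2, natDegree_mul (fun h => hP0 (by simp [h])) (fun h => hR0 (by simp [h])),
      Complex.add_re, Complex.add_re, Nat.cast_add]
    linarith

/-- the sharp form of Newman's inequality from the circle theorem -/
lemma sharp {ν : ℕ → ℝ} {n : ℕ} (hs : ∀ N, N ≤ n → ν (n - N) = ν N)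
    (h : ∀ w : ℂ, ‖w‖ < 1 → ∑ N ∈ range (n + 1), (ν N : ℂ) * w ^ N ≠ 0) {θ : ℝ} (θ0 : 0 < θ) :
    θ * (mo ν n 0 θ * mo ν n 2 θ - mo ν n 1 θ ^ 2) ≤
      n / 2 * mo ν n 0 θ ^ 2 - mo ν n 1 θ * mo ν n 0 θ := by
  have ev : ∀ (c : ℕ → ℂ) (w : ℂ), (∑ N ∈ range (n + 1), monomial N (c N)).eval w =
      ∑ N ∈ range (n + 1), c N * w ^ N := fun c w => by simp only [eval_finsetSum, eval_monomial]
  have hQ : ∀ w : ℂ, ‖w‖ ≠ 1 → (∑ N ∈ range (n + 1), monomial N (ν N : ℂ)).eval w ≠ 0 := by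
    intro w hw
    rw [ev]
    rcases hw.lt_or_gt with h1 | h1
    · exact h w h1
    have w0 : w ≠ 0 := norm_pos_iff.1 (one_pos.trans h1)
    have : ∑ N ∈ range (n + 1), (ν N : ℂ) * w ^ N =
        w ^ n * ∑ N ∈ range (n + 1), (ν N : ℂ) * w⁻¹ ^ N := by
      rw [← sum_flip, mul_sum]
      refine sum_congr rfl fun N hN => ?_
      have h2 := Nat.lt_succ_iff.1 (mem_range.1 hN)
      rw [hs N h2, pow_sub₀ _ w0 h2, inv_pow, mul_left_comm]
    rw [this]
    exact mul_ne_zero (pow_ne_zero _ w0) (h _ (by rw [norm_inv]; exact inv_lt_one_of_one_lt₀ h1))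
  have hz : 2 * θ * Real.exp (-θ) ≤ 1 - Real.exp (-θ) ^ 2 := by
    have h1 := mul_le_mul_of_nonneg_right (Real.self_le_sinh_iff.2 θ0.le) (Real.exp_pos (-θ)).le
    rw [Real.sinh_eq, div_mul_eq_mul_div, sub_mul, ← Real.exp_add, add_neg_cancel,
      Real.exp_zero] at h1
    linarith
  have h1 := circle (Real.exp_pos (-θ)) hz θ0 _ hQ
  have h2 := hQ (Real.exp (-θ)) (by
    rw [Complex.norm_real, Real.norm_of_nonneg (Real.exp_pos _).le]
    exact (Real.exp_lt_one_iff.2 (neg_lt_zero.2 θ0)).ne)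
  have h3 : ((∑ N ∈ range (n + 1), monomial N (ν N : ℂ)).natDegree : ℝ) ≤ n :=
    Nat.cast_le.2 (natDegree_sum_le_of_forall_le _ _ fun N hN =>
      (natDegree_monomial_le _).trans (Nat.lt_succ_iff.1 (mem_range.1 hN)))
  have e : ∀ k : ℕ, ∑ N ∈ range (n + 1), (ν N : ℂ) * (N : ℂ) ^ k * (Real.exp (-θ) : ℝ) ^ N =
      (mo ν n k θ : ℝ) := fun k => by
    rw [mo, Complex.ofReal_sum]
    refine sum_congr rfl fun N _ => ?_
    rw [show -(θ * N) = N * -θ by ring, Real.exp_nat_mul]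
    simp only [Complex.ofReal_mul, Complex.ofReal_pow, Complex.ofReal_natCast]
  have e0 := e 0
  have e1 := e 1
  have e2 := e 2
  simp only [pow_zero, mul_one, pow_one, sq, ← mul_assoc] at e0 e1 e2
  rw [ev, e0, Complex.ofReal_ne_zero] at h2
  rw [eu_sum, eu_sum, ev, ev, ev, e0, e1, e2, ← Complex.ofReal_div, ← Complex.ofReal_div,
    ← Complex.ofReal_pow, ← Complex.ofReal_sub, Complex.ofReal_re, Complex.ofReal_re] at h1
  have h4 := mul_le_mul_of_nonneg_right (h1.trans (sub_le_sub_right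
    (div_le_div_of_nonneg_right h3 zero_le_two) _)) (sq_nonneg (mo ν n 0 θ))
  refine le_of_eq_of_le ?_ (h4.trans_eq ?_) <;> field_simp
end poly

variable {Λ : Type} [Fintype Λ] [DecidableEq Λ]

/-- the tilt -/
noncomputable abbrev Ot (φ : Λ → ℝ) : BOp Λ := diagonal fun σ => Real.exp (mz φ σ)
/-- the rotated fugacity -/
def Tt (Λ : Type) [Fintype Λ] (τ : ℂ) : COp Λ := tc fun _ i j => if i = j then 1 else τ

lemma pres_Tt {τ : ℂ} (hτ : 0 < τ.re) : Pres (Tt Λ τ) := by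
  refine pres_of_map fun v hv => ?_
  have h1 : ∀ x, 0 < (v x + τ).re * (1 + τ * v x).re + (v x + τ).im * (1 + τ * v x).im := fun x => by
    have := hv x
    have e : (v x + τ).re * (1 + τ * v x).re + (v x + τ).im * (1 + τ * v x).im =
        (v x).re * (1 + τ.re ^ 2 + τ.im ^ 2) + τ.re * (1 + (v x).re ^ 2 + (v x).im ^ 2) := by
      simp; ring
    rw [e]; positivity
  have h2 : ∀ x, 1 + τ * v x ≠ 0 := fun x h => by simpa [h] using h1 x
  refine ⟨∏ x, (1 + τ * v x), fun x => (v x + τ) / (1 + τ * v x),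
    prod_ne_zero_iff.2 fun x _ => h2 x, fun x => ?_, ?_⟩
  · rw [Complex.div_re, ← add_div]
    exact div_pos (h1 x) (Complex.normSq_pos.2 (h2 x))
  · refine (tc_mulVec (fun _ i j => if i = j then 1 else τ)
      fun x j => if j = true then v x else 1).trans (funext fun σ => ?_)
    simp only [Pi.smul_apply, smul_eq_mul, ket, ← prod_mul_distrib]
    refine prod_congr rfl fun x _ => ?_
    cases σ x
    · simp [add_comm]
    · simp [mul_div_cancel₀ _ (h2 x)]

lemma pres_Ot (φ : Λ → ℝ) : Pres (cm (Ot φ)) := by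
  refine pres_of_map fun v hv => ⟨∏ x, (Real.exp (φ x / 2) : ℝ), fun x => Real.exp (-φ x) * v x,
    prod_ne_zero_iff.2 fun x _ => Complex.ofReal_ne_zero.2 (Real.exp_pos _).ne',
    fun x => by rw [Complex.re_ofReal_mul]; exact mul_pos (Real.exp_pos _) (hv x),
    funext fun σ => ?_⟩
  rw [RingHom.mapMatrix_apply, diagonal_map (map_zero _), mulVec_diagonal]
  simp only [Pi.smul_apply, smul_eq_mul, ket, mz, Real.exp_sum, map_prod, ← prod_mul_distrib,
    Complex.ofRealHom_eq_coe]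
  refine prod_congr rfl fun x _ => ?_
  cases σ x
  · simp [div_eq_mul_inv]
  · rw [if_pos rfl, if_pos rfl, if_pos rfl, ← mul_assoc, ← Complex.ofReal_mul, ← Real.exp_add]
    congr 3
    ring

lemma tc_mul (A B : Λ → Bool → Bool → ℂ) :
    tc A * tc B = tc fun x i j => ∑ k, A x i k * B x k j := by
  ext σ τ
  simp only [tc, mul_apply, of_apply]
  rw [prod_univ_sum]
  simp only [Fintype.piFinset_univ, prod_mul_distrib]

lemma Dg_eq (w : ℂ) : (Dg w : COp Λ) = tc fun _ i j => if i = j then (if i = true then w else 1) else 0 := by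
  ext σ τ
  by_cases h : σ = τ
  · subst h; simp [tc, Dg, pow_cnt]
  · obtain ⟨x, hx⟩ := Function.ne_iff.1 h
    rw [Dg, diagonal_apply_ne _ h]
    exact (prod_eq_zero (mem_univ x) (by simp [hx])).symm

lemma Hd_Dg {w : ℂ} (hw : 1 + w ≠ 0) : cm (Hd Λ) * Dg w * cm (Hd Λ) =
    (∏ _x : Λ, (1 + w) / 2) • Tt Λ ((1 - w) / (1 + w)) := by
  rw [Hd, cm_tens, Dg_eq, tc_mul, tc_mul]
  ext σ τ
  simp only [tc, Tt, of_apply, Matrix.smul_apply, smul_eq_mul, ← prod_mul_distrib]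
  refine prod_congr rfl fun x _ => ?_
  have h : ((Real.sqrt 2 : ℝ) : ℂ) ^ 2 = 2 := by
    rw [← Complex.ofReal_pow, Real.sq_sqrt zero_le_two]; rfl
  have h0 : ((Real.sqrt 2 : ℝ) : ℂ) ≠ 0 := fun h0 => by simp [h0] at h
  cases σ x <;> cases τ x <;> simp <;> field_simp <;> rw [h] <;> ring

lemma sum_sec (w : ℂ) : ∑ N ∈ range (Fintype.card Λ + 1), w ^ N • cm (sec N : BOp Λ) = Dg w := by
  ext σ τ
  rw [Matrix.sum_apply]
  by_cases h : σ = τ
  · subst h
    simp [sec, Dg, cnt_le, apply_ite]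
  · simp [sec, Dg, h]

/-- the tilted weights -/
noncomputable def nu (φ : Λ → ℝ) (W : BOp Λ) (N : ℕ) : ℝ := (Hd Λ * (sec N * W) * Hd Λ * Ot φ).trace

lemma no_zero {W : BOp Λ} (hW : W ∈ Adm0 Λ) (φ : Λ → ℝ) {w : ℂ} (hw : ‖w‖ < 1) :
    ∑ N ∈ range (Fintype.card Λ + 1), (nu φ W N : ℂ) * w ^ N ≠ 0 := by
  have h1 : 1 + w ≠ 0 := fun h => by
    rw [eq_neg_of_add_eq_zero_right h] at hw; simp at hw
  have hc := comm_adm0 (X := Hd Λ) comm_Hd_swp (subset_closure hW)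
  have e : ∑ N ∈ range (Fintype.card Λ + 1), (nu φ W N : ℂ) * w ^ N =
      (cm (Hd Λ) * Dg w * cm (Hd Λ) * cm W * cm (Ot φ)).trace := by
    rw [← sum_sec, mul_sum, sum_mul, sum_mul, sum_mul, trace_sum]
    refine sum_congr rfl fun N _ => ?_
    rw [Matrix.mul_smul, Matrix.smul_mul, Matrix.smul_mul, Matrix.smul_mul, trace_smul, ← map_mul,
      ← map_mul, ← map_mul, ← map_mul, cm_trace, smul_eq_mul, mul_comm, nu,
      Matrix.mul_assoc _ (Hd Λ) W, hc.eq]
    simp only [Matrix.mul_assoc]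
  rw [e, Hd_Dg h1, Matrix.smul_mul, Matrix.smul_mul, trace_smul, smul_eq_mul]
  refine mul_ne_zero (prod_ne_zero_iff.2 fun _ _ => div_ne_zero h1 two_ne_zero)
    (trace_ne_of_family (f := fun τ => Tt Λ τ * cm W * cm (Ot φ))
      ((MP.mul (fun σ τ => IsP.prod fun x => ?_) (MP.const _)).mul (MP.const _))
      (fun s hs => ((pres_Tt hs).mul (pres_adm (adm0_le hW))).mul (pres_Ot φ)) ?_ ?_)
  · dsimp only
    split_ifs
    exacts [IsP.const _, ⟨Polynomial.X, fun _ => Polynomial.eval_X⟩]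
  · have e0 : Tt Λ 0 = 1 := by rw [← map_one (cm (Λ := Λ)), ← tens_one, cm_tens]; simp [Tt, apply_ite]
    rw [e0, Matrix.one_mul, ← map_mul, cm_trace, Complex.ofReal_ne_zero, tr_mul_diag]
    refine (sum_pos' (fun σ _ => mul_nonneg (adm_nn (adm0_le hW) σ σ) (Real.exp_pos _).le)
      ⟨fun _ => false, mem_univ _, ?_⟩).ne'
    rw [up_adm0 (subset_closure hW), one_apply_eq, one_mul]
    exact Real.exp_pos _
  · have h2 : w.re * w.re + w.im * w.im < 1 := by
      rw [← Complex.normSq_apply, ← Complex.sq_norm]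
      exact pow_lt_one₀ (norm_nonneg _) hw two_ne_zero
    rw [Complex.div_re, ← add_div]
    exact div_pos (by simp; linarith) (Complex.normSq_pos.2 h1)

lemma tr_conj {U : BOp Λ} (hU : U * U = 1) (X : BOp Λ) : (U * X * U).trace = X.trace := by
  rw [trace_mul_comm, ← Matrix.mul_assoc, hU, Matrix.one_mul]

lemma nu_symm {W : BOp Λ} (hW : W ∈ closure (Adm0 Λ : Set (BOp Λ))) (φ : Λ → ℝ) (N : ℕ)
    (hN : N ≤ Fintype.card Λ) : nu φ W (Fintype.card Λ - N) = nu φ W N := by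
  have h1 : Ot φ * Sg Λ = Sg Λ * Ot φ := by
    rw [Sg_eq, diagonal_mul_diagonal, diagonal_mul_diagonal]; simp only [mul_comm]
  have h2 : Fl Λ * W = W * Fl Λ := (comm_adm0 (X := Fl Λ) (comm_tens_swp _) hW).eq
  rw [nu, nu, ← tr_conj Sg_mul_Sg (Hd Λ * (sec N * W) * _ * _)]
  refine congrArg trace (Eq.symm ?_)
  calc _ = Sg Λ * Hd Λ * sec N * W * (Hd Λ * (Ot φ * Sg Λ)) := by simp only [Matrix.mul_assoc]
    _ = Hd Λ * (Fl Λ * sec N) * W * (Hd Λ * Sg Λ) * Ot φ := by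
      rw [Sg_Hd, h1]; simp only [Matrix.mul_assoc]
    _ = Hd Λ * sec (Fintype.card Λ - N) * (Fl Λ * W) * Fl Λ * Hd Λ * Ot φ := by
      rw [Fl_sec hN, Hd_Sg]; simp only [Matrix.mul_assoc]
    _ = Hd Λ * sec (Fintype.card Λ - N) * W * (Fl Λ * Fl Λ) * Hd Λ * Ot φ := by
      rw [h2]; simp only [Matrix.mul_assoc]
    _ = _ := by rw [Fl_mul_Fl]; simp only [Matrix.mul_assoc, Matrix.one_mul]

lemma mean_zero {ρ : BOp Λ} (h : Commute (Sg Λ) ρ) (φ : Λ → ℝ) : ∑ σ, dg ρ σ * mz φ σ = 0 := by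
  have h1 : Fl Λ * diagonal (mz φ) = -(diagonal (mz φ) * Fl Λ) := by
    ext σ τ
    simp only [mul_diagonal, diagonal_mul, Matrix.neg_apply, Fl_apply]
    split_ifs with h
    · subst h
      simp only [mz, one_mul, mul_one, ← sum_neg_distrib]
      exact sum_congr rfl fun x _ => by by_cases hx : σ x = true <;> simp [hx]
    · simp
  have h2 : Fl Λ * Hd Λ * ρ * Hd Λ = Hd Λ * ρ * Hd Λ * Fl Λ := by
    rw [← Hd_Sg, Matrix.mul_assoc _ _ ρ, h.eq, Matrix.mul_assoc _ _ (Fl Λ), ← Sg_Hd]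
    simp only [Matrix.mul_assoc]
  have h3 := tr_conj Fl_mul_Fl (Hd Λ * ρ * Hd Λ * diagonal (mz φ))
  rw [← Matrix.mul_assoc, ← Matrix.mul_assoc, ← Matrix.mul_assoc, h2, Matrix.mul_assoc _ (Fl Λ), h1,
    Matrix.mul_neg, Matrix.neg_mul, Matrix.mul_assoc, Matrix.mul_assoc _ (Fl Λ), Fl_mul_Fl,
    Matrix.mul_one, trace_neg] at h3
  rw [dg_sum]
  linarith
end Nw
open Nw

/-- **(Newman)** -/
theorem newman : NewmanStmt := by
  intro Λ _ _ W hW φ n ν
  have e : ν = nu φ W := funext fun N => dg_sum _ _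
  refine ⟨e ▸ nu_symm hW.mem φ, fun N => mean_zero (Commute.mul_right (a := Sg Λ) ?_
    (hW.comm (comm_tens_swp _))) φ, fun θ θ0 => ?_⟩
  · rw [Sg_eq]
    exact (diagonal_mul_diagonal _ _).trans ((congrArg _ (funext fun _ => mul_comm _ _)).trans
      (diagonal_mul_diagonal _ _).symm)
  have hc : ∀ k, Continuous fun M : BOp Λ => mo (nu φ M) n k θ := fun k =>
    continuous_finsetSum _ fun N _ => (((((continuous_const.matrix_mul
      (continuous_const.matrix_mul continuous_id)).matrix_mul continuous_const).matrix_mul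
        continuous_const).matrix_trace).mul continuous_const).mul continuous_const
  have h1 : W ∈ {M : BOp Λ | θ * (mo (nu φ M) n 0 θ * mo (nu φ M) n 2 θ - mo (nu φ M) n 1 θ ^ 2) ≤
      n / 2 * mo (nu φ M) n 0 θ ^ 2 - mo (nu φ M) n 1 θ * mo (nu φ M) n 0 θ} :=
    closure_minimal (fun M hM => sharp (nu_symm (subset_closure hM) φ)
    (fun w hw => no_zero hM φ hw) θ0) (isClosed_le
      (continuous_const.mul (((hc 0).mul (hc 2)).sub ((hc 1).pow 2)))
      ((continuous_const.mul ((hc 0).pow 2)).sub ((hc 1).mul (hc 0)))) hW.mem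
  have h2 : ∀ k, 0 ≤ mo ν n k θ := fun k => sum_nonneg fun N _ => mul_nonneg (mul_nonneg
    (sum_nonneg fun σ _ => mul_nonneg (by
      have := psd_conj (psd_mul (sec_psd N) hW.psd (hW.comm (comm_sec_swp N))) (Hd Λ)
      rw [Hd_transpose] at this
      exact this.diag_nonneg) (Real.exp_pos _).le) (by positivity)) (Real.exp_pos _).le
  rw [Set.mem_ofPred_eq, ← e] at h1
  exact le_trans h1 (sub_le_self _ (mul_nonneg (h2 1) (h2 0)))

end Crest.Agent.N337.C
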