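import Crest.Agent.N337.C.Defs
import Crest.Agent.N337.Asy.Basic
import Crest.Agent.N337.Free.Tor
import Crest.Agent.N337.Th.Fin

/-!
# Row 337, S0527 closing: the periodic cubes of the statement (helper5)
-/

set_option autoImplicit false

namespace Crest.Agent.N337.C.Tr

open Crest.MathPhysics.SpinModel Filter Topology Crest.Agent.N337.Free

/-- adjacency coupling on the periodic cube. -/
noncomputable def Jadj (L : ℕ) (x y : Torus 3 L) : ℝ := if TorusAdj x y then 1 else 0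

/-- the identification of sites. -/
def eqv (L : ℕ) : Torus 3 (L + 1) ≃ Tor 3 (L + 1) :=
  Equiv.piCongrRight fun _ => (ZMod.finEquiv (L + 1)).toEquiv

theorem eqv_val (L : ℕ) (x : Torus 3 (L + 1)) (a : Fin 3) : (eqv L x a).val = x a := rfl

theorem eqv_eq {L : ℕ} (x y : Torus 3 (L + 1)) (a : Fin 3) : eqv L x a = eqv L y a ↔ x a = y a :=
  (ZMod.finEquiv (L + 1)).toEquiv.injective.eq_iff

theorem succ_iff {L : ℕ} (hL : 2 ≤ L) (x y : Torus 3 (L + 1)) (a : Fin 3) :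
    ((x a : ℕ) + 1) % (L + 1) = (y a : ℕ) ↔ eqv L y a - eqv L x a = 1 := by
  haveI : Fact (1 < L + 1) := ⟨by omega⟩
  rw [sub_eq_iff_eq_add', ← (ZMod.val_injective (L + 1)).eq_iff, ZMod.val_add, ZMod.val_one,
    eqv_val, eqv_val, eq_comm]

theorem adj_iff {L : ℕ} (hL : 2 ≤ L) (x y : Torus 3 (L + 1)) :
    TorusAdj x y ↔ ∃ z ∈ Asy.units 3, tcast (L + 1) z = eqv L y - eqv L x := by
  have hs : ∀ (a : Fin 3) (c : ℤ), tcast (L + 1) (Pi.single a c) = eqv L y - eqv L x ↔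
      (∀ b, b ≠ a → x b = y b) ∧ eqv L y a - eqv L x a = (c : ZMod (L + 1)) := by
    intro a c
    constructor
    · intro h
      refine ⟨fun b hb => ?_, ?_⟩
      · have := congrFun h b
        simp only [tcast, Pi.single_eq_of_ne hb, Int.cast_zero, Pi.sub_apply] at this
        exact ((eqv_eq y x b).1 (sub_eq_zero.1 this.symm)).symm
      · have := congrFun h a
        simpa only [tcast, Pi.single_eq_same, Pi.sub_apply] using this.symm
    · rintro ⟨h1, h2⟩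
      funext b
      by_cases hb : b = a
      · subst hb; simp only [tcast, Pi.single_eq_same, Pi.sub_apply, h2]
      · simp only [tcast, Pi.single_eq_of_ne hb, Int.cast_zero, Pi.sub_apply]
        exact (sub_eq_zero.2 ((eqv_eq y x b).2 (h1 b hb).symm)).symm
  simp only [Asy.mem_units, Asy.sum_abs_eq_one_iff]
  constructor
  · rintro ⟨a, h1, h2 | h2⟩
    · exact ⟨_, ⟨a, Or.inl rfl⟩, (hs a 1).2 ⟨h1, by simpa using (succ_iff hL x y a).1 h2⟩⟩
    · refine ⟨_, ⟨a, Or.inr rfl⟩, (hs a (-1)).2 ⟨h1, ?_⟩⟩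
      rw [← neg_sub, (succ_iff hL y x a).1 h2]; simp
  · rintro ⟨z, ⟨a, rfl | rfl⟩, h⟩
    · obtain ⟨h1, h2⟩ := (hs a 1).1 h
      exact ⟨a, h1, Or.inl ((succ_iff hL x y a).2 (by simpa using h2))⟩
    · obtain ⟨h1, h2⟩ := (hs a (-1)).1 h
      refine ⟨a, h1, Or.inr ((succ_iff hL y x a).2 ?_)⟩
      rw [← neg_sub, h2]; simp

theorem torJ_eqv {L : ℕ} (hL : 2 ≤ L) (x y : Torus 3 (L + 1)) :
    torJ (nnCoupling 3) (L + 1) (eqv L x) (eqv L y) = Jadj (L + 1) x y := by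
  have hJ := Asy.coup_nn 3
  have hsp : ∀ z, z ∈ sp hJ ↔ z ∈ Asy.units 3 := fun z => by
    rw [mem_sp, ← Finset.mem_coe, ← Asy.support_nn]; rfl
  have h1 : ∀ z ∈ Asy.units 3, nnCoupling 3 z = 1 := fun z hz => if_pos (Asy.mem_units.1 hz)
  have hb : ∀ z ∈ Asy.units 3, ∀ a, |z a| ≤ 1 := fun z hz a => by
    rw [← Asy.mem_units.1 hz]
    exact Finset.single_le_sum (f := fun a => |z a|) (fun _ _ => abs_nonneg _) (Finset.mem_univ a)
  rw [torJ_eq hJ, Jadj]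
  split_ifs with h
  · obtain ⟨z, hz, e⟩ := (adj_iff hL x y).1 h
    rw [Finset.sum_eq_single z, if_pos e, h1 z hz]
    · intro z' hz' hne
      refine if_neg fun e' => hne (funext fun a => ?_)
      have h2 : ((z' a - z a : ℤ) : ZMod (L + 1)) = 0 := by
        have := congrFun (e'.trans e.symm) a
        simp only [tcast] at this
        rw [Int.cast_sub, this, sub_self]
      have h3 := (ZMod.intCast_zmod_eq_zero_iff_dvd _ _).1 h2
      have h4 := abs_le.1 (hb z hz a)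
      have h5 := abs_le.1 (hb z' ((hsp z').1 hz') a)
      have := Int.eq_zero_of_dvd_of_natAbs_lt_natAbs h3 (by simp; omega)
      omega
    · intro hz'; exact absurd ((hsp z).2 hz) hz'
  · exact Finset.sum_eq_zero fun z hz => if_neg fun e =>
      h ((adj_iff hL x y).2 ⟨z, (hsp z).1 hz, e⟩)

theorem ferro_adj {L : ℕ} (hL : 2 ≤ L) (hF : Ferro (torJ (nnCoupling 3) (L + 1))) :
    Ferro (Jadj (L + 1)) :=
  ⟨fun x y => by rw [← torJ_eqv hL, ← torJ_eqv hL, hF.symm],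
    fun x y => by rw [← torJ_eqv hL]; exact hF.nonneg _ _,
    fun x => by rw [← torJ_eqv hL]; exact hF.diag _⟩

theorem Zc_reix {X X' : Type} [Fintype X] [DecidableEq X] [Fintype X'] [DecidableEq X'] {n : ℕ}
    {J : X → X → ℝ} {J' : X' → X' → ℝ} {e : X ≃ X'} (hJ : ∀ x y, J' (e x) (e y) = J x y)
    (β : ℝ) (N : ℕ) : Zc n J β N = Zc n J' β N := by
  simp only [Zc, ← reix_W hJ, reix_apply]
  refine Fintype.sum_equiv (cfg n e) _ _ fun σ => ?_
  have h1 : (cfg n e σ) ∘ e = σ := by funext x; simp [cfg]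
  have h2 : ∑ x, (n - (cfg n e σ x : ℕ)) = ∑ x, (n - (σ x : ℕ)) :=
    (Fintype.sum_equiv e _ _ fun x => by rw [← congrFun h1 x]; rfl).symm
  rw [h1, h2]

theorem ham_eq (L n : ℕ) : torusHamiltonian 3 L n = ham n (Jadj L) := by
  simp only [torusHamiltonian, ham, Jadj]
  congr 1
  refine Finset.sum_congr rfl fun x _ => Finset.sum_congr rfl fun y _ => ?_
  split_ifs <;> simp

theorem press_eq (L n : ℕ) (β h : ℝ) : torusPressure 3 L n β h = press n (Jadj L) β h := by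
  rw [torusPressure, press, Zp, W, hamF, ham_eq]
  congr 2
  simp

theorem gibbs_eq (L n : ℕ) (β : ℝ) (A : Op (Torus 3 L) n) :
    torusGibbs 3 L n β A = (A * W n (Jadj L) 0 β).trace / (Zp n (Jadj L) β 0 : ℂ) := by
  have : (W n (Jadj L) 0 β).trace = (Zp n (Jadj L) β 0 : ℂ) :=
    Complex.ext rfl (by rw [Th.W_trace_im]; simp)
  rw [← this, torusGibbs, W, hamF_zero, ham_eq]

variable {L n : ℕ} {β : ℝ}

theorem card_torus (L : ℕ) : Fintype.card (Torus 3 L) = L ^ 3 := by simp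

theorem mgf_eq (hR : RotStmt) (hL : 2 ≤ L) (hF : Ferro (torJ (nnCoupling 3) (L + 1)))
    (t : Fin 3 → ℝ) :
    torusGibbs 3 (L + 1) n β (NormedSpace.exp (((1 : ℂ) / (((L + 1 : ℕ) : ℂ) ^ 3)) •
      ∑ a : Fin 3, ((t a : ℝ) : ℂ) • torusSpin 3 (L + 1) n a)) =
    (((∑ N ∈ Finset.range (n * (L + 1) ^ 3 + 1), Zc n (torJ (nnCoupling 3) (L + 1)) β N *
      Real.exp (Real.sqrt (∑ a, t a ^ 2) / ((L + 1) ^ 3 : ℕ) *
        ((n : ℝ) * ((L + 1) ^ 3 : ℕ) / 2 - N))) /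
      ∑ N ∈ Finset.range (n * (L + 1) ^ 3 + 1), Zc n (torJ (nnCoupling 3) (L + 1)) β N : ℝ) : ℂ) := by
  obtain ⟨r1, -, r3, -⟩ := hR (Torus 3 (L + 1)) n (Jadj (L + 1)) β (ferro_adj hL hF)
  have hV : (0 : ℝ) < (((L + 1) ^ 3 : ℕ) : ℝ) := by positivity
  have e1 : ((1 : ℂ) / (((L + 1 : ℕ) : ℂ) ^ 3)) •
      ∑ a : Fin 3, ((t a : ℝ) : ℂ) • torusSpin 3 (L + 1) n a =
      ∑ a : Fin 3, ((t a / ((L + 1) ^ 3 : ℕ) : ℝ) : ℂ) •
        ∑ x : Torus 3 (L + 1), siteOpOn x (spinComp n a) := by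
    rw [Finset.smul_sum]
    refine Finset.sum_congr rfl fun a _ => ?_
    rw [smul_smul, torusSpin]
    congr 1; push_cast; ring
  have e2 : Real.sqrt (∑ a, (t a / ((L + 1) ^ 3 : ℕ)) ^ 2) =
      Real.sqrt (∑ a, t a ^ 2) / ((L + 1) ^ 3 : ℕ) := by
    simp only [div_pow]
    rw [← Finset.sum_div, Real.sqrt_div' _ (by positivity), Real.sqrt_sq hV.le]
  rw [gibbs_eq, e1, r3, r1 0, e2]
  simp only [card_torus, Zc_reix (torJ_eqv hL), mul_zero, zero_mul, Real.exp_zero, mul_one]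
  push_cast; rfl

theorem dot_eq' (hR : RotStmt) (hL : 2 ≤ L) (hF : Ferro (torJ (nnCoupling 3) (L + 1))) :
    ((1 : ℂ) / (((L + 1 : ℕ) : ℂ) ^ 3) ^ 2) * ∑ x : Torus 3 (L + 1), ∑ y : Torus 3 (L + 1),
      torusGibbs 3 (L + 1) n β (spinDotOn n x y) =
    (((3 * ∑ N ∈ Finset.range (n * (L + 1) ^ 3 + 1), Zc n (torJ (nnCoupling 3) (L + 1)) β N *
      ((n : ℝ) * ((L + 1) ^ 3 : ℕ) / 2 - N) ^ 2) / (((L + 1) ^ 3 : ℕ) : ℝ) ^ 2 /
      ∑ N ∈ Finset.range (n * (L + 1) ^ 3 + 1), Zc n (torJ (nnCoupling 3) (L + 1)) β N : ℝ) : ℂ) := by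
  obtain ⟨r1, -, -, r4⟩ := hR (Torus 3 (L + 1)) n (Jadj (L + 1)) β (ferro_adj hL hF)
  simp only [gibbs_eq, ← Finset.sum_div]
  rw [r4, r1 0]
  simp only [card_torus, Zc_reix (torJ_eqv hL), mul_zero, zero_mul, Real.exp_zero, mul_one]
  push_cast; ring

theorem press_eq' (hL : 2 ≤ L) (h : ℝ) :
    torusPressure 3 (L + 1) n β h = press n (torJ (nnCoupling 3) (L + 1)) β h := by
  rw [press_eq, press_reix (torJ_eqv hL)]

theorem tendsto_even {α : Type} {g : ℕ → α} {f : ℕ → α} {l : Filter α}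
    (h : ∀ᶠ L in atTop, g (L + 1) = f L) (hf : Tendsto f atTop l) :
    Tendsto (fun k => g (2 * k)) atTop l := by
  have h1 : Tendsto (fun L => g (L + 1)) atTop l := hf.congr' (h.mono fun _ e => e.symm)
  exact ((tendsto_add_atTop_iff_nat 1).1 h1).comp
    (tendsto_id.const_mul_atTop' (by norm_num : 0 < 2))

end Crest.Agent.N337.C.Tr
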