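import Crest.Agent.N337.C.NP
import Crest.Agent.N337.C.Tor
import Crest.Agent.N337.C.Model
import Crest.Agent.N337.C.Key
import Crest.Agent.N337.C.Newman
import Crest.Agent.N337.C.Conc
import Crest.Agent.N337.C.Core
import Crest.Agent.N337.C.Rot
import Crest.Agent.N337.C.Law
import Crest.Agent.N337.C.B1
import Crest.Agent.N337.C.LD
import Crest.Agent.N337.All

/-!
# Row 337, S0527 closing (helper5): `PolarStmt` implies the statement
-/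

set_option autoImplicit false

namespace Crest.Agent.N337.C

open Crest.MathPhysics.SpinModel Filter Topology Crest.Agent.N337.Slot

namespace Fn

/-- canonical weights of the torus of side `L + 1`. -/
noncomputable def ZZ (n : ℕ) (β : ℝ) (L N : ℕ) : ℝ := Zc n (torJ (nnCoupling 3) (L + 1)) β N
/-- volume of the torus of side `L + 1`. -/
def VV (L : ℕ) : ℕ := (L + 1) ^ 3

theorem npAll : NPStmt := np key newman (conc key) core

theorem card_slot (n L : ℕ) : Fintype.card (Tor 3 (L + 1) × Fin n) = n * VV L := by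
  rw [Fintype.card_prod, Free.card_Tor, Fintype.card_fin, VV, mul_comm]

theorem vol : Tendsto VV atTop atTop :=
  (tendsto_pow_atTop (by norm_num : 3 ≠ 0)).comp (tendsto_add_atTop_nat 1)

theorem volR : Tendsto (fun L => (VV L : ℝ)) atTop atTop := tendsto_natCast_atTop_atTop.comp vol

theorem ev_le {a : ℝ} (ha : 0 < a) (b : ℝ) : ∀ᶠ L in atTop, b ≤ a * VV L :=
  (volR.const_mul_atTop ha).eventually_ge_atTop b

theorem ev_ferro : ∀ᶠ L in atTop, 2 ≤ L ∧ Ferro (torJ (nnCoupling 3) (L + 1)) := by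
  obtain ⟨L0, h⟩ := Free.exists_ferro (Asy.coup_nn 3)
  filter_upwards [eventually_ge_atTop 2, eventually_ge_atTop L0] with L h1 h2
  exact ⟨h1, h _ (by omega)⟩

theorem uni {n L : ℕ} {β : ℝ} (hn : 1 ≤ n) (hβ : 0 < β) (hL : 2 ≤ L) :
    Uni (ZZ n β L) (n * VV L) := by
  obtain ⟨W, k, hk, hW, hZ, -⟩ := model n (L + 1) β hn (by omega) hβ
  have : Nonempty (Fin n) := ⟨⟨0, hn⟩⟩
  obtain ⟨u, -⟩ := (key (Tor 3 (L + 1) × Fin n)).2 W hW
  rw [card_slot] at u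
  have e : ∀ N, ZZ n β L N = Zs W N / k := fun N => by rw [hZ N, ZZ]; field_simp
  refine ⟨fun N => ?_, ?_, fun N hN => ?_, fun N N' h1 h2 => ?_⟩
  · rw [e]; exact div_nonneg (u.nonneg N) hk.le
  · rw [e]; exact div_pos u.pos hk
  · rw [e, e, u.symm N hN]
  · rw [e, e]; exact div_le_div_of_nonneg_right (u.mono N N' h1 h2) hk.le

theorem seq {n : ℕ} {β m : ℝ} {p : ℝ → ℝ} (hn : 1 ≤ n) (hβ : 0 < β)
    (hc : ConvexOn ℝ Set.univ p)
    (hp : ∀ h : ℝ, Tendsto (fun L : ℕ => press n (torJ (nnCoupling 3) (L + 1)) β h) atTop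
      (𝓝 (p h)))
    (hd : Tendsto (fun h : ℝ => (p h - p 0) / h) (𝓝[>] 0) (𝓝 m))
    (lo : 0 ≤ (n : ℝ) / 2 - m) (hi : (n : ℝ) / 2 - m ≤ 1 / 32) :
    Seq n β m VV (ZZ n β) p := by
  refine ⟨hn, hβ, vol, ev_ferro.mono fun L h => uni hn hβ h.1, fun h => ?_, hc, hd, lo, hi⟩
  refine (hp h).congr' (ev_ferro.mono fun L hL => ?_)
  obtain ⟨r1, -⟩ := rot (Tor 3 (L + 1)) n _ β hL.2
  simp only [press, r1 h, Free.card_Tor, ZZ, VV]

theorem dens_eq {n L : ℕ} {β : ℝ} (hF : Ferro (torJ (nnCoupling 3) (L + 1))) (h : ℝ) :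
    dens n L β h * VV L =
      mo (ZZ n β L) (n * VV L) 1 (β * h) / mo (ZZ n β L) (n * VV L) 0 (β * h) := by
  obtain ⟨-, r2, -⟩ := rot (Tor 3 (L + 1)) n _ β hF
  have h0 : (((L + 1 : ℕ) : ℝ)) ^ 3 ≠ 0 := by positivity
  rw [dens, r2 h, Free.card_Tor, VV, Nat.cast_pow, div_mul_cancel₀ _ h0]
  rfl

theorem polar {n : ℕ} {β m C u0 c : ℝ} {p : ℝ → ℝ} (hS : Seq n β m VV (ZZ n β) p)
    (hP : ∀ u : ℝ, u0 ≤ u → ∀ ε : ℝ, 0 < ε → ∃ h : ℝ, 0 < h ∧ ∀ᶠ L : ℕ in atTop,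
      dens n L β (u / (β * ((L + 1 : ℕ) : ℝ) ^ 3)) ≤
        dens n L β h + 1 / u + C * Real.exp (-(c * u)) + ε) (u : ℝ) (hu : u0 ≤ u) (ε : ℝ)
    (hε : 0 < ε) : ∀ᶠ L in atTop,
      mo (ZZ n β L) (n * VV L) 1 (u / VV L) / mo (ZZ n β L) (n * VV L) 0 (u / VV L) ≤
        (n / 2 - m + 1 / u + C * Real.exp (-(c * u)) + ε) * VV L := by
  obtain ⟨h, hh, h1⟩ := hP u hu (ε / 2) (by positivity)
  filter_upwards [h1, (ld _ _ _ _ _ _ hS).1 h (ε / 2) hh (by positivity), ev_ferro] with L a b hL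
  have hβ := hS.hβ
  have hV : (0 : ℝ) < VV L := by unfold VV; positivity
  have e : u / (VV L : ℝ) = β * (u / (β * ((L + 1 : ℕ) : ℝ) ^ 3)) := by
    rw [VV, Nat.cast_pow]; field_simp
  rw [e, ← dens_eq hL.2]
  rw [← dens_eq hL.2] at b
  have := mul_le_mul_of_nonneg_right a hV.le
  linarith

theorem nums {n : ℕ} {x : ℝ} (hn : 1 ≤ n) (hx : 10 ^ 12 * (n : ℝ) ^ 4 ≤ x) :
    let l : ℕ := ⌈1200 * n * x ^ 4⌉₊
    let c : ℝ := 1 / x ^ 3 / (2 * n)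
    1 ≤ l ∧ 1 / ((n : ℝ) * (l : ℝ) ^ 3) ≤ c ^ 4 / 10 ^ 8 ∧
      10 ^ 4 * n * (l : ℝ) ^ 2 / x ^ 12 ≤ c / 4 ∧ 1 / x ^ 15 ≤ c ^ 4 / 10 ^ 8 * n / 4 ∧
      1 / x ^ 3 ≤ 1 / 32 ∧ 1 / x ^ 15 ≤ 1 / 32 := by
  intro l c
  have hn' : (1 : ℝ) ≤ n := by exact_mod_cast hn
  have hn4 : (n : ℝ) ≤ (n : ℝ) ^ 4 := le_self_pow₀ hn' (by norm_num)
  have hx1 : 10 ^ 12 * (n : ℝ) ≤ x := by nlinarith
  have hx2 : (10 : ℝ) ^ 12 ≤ x := by nlinarith
  have hx0 : 0 < x := by linarith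
  have hx3 : x ≤ x ^ 3 := le_self_pow₀ (by linarith) (by norm_num)
  have hx15 : x ≤ x ^ 15 := le_self_pow₀ (by linarith) (by norm_num)
  have hy : 1 ≤ (n : ℝ) * x ^ 4 := one_le_mul_of_one_le_of_one_le hn' (one_le_pow₀ (by linarith))
  have l1 : 1200 * (n * x ^ 4) ≤ (l : ℝ) := by rw [← mul_assoc]; exact Nat.le_ceil _
  have l2 : (l : ℝ) ≤ 1201 * (n * x ^ 4) := by
    have := (Nat.ceil_lt_add_one (by positivity : (0 : ℝ) ≤ 1200 * n * x ^ 4)).le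
    linarith
  have hl : (1 : ℝ) ≤ l := by linarith
  refine ⟨by exact_mod_cast hl, ?_, ?_, ?_, ?_, ?_⟩
  · have h3 : (1200 * (n * x ^ 4)) ^ 3 ≤ (l : ℝ) ^ 3 := pow_le_pow_left₀ (by positivity) l1 3
    have e : c ^ 4 / 10 ^ 8 = 1 / (n * (16 * 10 ^ 8 * (n * x ^ 4) ^ 3)) := by
      simp only [c]; field_simp; norm_num
    rw [e]
    refine one_div_le_one_div_of_le (by positivity) (mul_le_mul_of_nonneg_left ?_ (by positivity))
    have : (0 : ℝ) ≤ (n * x ^ 4) ^ 3 := by positivity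
    rw [mul_pow] at h3
    linarith
  · have h2 : (l : ℝ) ^ 2 ≤ (1201 * (n * x ^ 4)) ^ 2 := pow_le_pow_left₀ (by positivity) l2 2
    have e : c / 4 = x ^ 9 / (8 * n) / x ^ 12 := by simp only [c]; field_simp; norm_num
    rw [e]
    refine div_le_div_of_nonneg_right ?_ (by positivity)
    rw [le_div_iff₀ (by positivity)]
    calc 10 ^ 4 * n * (l : ℝ) ^ 2 * (8 * n) ≤ 10 ^ 4 * n * (1201 * (n * x ^ 4)) ^ 2 * (8 * n) := by
          gcongr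
      _ = (8 * 10 ^ 4 * 1201 ^ 2 * (n : ℝ) ^ 4) * x ^ 8 := by ring
      _ ≤ x * x ^ 8 := by
          refine mul_le_mul_of_nonneg_right ?_ (by positivity)
          have : (0 : ℝ) ≤ (n : ℝ) ^ 4 := by positivity
          linarith
      _ = x ^ 9 := by ring
  · have e : c ^ 4 / 10 ^ 8 * n / 4 = 1 / (64 * 10 ^ 8 * n ^ 3 * x ^ 12) := by
      simp only [c]; field_simp; norm_num
    rw [e]
    refine one_div_le_one_div_of_le (by positivity) ?_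
    have h3 : (10 ^ 12 * (n : ℝ)) ^ 3 ≤ x ^ 3 := pow_le_pow_left₀ (by positivity) hx1 3
    calc 64 * 10 ^ 8 * (n : ℝ) ^ 3 * x ^ 12 ≤ x ^ 3 * x ^ 12 := by
          refine mul_le_mul_of_nonneg_right ?_ (by positivity)
          have : (0 : ℝ) ≤ (n : ℝ) ^ 3 := by positivity
          rw [mul_pow] at h3
          linarith
      _ = x ^ 15 := by ring
  · exact one_div_le_one_div_of_le (by norm_num) (by linarith)
  · exact one_div_le_one_div_of_le (by norm_num) (by linarith)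

theorem nonpolar {n : ℕ} {x m : ℝ} (hn : 1 ≤ n) (hx : 10 ^ 12 * (n : ℝ) ^ 4 ≤ x)
    (lo : 0 ≤ (n : ℝ) / 2 - m) (hi : (n : ℝ) / 2 - m ≤ 1 / x ^ 15)
    (hB : ∀ d r : ℝ, 0 < d → 0 < r → ∀ᶠ L in atTop,
      ZZ n (x ^ 12) L ⌈1 / x ^ 3 / 2 * VV L⌉₊ ≤
        (1 + r) * ZZ n (x ^ 12) L ⌈(n / 2 - m + d) * VV L⌉₊ ∨
        ⌈1 / x ^ 3 / 2 * VV L⌉₊ ≤ ⌈(n / 2 - m + d) * VV L⌉₊) (κ : ℝ) (hκ : 0 < κ) :
    ∀ᶠ L in atTop, ∑ N ∈ (Finset.range (n * VV L + 1)).filter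
        (fun N => ⌈1 / x ^ 3 / 2 * VV L⌉₊ < N ∧ 2 * N ≤ n * VV L),
        (ZZ n (x ^ 12) L N - ZZ n (x ^ 12) L ⌈1 / x ^ 3 / 2 * VV L⌉₊) ≤
      κ * ∑ N ∈ Finset.range (n * VV L + 1), ZZ n (x ^ 12) L N := by
  obtain ⟨n1, n2, n3, n4, n5, -⟩ := nums hn hx
  set l : ℕ := ⌈1200 * n * x ^ 4⌉₊
  set c : ℝ := 1 / x ^ 3 / (2 * n) with hc
  have hn' : (1 : ℝ) ≤ n := by exact_mod_cast hn
  have hx0 : 0 < x := lt_of_lt_of_le (by positivity) hx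
  have c0 : 0 < c := by positivity
  have cn : c * n = 1 / x ^ 3 / 2 := by rw [hc]; field_simp
  have c1 : c ≤ 1 / 8 := by nlinarith
  obtain ⟨ε, hε, hNP⟩ := npAll c c0 c1 κ hκ
  set D : ℝ := c ^ 4 / 10 ^ 8 * n with hD
  have D0 : 0 < D := by positivity
  filter_upwards [hB (D / 4) ε (by positivity) hε, eventually_ge_atTop 2, eventually_ge_atTop l,
    ev_le (half_pos D0) 1, ev_le (mul_pos c0 (by linarith : (0 : ℝ) < n)) 1, ev_le hε 1,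
    ev_le (mul_pos hε (pow_pos hx0 12)) (10 ^ 4 * (l : ℝ) ^ 2)] with L b hL hl v1 v2 v3 v4
  obtain ⟨W, k, hk, hW, hZ, hA⟩ := model n (L + 1) (x ^ 12) hn (by omega) (by positivity)
  obtain ⟨a, ha, hE⟩ := hA l n1 (by omega)
  have hV : (0 : ℝ) < VV L := by unfold VV; positivity
  have m1 : ((⌈(n / 2 - m + D / 4) * VV L⌉₊ : ℕ) : ℝ) ≤ D * VV L := by
    have h1 := (Nat.ceil_lt_add_one (by positivity : (0 : ℝ) ≤ (n / 2 - m + D / 4) * VV L)).le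
    have h2 : (n / 2 - m + D / 4) * VV L ≤ (D / 4 + D / 4) * VV L :=
      mul_le_mul_of_nonneg_right (by linarith) hV.le
    linarith
  have m2 : c * n * VV L ≤ ((⌈1 / x ^ 3 / 2 * VV L⌉₊ : ℕ) : ℝ) := by rw [cn]; exact Nat.le_ceil _
  have m3 : ((⌈1 / x ^ 3 / 2 * VV L⌉₊ : ℕ) : ℝ) ≤ 2 * (c * n * VV L) := by
    have h1 := (Nat.ceil_lt_add_one (by positivity : (0 : ℝ) ≤ 1 / x ^ 3 / 2 * VV L)).le
    rw [← cn] at h1 ⊢
    linarith
  have hZ' : ∀ N, Zs W N = k * ZZ n (x ^ 12) L N := hZ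
  have := hNP _ W hW _ a _ ⌈(n / 2 - m + D / 4) * VV L⌉₊ ⌈1 / x ^ 3 / 2 * VV L⌉₊ ha n2
    (by rw [card_slot, Nat.cast_mul, ← mul_assoc]; exact m1)
    (by rw [card_slot]; push_cast; linarith) (by rw [card_slot]; push_cast; linarith)
    (by rw [card_slot]; push_cast; nlinarith [mul_pos hε hV]) ?_ ?_
  · simp only [card_slot, hZ', ← mul_sub, ← Finset.mul_sum] at this
    rw [mul_left_comm] at this
    exact le_of_mul_le_mul_left this hk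
  · rcases b with b | b
    · rw [hZ', hZ', mul_left_comm]; exact mul_le_mul_of_nonneg_left b hk.le
    · exfalso
      have b' : ((⌈1 / x ^ 3 / 2 * VV L⌉₊ : ℕ) : ℝ) ≤ ((⌈(n / 2 - m + D / 4) * VV L⌉₊ : ℕ) : ℝ) := by
        exact_mod_cast b
      have h3 : c ^ 3 ≤ 1 := pow_le_one₀ c0.le (by linarith)
      have h4 : D < c * n := by
        have : c ^ 4 / 10 ^ 8 < c := by nlinarith
        exact mul_lt_mul_of_pos_right this (by linarith)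
      have := mul_lt_mul_of_pos_right h4 hV
      linarith
  · intro R h1 h2 h3
    have t0 : 0 ≤ (R * W).trace := tr_mul_nonneg h1 hW.psd
    have h4 := hE R h1 h2 h3
    have h5 : 10 ^ 4 * (l : ℝ) ^ 2 / (x ^ 12 * ((L + 1 : ℕ) : ℝ) ^ 3) ≤ ε := by
      rw [div_le_iff₀ (by positivity), ← Nat.cast_pow (L + 1), ← mul_assoc]; exact v4
    have := mul_le_mul_of_nonneg_right n3 t0
    linarith

end Fn

open Fn in
/-- **Closing theorem**: the polar bound implies the statement S0527. -/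
theorem fin (hP : PolarStmt) (n : ℕ) (hn : 1 ≤ n) :
    ∃ (p : ℝ → ℝ → ℝ) (m : ℝ → ℝ), IsPeriodicPressure 3 n p ∧ IsMagnetization p m ∧
      ∃ β₀ : ℝ, 0 < β₀ ∧ ∀ β : ℝ, β₀ ≤ β →
        0 < m β ∧
        (∀ t : Fin 3 → ℝ, t ≠ 0 →
          Tendsto (fun k : ℕ => torusGibbs 3 (2 * k) n β
              (NormedSpace.exp (((1 : ℂ) / (((2 * k : ℕ) : ℂ) ^ 3)) •
                ∑ a : Fin 3, ((t a : ℝ) : ℂ) • torusSpin 3 (2 * k) n a)))
            atTop (𝓝 ((Real.sinh (m β * Real.sqrt (∑ a, t a ^ 2)) /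
              (m β * Real.sqrt (∑ a, t a ^ 2)) : ℝ) : ℂ))) ∧
        Tendsto (fun k : ℕ => ((1 : ℂ) / (((2 * k : ℕ) : ℂ) ^ 3) ^ 2) *
            ∑ x : Torus 3 (2 * k), ∑ y : Torus 3 (2 * k), torusGibbs 3 (2 * k) n β (spinDotOn n x y))
          atTop (𝓝 (((m β) ^ 2 : ℝ) : ℂ)) := by
  have hJ := Asy.coup_nn 3
  obtain ⟨p, m, h1, h2, h3, h4⟩ := thermo 3 n _ (by norm_num) hn hJ
  obtain ⟨β1, hβ1, hS⟩ := All.sand 3 n _ le_rfl hn hJ p m h1 h2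
  obtain ⟨β2, hP⟩ := hP n hn
  refine ⟨p, m, fun β hβ h => Tr.tendsto_even (g := fun L => torusPressure 3 L n β h)
    (ev_ferro.mono fun L hL => Tr.press_eq' hL.1 h) (h4 β hβ h), h2,
    max β1 (max β2 ((10 ^ 12 * (n : ℝ) ^ 4) ^ 12)), lt_max_of_lt_left (by linarith),
    fun β hβ => ?_⟩
  obtain ⟨b1, b2, b3⟩ : β1 ≤ β ∧ β2 ≤ β ∧ (10 ^ 12 * (n : ℝ) ^ 4) ^ 12 ≤ β := by
    simpa only [max_le_iff] using hβ
  have β0 : 0 < β := by linarith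
  obtain ⟨x, hx0, rfl⟩ : ∃ x : ℝ, 0 < x ∧ β = x ^ 12 :=
    ⟨β ^ ((12 : ℕ) : ℝ)⁻¹, by positivity, (Real.rpow_inv_natCast_pow β0.le (by norm_num)).symm⟩
  have hx : 10 ^ 12 * (n : ℝ) ^ 4 ≤ x :=
    (pow_le_pow_iff_left₀ (by positivity) hx0.le (by norm_num)).1 b3
  have r : ∀ (k : ℕ) (s : ℝ), 12 * s = k → (x ^ 12) ^ (-s) = 1 / x ^ k := fun k s e => by
    rw [Real.rpow_neg β0.le, ← Real.rpow_natCast, ← Real.rpow_mul hx0.le, one_div]
    push_cast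
    rw [e, Real.rpow_natCast]
  obtain ⟨s1, s2, -⟩ := hS _ b1
  obtain ⟨C, u0, hP⟩ := hP _ b2
  rw [r 15 _ (by norm_num)] at s1 s2
  rw [r 3 _ (by norm_num)] at hP
  obtain ⟨-, -, -, -, n5, n6⟩ := nums hn hx
  have hn' : (1 : ℝ) ≤ n := by exact_mod_cast hn
  have lo : 0 ≤ (n : ℝ) / 2 - m (x ^ 12) := by
    refine le_trans (mul_nonneg (by linarith) ?_) s2
    refine MeasureTheory.integral_nonneg fun q => ?_
    have := Asy.eps_nonneg n hJ q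
    have h5 : 0 ≤ x ^ 12 * (1 + 1 / x ^ 15) * (eps n (nnCoupling 3) q + 0) := by positivity
    have := Real.one_le_exp h5
    have := Real.pi_pos
    exact div_nonneg zero_le_one (mul_nonneg (by positivity) (by linarith))
  have hi : (n : ℝ) / 2 - m (x ^ 12) ≤ 1 / x ^ 15 := s1
  have hQ := seq hn β0 (h3 _ β0) (h4 _ β0) (h2 _ β0) lo (by linarith)
  have hB := N337.C.b1 ld _ _ _ _ _ _ hQ (1 / x ^ 3) C u0 (by positivity) (by linarith) (polar hQ hP)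
  have h8 : ∀ᶠ L in atTop, 8 * ⌈1 / x ^ 3 / 2 * VV L⌉₊ ≤ VV L := by
    filter_upwards [ev_le (by norm_num : (0 : ℝ) < 1 / 16) 1] with L hL
    have hV : (0 : ℝ) < VV L := by unfold VV; positivity
    have a1 := (Nat.ceil_lt_add_one (by positivity : (0 : ℝ) ≤ 1 / x ^ 3 / 2 * VV L)).le
    have a2 := mul_le_mul_of_nonneg_right n5 hV.le
    have : (8 : ℝ) * (⌈1 / x ^ 3 / 2 * VV L⌉₊ : ℕ) ≤ VV L := by linarith
    exact_mod_cast this
  obtain ⟨w1, w2⟩ := law ld _ _ _ _ _ _ hQ _ h8 hB (nonpolar hn hx lo hi hB)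
  refine ⟨by linarith, fun t ht => ?_, ?_⟩
  · have ht' : 0 < Real.sqrt (∑ a, t a ^ 2) := by
      obtain ⟨a, ha⟩ := Function.ne_iff.1 ht
      exact Real.sqrt_pos.2 (Finset.sum_pos' (fun _ _ => sq_nonneg _)
        ⟨a, Finset.mem_univ a, by have : t a ≠ 0 := ha; positivity⟩)
    exact Tr.tendsto_even (g := fun L => torusGibbs 3 L n (x ^ 12)
      (NormedSpace.exp (((1 : ℂ) / (((L : ℕ) : ℂ) ^ 3)) •
        ∑ a : Fin 3, ((t a : ℝ) : ℂ) • torusSpin 3 L n a)))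
      (ev_ferro.mono fun L hL => Tr.mgf_eq rot hL.1 hL.2 t)
      ((Complex.continuous_ofReal.tendsto _).comp (w1 _ ht'))
  · exact Tr.tendsto_even (g := fun L => ((1 : ℂ) / (((L : ℕ) : ℂ) ^ 3) ^ 2) *
      ∑ y : Torus 3 L, ∑ z : Torus 3 L, torusGibbs 3 L n (x ^ 12) (spinDotOn n y z))
      (ev_ferro.mono fun L hL => Tr.dot_eq' rot hL.1 hL.2)
      ((Complex.continuous_ofReal.tendsto _).comp w2)

end Crest.Agent.N337.C
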