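import Crest.Agent.N337.C.Defs
import Crest.Agent.N337.Slot.Sym

/-!
# Row 337, C-Model, part A: real matrices (helper88)
-/

set_option autoImplicit false
set_option linter.unusedSectionVars false

namespace Crest.Agent.N337.C.Mo

open Matrix NormedSpace Crest.Agent.N337.Slot Crest.Agent.N337.Slot.SL

section mat
variable {m k : Type} [Fintype m] [Fintype k] [DecidableEq m] [DecidableEq k]

theorem psd_tmul (A : Matrix k m ℝ) : (Aᵀ * A).PosSemidef := by
  have := posSemidef_conjTranspose_mul_self A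
  rwa [conjTranspose_eq_transpose_of_trivial] at this

theorem psd_conj {A : Matrix k k ℝ} (h : A.PosSemidef) (B : Matrix k m ℝ) :
    (Bᵀ * A * B).PosSemidef := by
  have := h.conjTranspose_mul_mul_same B
  rwa [conjTranspose_eq_transpose_of_trivial] at this

theorem psd_symm {A : Matrix m m ℝ} (h : A.PosSemidef) : Aᵀ = A := by
  have := h.isHermitian.eq
  rwa [conjTranspose_eq_transpose_of_trivial] at this

open scoped MatrixOrder in
theorem tr_nonneg {A B : Matrix m m ℝ} (hA : A.PosSemidef) (hB : B.PosSemidef) :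
    0 ≤ (A * B).trace := by
  obtain ⟨C, rfl⟩ := CStarAlgebra.nonneg_iff_eq_star_mul_self.mp hA.nonneg
  rw [Matrix.mul_assoc, trace_mul_comm]
  exact (hB.mul_mul_conjTranspose_same C).trace_nonneg

open scoped Matrix.Norms.Operator in
theorem exp_inter {A : Matrix m m ℝ} {B : Matrix k k ℝ} {U : Matrix m k ℝ} (h : A * U = U * B) :
    exp A * U = U * exp B := by
  have hp : ∀ j : ℕ, A ^ j * U = U * B ^ j := fun j => by
    induction j with
    | zero => simp
    | succ j ih => rw [pow_succ', pow_succ', Matrix.mul_assoc, ih, ← Matrix.mul_assoc, h,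
        Matrix.mul_assoc]
  have h1 := (exp_series_hasSum_exp' (𝕂 := ℝ) A).map
    (AddMonoidHom.mk' (fun M : Matrix m m ℝ => M * U) fun a b => Matrix.add_mul a b U)
    (continuous_id.matrix_mul continuous_const)
  have h2 := (exp_series_hasSum_exp' (𝕂 := ℝ) B).map
    (AddMonoidHom.mk' (fun M : Matrix k k ℝ => U * M) fun a b => Matrix.mul_add U a b)
    (continuous_const.matrix_mul continuous_id)
  have h3 : HasSum (fun j : ℕ => ((j.factorial : ℝ)⁻¹ • A ^ j) * U) (exp A * U) := h1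
  have h4 : HasSum (fun j : ℕ => U * ((j.factorial : ℝ)⁻¹ • B ^ j)) (U * exp B) := h2
  simp only [Matrix.smul_mul, Matrix.mul_smul, hp] at h3 h4
  exact h3.unique h4

theorem exists_diag {G : Matrix m m ℝ} (h : Gᵀ = G) :
    ∃ (Q : Matrix m m ℝ) (d : m → ℝ), Q * Qᵀ = 1 ∧ G * Q = Q * diagonal d := by
  have hG : G.IsHermitian := by
    rw [IsHermitian, conjTranspose_eq_transpose_of_trivial, h]
  have h1 := hG.spectral_theorem
  rw [Unitary.conjStarAlgAut_apply] at h1
  have e : star (hG.eigenvectorUnitary : Matrix m m ℝ) = (hG.eigenvectorUnitary : Matrix m m ℝ)ᵀ :=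
    conjTranspose_eq_transpose_of_trivial _
  refine ⟨hG.eigenvectorUnitary, hG.eigenvalues, ?_, ?_⟩
  · rw [← e]; exact Unitary.mul_star_self_of_mem hG.eigenvectorUnitary.2
  · have h2 := congrArg (· * (hG.eigenvectorUnitary : Matrix m m ℝ)) h1
    simp only [Matrix.mul_assoc] at h2
    rw [Unitary.star_mul_self_of_mem hG.eigenvectorUnitary.2, Matrix.mul_one] at h2
    exact h2

/-- `-G e^{βG} ≤ a e^{βG} + (2/β) e^{-βa/2}` -/
theorem psd_energy {G : Matrix m m ℝ} (h : Gᵀ = G) {β a : ℝ} (hβ : 0 < β) (ha : 0 ≤ a) :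
    (a • exp (β • G) + (2 / β * Real.exp (-(β * a / 2))) • (1 : Matrix m m ℝ)
      + exp (β • G) * G).PosSemidef := by
  obtain ⟨Q, d, hQ, hd⟩ := exists_diag h
  have h1 : exp (β • G) * Q = Q * diagonal fun i => Real.exp (β * d i) := by
    rw [exp_inter (B := diagonal fun i => β * d i), Matrix.exp_diagonal]
    · congr 2; funext i; rw [Pi.coe_exp, Real.exp_eq_exp_ℝ]
    · rw [Matrix.smul_mul, hd, ← Matrix.mul_smul, ← Matrix.diagonal_smul]; rfl
  have h2 : (a • exp (β • G) + (2 / β * Real.exp (-(β * a / 2))) • (1 : Matrix m m ℝ)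
      + exp (β • G) * G) = Qᵀᵀ * diagonal (fun i => a * Real.exp (β * d i) +
        2 / β * Real.exp (-(β * a / 2)) + Real.exp (β * d i) * d i) * Qᵀ := by
    rw [← Matrix.mul_one (_ + _), ← hQ, ← Matrix.mul_assoc, transpose_transpose]
    congr 1
    rw [hQ, Matrix.add_mul, Matrix.add_mul, Matrix.smul_mul, Matrix.smul_mul, Matrix.mul_assoc, hd,
      ← Matrix.mul_assoc, h1, Matrix.one_mul, Matrix.mul_assoc, diagonal_mul_diagonal]
    ext i j
    simp only [Matrix.add_apply, Matrix.smul_apply, Matrix.mul_diagonal, smul_eq_mul]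
    ring
  rw [h2]
  refine psd_conj (PosSemidef.diagonal fun i => ?_) _
  have e0 := Real.exp_pos (β * d i)
  have c0 : 0 < 2 / β * Real.exp (-(β * a / 2)) := by positivity
  show 0 ≤ a * Real.exp (β * d i) + 2 / β * Real.exp (-(β * a / 2)) + Real.exp (β * d i) * d i
  rcases le_total (-a) (d i) with hx | hx
  · nlinarith [mul_nonneg e0.le (show 0 ≤ a + d i by linarith)]
  · have b1 : -(β * d i / 2) ≤ Real.exp (-(β * d i / 2)) := by
      linarith [Real.add_one_le_exp (-(β * d i / 2))]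
    have b2 : Real.exp (β * d i) * Real.exp (-(β * d i / 2)) ≤ Real.exp (-(β * a / 2)) := by
      rw [← Real.exp_add]
      exact Real.exp_le_exp.2 (by nlinarith)
    have b3 := (mul_le_mul_of_nonneg_left b1 e0.le).trans b2
    have b4 := mul_le_mul_of_nonneg_left b3 (show 0 ≤ 2 / β by positivity)
    have b5 : 2 / β * (Real.exp (β * d i) * -(β * d i / 2)) = -(Real.exp (β * d i) * d i) := by
      field_simp
    have b6 := mul_nonneg ha e0.le
    linarith

/-- the seminorm `|A|² = tr (ρ Aᵀ A)` -/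
def sn (ρ A : Matrix m m ℝ) : ℝ := (ρ * (Aᵀ * A)).trace

theorem sn_nonneg {ρ : Matrix m m ℝ} (h : ρ.PosSemidef) (A : Matrix m m ℝ) : 0 ≤ sn ρ A :=
  tr_nonneg h (psd_tmul A)

theorem sn_add {ρ : Matrix m m ℝ} (h : ρ.PosSemidef) (A B : Matrix m m ℝ) {s : ℝ} (hs : 0 < s) :
    sn ρ (A + B) ≤ (1 + s) * sn ρ A + (1 + 1 / s) * sn ρ B := by
  have h0 := sn_nonneg h (s • A - B)
  simp only [sn, transpose_add, transpose_sub, transpose_smul, Matrix.add_mul, Matrix.mul_add,
    Matrix.sub_mul, Matrix.mul_sub, Matrix.smul_mul, Matrix.mul_smul, trace_add, trace_sub,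
    trace_smul, smul_eq_mul] at h0 ⊢
  have h1 := mul_nonneg (one_div_pos.2 hs).le h0
  have e : 1 / s * s = 1 := one_div_mul_cancel hs.ne'
  set a := (ρ * (Aᵀ * A)).trace
  set b := (ρ * (Bᵀ * A)).trace
  set c := (ρ * (Aᵀ * B)).trace
  set d := (ρ * (Bᵀ * B)).trace
  have : 1 / s * (s * (s * a - b) - (s * c - d)) = s * a - b - c + 1 / s * d := by
    linear_combination (s * a - b - c) * e
  linarith

theorem sn_orth (ρ A : Matrix m m ℝ) {T : Matrix m m ℝ} (hT : Tᵀ * T = 1) :
    sn ρ (T * A) = sn ρ A := by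
  rw [sn, sn, transpose_mul, Matrix.mul_assoc Aᵀ, ← Matrix.mul_assoc Tᵀ, hT, Matrix.one_mul]

end mat

section swap
variable {Λ : Type} [Fintype Λ] [DecidableEq Λ]

/-- the energy of a pair of slots -/
def tt (ρ : BOp Λ) (x y : Λ) : ℝ := (ρ * (1 - swp x y)).trace

theorem swp_orth (x y : Λ) : (swp x y)ᵀ * swp x y = 1 := by rw [swp_transpose, swp_mul_self]

theorem sn_swp (ρ : BOp Λ) (x y : Λ) : sn ρ (1 - swp x y) = 2 * tt ρ x y := by
  have : (1 - swp x y)ᵀ * (1 - swp x y) = (2 : ℝ) • (1 - swp x y : BOp Λ) := by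
    rw [transpose_sub, transpose_one, swp_transpose, Matrix.sub_mul, Matrix.mul_sub,
      Matrix.mul_sub, swp_mul_self, Matrix.one_mul, Matrix.one_mul, Matrix.mul_one, two_smul]
    abel
  rw [sn, this, Matrix.mul_smul, trace_smul, smul_eq_mul, tt]

theorem tt_nonneg {ρ : BOp Λ} (h : ρ.PosSemidef) (x y : Λ) : 0 ≤ tt ρ x y := by
  have := sn_nonneg h (1 - swp x y)
  rw [sn_swp] at this
  linarith

theorem tt_comm (ρ : BOp Λ) (x y : Λ) : tt ρ x y = tt ρ y x := by rw [tt, swp_comm, tt]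

theorem tt_self (ρ : BOp Λ) (x : Λ) : tt ρ x x = 0 := by simp [tt, swp_self]

theorem tt_tri {ρ : BOp Λ} (h : ρ.PosSemidef) (x y z : Λ) {s : ℝ} (hs : 0 < s) :
    tt ρ x z ≤ (1 + s) * tt ρ x y + 4 * (1 + 1 / s) * tt ρ y z := by
  have h1 := tt_nonneg h x y
  have h2 := tt_nonneg h y z
  have s1 : 0 < 1 / s := one_div_pos.2 hs
  by_cases hxz : x = z
  · rw [hxz, tt_self]; rw [hxz] at h1; positivity
  by_cases hxy : x = y
  · rw [hxy, tt_self]; nlinarith [mul_nonneg s1.le h2]
  have e1 : swp y z * swp x y = swp x z * swp y z := by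
    rw [swp_conj, Equiv.swap_apply_of_ne_of_ne hxy hxz, Equiv.swap_apply_left]
  have e2 : 1 - swp x z = swp y z * (1 - swp x y) +
      ((1 - swp y z) + swp y z * (swp x y * (1 - swp y z))) := by
    have : swp y z * (swp x y * swp y z) = swp x z := by
      rw [← Matrix.mul_assoc, e1, Matrix.mul_assoc, swp_mul_self, Matrix.mul_one]
    simp only [Matrix.mul_sub, Matrix.mul_one, this]
    abel
  have h3 := sn_add h (swp y z * (1 - swp x y))
    ((1 - swp y z) + swp y z * (swp x y * (1 - swp y z))) hs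
  have h4 := sn_add h (1 - swp y z) (swp y z * (swp x y * (1 - swp y z))) one_pos
  rw [← e2, sn_orth _ _ (swp_orth y z), sn_swp, sn_swp] at h3
  rw [sn_orth _ _ (swp_orth y z), sn_orth _ _ (swp_orth x y), sn_swp] at h4
  have h5 := mul_le_mul_of_nonneg_left h4 (show 0 ≤ 1 + 1 / s by linarith)
  linarith

/-- the block energy through a base slot -/
theorem block_le {ρ : BOp Λ} (h : ρ.PosSemidef) {a : Λ → ℝ} (a0 : ∀ s, 0 ≤ a s)
    (a1 : ∑ s, a s = 1) (b : Λ) : (ρ * (1 - Sq a)).trace ≤ 10 * ∑ s, a s * tt ρ b s := by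
  have e : (1 : BOp Λ) - Sq a = ∑ s, ∑ s', (a s * a s') • (1 - swp s s') := by
    simp only [smul_sub, Finset.sum_sub_distrib, ← Finset.sum_smul, ← Finset.mul_sum, a1, mul_one,
      one_smul, Sq]
  rw [e]
  simp only [Matrix.mul_sum, trace_sum, Matrix.mul_smul, trace_smul, smul_eq_mul]
  have h1 : ∀ s s', a s * a s' * (ρ * (1 - swp s s')).trace ≤
      2 * (a s * tt ρ b s) * a s' + 8 * (a s * (a s' * tt ρ b s')) := fun s s' => by
    have h2 := tt_tri h s b s' one_pos
    rw [tt_comm ρ s b] at h2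
    have h3 := mul_le_mul_of_nonneg_left h2 (mul_nonneg (a0 s) (a0 s'))
    unfold tt at h3 ⊢
    linarith
  refine (Finset.sum_le_sum fun s _ => Finset.sum_le_sum fun s' _ => h1 s s').trans (le_of_eq ?_)
  simp only [Finset.sum_add_distrib, ← Finset.mul_sum, ← Finset.sum_mul, a1]
  ring

end swap

end Crest.Agent.N337.C.Mo
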