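import Crest.Agent.N337.C.Dot

/-!
# Row 337, S0527 closing: the non-polar sectors (assembly, helper5)
-/

set_option autoImplicit false

namespace Crest.Agent.N337.C

open Crest.Agent.N337.Slot Matrix

theorem np (hK : KeyStmt) (hN : NewmanStmt) (hC : ConcStmt) (hCo : CoreStmt) : NPStmt := by
  intro c hc hc8 κ hκ
  obtain ⟨ε, hε, hcore⟩ := hCo c hc hc8 κ hκ
  refine ⟨min (ε / 10) 1, by positivity, ?_⟩
  intro Λ _ _ W hW Z _ _ a δ Nm N1 ha n hδ hNm h1 h2 hn hflat hen
  set e := min (ε / 10) 1 with he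
  have he1 : e ≤ ε / 10 := min_le_left _ _
  have he2 : e ≤ 1 := min_le_right _ _
  have he0 : 0 < e := by positivity
  have hn0 : (0 : ℝ) < n := by
    rcases (Nat.cast_nonneg n : (0 : ℝ) ≤ n).eq_or_lt with h | h
    · rw [← h] at hn; linarith
    · exact h
  have hn1 : (1 : ℝ) ≤ n := by exact_mod_cast (Nat.cast_pos.1 hn0 : 0 < n)
  have : Nonempty Λ := Fintype.card_pos_iff.1 (Nat.cast_pos.1 hn0)
  obtain ⟨hK1, hK2⟩ := hK Λ
  obtain ⟨hU, htr, hsum, hkey⟩ := hK2 W hW
  have hc3 : c ^ 3 ≤ 1 := pow_le_one₀ hc.le (by linarith)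
  have hc4 : c ^ 4 / 10 ^ 8 ≤ c / 16 := by
    have : c ^ 4 = c * c ^ 3 := by ring
    rw [this]; nlinarith
  have hNm' : (Nm : ℝ) ≤ c * n / 16 := by nlinarith
  have h2N1 : 2 * N1 ≤ n := by
    have : (2 * N1 : ℝ) ≤ n := by nlinarith
    exact_mod_cast this
  have hm1 : Nm ≤ N1 := by
    have : (Nm : ℝ) ≤ N1 := by nlinarith
    exact_mod_cast this
  have hth : ∀ N : ℕ, 2 * N ≤ n → th n N ≤ 1 - (N : ℝ) / n ∧ 1 - 4 * ((N : ℝ) / n) ≤ th n N := by
    intro N hN
    have hν : (N : ℝ) / n ≤ 1 / 2 := by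
      rw [div_le_iff₀ hn0]
      have : (2 * N : ℝ) ≤ n := by exact_mod_cast hN
      linarith
    have hν0 : 0 ≤ (N : ℝ) / n := by positivity
    have e1 : 2 * (N : ℝ) / (n : ℝ) ^ 2 = 2 * ((N : ℝ) / n) / n := by field_simp
    have e2 : 2 * ((N : ℝ) / n) / n ≤ 2 * ((N : ℝ) / n) := div_le_self (by positivity) hn1
    have e3 : 0 ≤ 2 * ((N : ℝ) / n) / n := by positivity
    rw [th, e1]
    constructor <;> nlinarith
  obtain ⟨t1, -⟩ := hth N1 h2N1
  obtain ⟨t2, t3⟩ := hth Nm (by omega)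
  have hν1 : c ≤ (N1 : ℝ) / n := by rwa [le_div_iff₀ hn0]
  have hνm : (Nm : ℝ) / n ≤ c ^ 4 / 10 ^ 8 := by rwa [div_le_iff₀ hn0]
  have hνm0 : 0 ≤ (Nm : ℝ) / n := by positivity
  obtain ⟨c1, c2, c3, -, -⟩ := hC Λ W hW Z a δ (th n Nm) ha (by linarith)
  obtain ⟨-, -, -, c4, c5⟩ := hC Λ W hW Z a δ (th n N1) ha (by linarith)
  set R := lt Λ (th n N1) with hR
  obtain ⟨r1, r2, r3, -, -⟩ := hK1 (th n N1)
  have hRs : ∀ s s', Commute R (swp s s') := fun s s' => r3 _ (comm_cas_swp s s')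
  have hRW : (R * W).PosSemidef := psd_mul r1 hW.psd (hW.comm hRs)
  have hZ : ∀ N, ∑ σ, dg (sec N * W) σ = Zs W N := c3
  have key := hcore (Λ → Bool) Z n Nm N1 (fun z => mz (a z)) (fun N => dg (sec N * W))
    (fun σ => (R * W) σ σ) (fun z σ => abs_mz_le (ha.nonneg z) (ha.sum z) σ) c2 c4
    (by simpa only [hZ] using hU) (fun N z => (hN Λ W hW (a z)).2.1 N)
    (fun w => by
      have := hN Λ W hW fun s => ∑ z, w z * a z s
      simp only [mz_sum] at this
      exact ⟨this.1, this.2.2⟩)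
    (fun N hN1 => by
      refine (c1 N _ (by nlinarith)).trans ?_
      rw [hkey Nm N (by omega) (by omega), hZ]
      have z0 := hU.nonneg N
      have z1 : max (Zs W N - Zs W Nm) 0 ≤ e * Zs W N := by
        refine max_le ?_ (by positivity)
        rcases le_total N Nm with h | h
        · have := hU.mono N Nm h (by omega)
          have : 0 ≤ e * Zs W N := by positivity
          linarith
        · have a1 := hU.mono N N1 hN1 h2N1
          have a2 := hU.mono Nm N h (by omega)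
          nlinarith
      have z2 : 8 / (n : ℝ) ≤ 8 * e := by
        rw [div_le_iff₀ hn0]; nlinarith
      change 8 / (n : ℝ) * Zs W N + _ ≤ _
      nlinarith)
    hNm' h1 h2 (by nlinarith)
    (by rw [hZ, hZ]; have := hU.nonneg Nm; nlinarith)
    (by
      simp only [hZ]
      have b1 := hen R r1 r2 hRs
      have b2 : (R * W).trace = ∑ σ, (R * W) σ σ := rfl
      have b3 := hRW.trace_nonneg
      rw [← b2, ← hsum]
      have b4 : c * (R * W).trace ≤ (1 - th n N1) * (R * W).trace :=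
        mul_le_mul_of_nonneg_right (by linarith) b3
      nlinarith)
  simp only [hZ] at key
  refine le_trans ?_ key
  change _ ≤ (R * W).trace
  have e1 : (R * W).trace = ∑ N ∈ Finset.range (n + 1), (sec N * R * W).trace := by
    rw [← trace_sum, ← Finset.sum_mul, ← Finset.sum_mul, sum_sec, Matrix.one_mul]
  rw [e1]
  refine le_trans (Finset.sum_le_sum fun N hN => ?_)
    (Finset.sum_le_sum_of_subset_of_nonneg (Finset.filter_subset _ _) fun N _ _ => ?_)
  · rw [hkey N1 N h2N1 (Finset.mem_filter.1 hN).2.2]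
    exact le_max_left _ _
  · rw [Matrix.mul_assoc]
    exact tr_mul_nonneg (sec_psd N) hRW

end Crest.Agent.N337.C
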